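import Vale.Agent.P354YV.Defs
import Vale.Agent.P354XC.Defs
import Vale.Agent.P354XS.Iface
import Vale.Agent.P354PU.Gen

/-!
Block P of the conditional track: the kick on the initial slice. Definitions and exact
statements.
-/

open scoped ContDiff
open Set

noncomputable section

namespace Vale.Agent.P354XP

open Vale.Agent.P354H (X3)
open Vale.Agent.P354C (Ix)
open Vale.Agent.P354I (X Dat pd Con Cyl)
open Vale.Agent.P354J (U0 PDy)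
open Vale.Agent.P354E (sg)
open Vale.Agent.P354PU (JG pg)
open Vale.Agent.P354XB (Sa Prf Win)
open Vale.Agent.P354XC (Gam)
open Vale.Agent.P354XS (DA qm)
open Vale.Agent.P354YV (Syf)

/-- The chart j of the window on the initial slice: jets of order at most n are at most G, the
image lies in the shell ρ ≤ |y| ≤ 2 ρ and away from the pole opposite to σ. -/
structure Cht (n : ℕ) (R w G ρ c : ℝ) (σ : Bool) (j : X3 → X) : Prop where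
  sm : ContDiffOn ℝ ∞ j (Win R w 6)
  inj : InjOn j (Win R w 6)
  bd : ∀ z ∈ Win R w 6, G⁻¹ ≤ |(JG j z).det| ∧ ∀ i, Sa 1 n (fun x => j x i) z G
  loc : ∀ z ∈ Win R w 6, ρ ≤ ‖j z‖ ∧ ‖j z‖ ≤ 2 * ρ ∧ c * ‖j z‖ ≤ ‖j z‖ + sg σ * j z 2

/-- The direction of y. -/
def dir (y : X) : X := ‖y‖⁻¹ • y

/-- The points which lie outward of C with the slope l. -/
def Hull (l : ℝ) (C : Set X) : Set X := {y | ∃ x ∈ C, ‖x‖ + l * ‖dir y - dir x‖ ≤ ‖y‖}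

/-- The initial values of the data d in the chart j. -/
def Uj (d : Dat) (j : X3 → X) : X3 → Ix → ℝ := U0 (pg j d.h) (pg j d.K)

/-- LOC: the initial values in a local chart. -/
def LOC : Prop :=
  ∀ (d : Dat) (j : X3 → X) (D : Set X3), PDy d → Con d → IsOpen D → ContDiffOn ℝ ∞ j D →
    (∀ z ∈ D, j z ≠ 0 ∧ (JG j z).det ≠ 0) → Syf D (Uj d j) (pg j d.h) (pg j d.K)

/-- KSG: the kick on the initial slice. -/
def KSG : Prop :=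
  ∀ n : ℕ, ∃ n' : ℕ, ∀ c > 0, ∃ c0 > 0, ∀ M a : ℝ, |a| < M → ∀ (d : DA M a) (m : ℕ),
    ∃ (N : ℕ) (ρ0 : ℝ), ∀ (σ : Bool) (R w G ρ A l : ℝ) (j : X3 → X) (α : X3 → Ix → ℝ),
      0 < w → ρ0 ≤ ρ → ρ ≤ G → Cht n' R w G ρ c σ j → Prf n' R w G α → 1 ≤ l → 0 < A →
      A * (l * G) ^ N ≤ 1 → ∃ d' : DA M a,
        qm m d'.1 d.1 ≤ ENNReal.ofReal (A * (l * G) ^ N) ∧
        (∀ y ≠ 0, y ∉ Hull (c0 * ρ) (j '' tsupport α) → d'.1.h y = d.1.h y ∧ d'.1.K y = d.1.K y) ∧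
        ∀ z ∈ Win R w 6, (j z ∉ Hull (c0 * ρ) (j '' tsupport α) → Uj d'.1 j z = Uj d.1 j z) ∧
          ∀ i, Sa l n (fun x => Uj d'.1 j x i - Uj d.1 j x i - A * Real.sin (l * x.1) * α x i) z
            (A * G ^ N / l)

/-- The linear map which sends the cone Gam to a cone about the pole σ. -/
def Lam (σ : Bool) (x : X) : X := !₂[x 1 / 2, x 2 / 2, sg σ * x 0]

/-- CONE: a chart of the slice which is linear far out and opens the cone at the radius ρ. -/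
def CONE : Prop :=
  ∀ c > 0, ∃ (B : ℕ → ℝ) (c0 : ℝ), 0 < c0 ∧ ∀ (σ : Bool) (ρ : ℝ), 0 < ρ → ∃ Ψ Θ : X → X,
    Cyl B Ψ Θ ∧ (∀ x, ‖Ψ x‖ = ‖Lam σ x‖) ∧ (∀ x, 10 * ρ ≤ ‖x‖ → Ψ x = Lam σ x) ∧
    (∀ y, ρ ≤ ‖y‖ → ‖y‖ ≤ 2 * ρ → c * ‖y‖ ≤ ‖y‖ + sg σ * y 2 → Θ y ∈ Gam (ρ / 2)) ∧
    ∀ x ∈ Gam (ρ / 2), ∀ s : ℝ, 0 ≤ s → ∀ v : X, v 0 = 1 → |v 1| ≤ 1 → |v 2| ≤ 1 →
      ‖Ψ x‖ + c0 * ρ * ‖dir (Ψ (x + s • v)) - dir (Ψ x)‖ ≤ ‖Ψ (x + s • v)‖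

/-- Derivatives along words on X; the head of the word is applied first. -/
def pw : List (Fin 3) → (X → ℝ) → X → ℝ
  | [], f => f
  | i :: β, f => pw β (pd i f)

/-- MOLL: mollification with a kernel in the forward cone. -/
def MOLL : Prop :=
  ∃ C : ℕ → ℝ, ∀ δ ∈ Ioc (0 : ℝ) 1, ∃ M : (X → ℝ) → X → ℝ, ∀ f : X → ℝ, ContDiff ℝ ∞ f →
    HasCompactSupport f → ContDiff ℝ ∞ (M f) ∧
      (∀ x, M f x ≠ 0 → ∃ s ∈ Icc 0 δ, ∃ v : X, v 0 = 1 ∧ |v 1| ≤ 1 ∧ |v 2| ≤ 1 ∧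
        f (x - s • v) ≠ 0) ∧
      (∀ i, pd i (M f) = M (pd i f)) ∧
      (∀ c, (∀ i x, |pd i f x| ≤ c) → ∀ x, |M f x - f x| ≤ 3 * δ * c) ∧
      ∀ c, (∀ x, |f x| ≤ c) → ∀ β x, |pw β (M f) x| ≤ C β.length * c / δ ^ β.length

end Vale.Agent.P354XP
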