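import Vale.Agent.P354XP.Defs

/-!
MOLL: mollification with a kernel in the forward cone.
-/

open scoped ContDiff Convolution
open Set MeasureTheory Metric ContinuousLinearMap

noncomputable section

namespace Vale.Agent.P354XP

open Vale.Agent.P354I (X pd ee)

/-- The convolution of real functions. -/
def cvl (k f : X → ℝ) : X → ℝ := k ⋆[lsmul ℝ ℝ, volume] f

/-- Smooth functions with compact support. -/
def Tst (f : X → ℝ) : Prop := ContDiff ℝ ∞ f ∧ HasCompactSupport f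

variable {k f : X → ℝ}

theorem Tst.pd (h : Tst f) (i : Fin 3) : Tst (pd i f) :=
  ⟨(h.1.fderiv_right (m := ∞) le_rfl).clm_apply contDiff_const, h.2.fderiv_apply ℝ (ee i)⟩

theorem Tst.pw (β : List (Fin 3)) : ∀ {f : X → ℝ}, Tst f → Tst (pw β f) := by
  induction β with
  | nil => exact fun h => h
  | cons i β ih => exact fun h => ih (h.pd i)

theorem cvl_comm (k f : X → ℝ) : cvl k f = cvl f k := by
  funext x
  rw [cvl, convolution_eq_swap]
  simp only [cvl, convolution_def, lsmul_apply, smul_eq_mul, mul_comm]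

theorem cvl_cd (hk : Tst k) (hf : Tst f) : ContDiff ℝ ∞ (cvl k f) :=
  hf.2.contDiff_convolution_right _ hk.1.continuous.locallyIntegrable hf.1

theorem pd_cvl (hk : Tst k) (hf : Tst f) (i : Fin 3) : pd i (cvl k f) = cvl k (pd i f) := by
  funext x
  have h1 : ContDiff ℝ 1 f := hf.1.of_le (by simp)
  rw [pd, cvl, (hf.2.hasFDerivAt_convolution_right _ hk.1.continuous.locallyIntegrable h1 x).fderiv,
    convolution_precompR_apply _ hk.1.continuous.locallyIntegrable (hf.2.fderiv ℝ)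
      (h1.continuous_fderiv one_ne_zero)]
  rfl

theorem pw_cvl (hf : Tst f) (β : List (Fin 3)) :
    ∀ {k : X → ℝ}, Tst k → pw β (cvl k f) = cvl (pw β k) f := by
  induction β with
  | nil => exact fun _ => rfl
  | cons i β ih =>
    intro k hk
    rw [pw, cvl_comm, pd_cvl hf hk, cvl_comm, ih (hk.pd i), pw]

theorem cvl_le (hk : Tst k) {c : ℝ} (hc : ∀ x, |f x| ≤ c) (x : X) :
    |cvl k f x| ≤ (∫ t, |k t|) * c := by
  rw [← integral_mul_const, ← Real.norm_eq_abs]
  refine norm_integral_le_of_norm_le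
    ((hk.1.continuous.integrable_of_hasCompactSupport hk.2).abs.mul_const c)
    (Filter.Eventually.of_forall fun t => ?_)
  rw [lsmul_apply, smul_eq_mul, Real.norm_eq_abs, abs_mul]
  exact mul_le_mul_of_nonneg_left (hc _) (abs_nonneg _)

/-- Dilations. -/
def dil (a : ℝ) (f : X → ℝ) : X → ℝ := fun x => f (a • x)

theorem pd_dil (a : ℝ) (f : X → ℝ) (i : Fin 3) : pd i (dil a f) = a • dil a (pd i f) := by
  funext x
  exact congrArg (fun L : X →L[ℝ] ℝ => L (ee i)) (fderiv_comp_smul (f := f) (x := x) a)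

theorem pd_smul (a : ℝ) (f : X → ℝ) (i : Fin 3) : pd i (a • f) = a • pd i f := by
  funext x
  rw [pd, fderiv_const_smul_field]
  rfl

theorem pw_smul (a : ℝ) (β : List (Fin 3)) : ∀ f : X → ℝ, pw β (a • f) = a • pw β f := by
  induction β with
  | nil => exact fun _ => rfl
  | cons i β ih => intro f; rw [pw, pd_smul, ih, pw]

theorem pw_dil (a : ℝ) (β : List (Fin 3)) :
    ∀ f : X → ℝ, pw β (dil a f) = a ^ β.length • dil a (pw β f) := by
  induction β with
  | nil => intro f; simp [pw]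
  | cons i β ih =>
    intro f
    rw [pw, pd_dil, pw_smul, ih, pw, smul_smul, List.length_cons, pow_succ']

theorem Tst.dil (h : Tst f) {a : ℝ} (ha : a ≠ 0) : Tst (dil a f) :=
  ⟨h.1.comp (contDiff_const_smul a), h.2.comp_smul ha⟩

/-- The kernel. -/
def bmp : ContDiffBump ((3 / 4 : ℝ) • ee 0 : X) := ⟨1 / 8, 1 / 4, by norm_num, by norm_num⟩
def ker : X → ℝ := bmp.normed volume

theorem ker_tst : Tst ker := ⟨bmp.contDiff_normed, bmp.hasCompactSupport_normed⟩

theorem ker_ne {t : X} (h : ker t ≠ 0) :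
    ‖t‖ < 1 ∧ 1 / 2 < t 0 ∧ t 0 < 1 ∧ |t 1| < 1 / 4 ∧ |t 2| < 1 / 4 := by
  have k : t ∈ ball ((3 / 4 : ℝ) • ee 0 : X) (1 / 4) := bmp.support_normed_eq (μ := volume) ▸ h
  rw [mem_ball, dist_eq_norm] at k
  have c := fun i => (PiLp.norm_apply_le (t - (3 / 4 : ℝ) • ee 0) i).trans_lt k
  have c0 := c 0
  have c1 := c 1
  have c2 := c 2
  have n : ‖((3 / 4 : ℝ) • ee 0 : X)‖ = 3 / 4 := by simp [ee, norm_smul]
  simp [ee] at c0 c1 c2
  rw [abs_lt] at c0
  exact ⟨by linarith [norm_le_insert' t ((3 / 4 : ℝ) • ee 0)], by linarith [c0.1],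
    by linarith [c0.2], by linarith, by linarith⟩

theorem lip (hf : ContDiff ℝ ∞ f) {c : ℝ} (h : ∀ i x, |pd i f x| ≤ c) (x y : X) :
    |f y - f x| ≤ 3 * c * ‖y - x‖ := by
  have c0 : 0 ≤ c := (abs_nonneg _).trans (h 0 x)
  refine convex_univ.norm_image_sub_le_of_norm_fderiv_le
    (fun z _ => hf.differentiable (by simp) z) (fun z _ => ?_) (mem_univ x) (mem_univ y)
  refine opNorm_le_bound _ (by positivity) fun v => ?_
  have e : v = v 0 • ee 0 + v 1 • ee 1 + v 2 • ee 2 := by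
    ext i; fin_cases i <;> simp [ee]
  have b : ∀ i, ‖v i • fderiv ℝ f z (ee i)‖ ≤ c * ‖v‖ := fun i => by
    rw [norm_smul, mul_comm]
    exact mul_le_mul (h i z) (PiLp.norm_apply_le v i) (norm_nonneg _) c0
  conv_lhs => rw [e]
  simp only [map_add, map_smul]
  linarith [norm_add₃_le (a := v 0 • fderiv ℝ f z (ee 0)) (b := v 1 • fderiv ℝ f z (ee 1))
    (c := v 2 • fderiv ℝ f z (ee 2)), b 0, b 1, b 2]

theorem ker_near (hf : ContDiff ℝ ∞ f) {c : ℝ} (h : ∀ i x, |pd i f x| ≤ c) (x : X) :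
    |cvl ker f x - f x| ≤ 3 * c := by
  have c0 : 0 ≤ c := (abs_nonneg _).trans (h 0 x)
  refine dist_convolution_le (R := 1) (by positivity)
    (fun t ht => mem_ball_zero_iff.2 (ker_ne ht).1) (fun t => bmp.nonneg_normed t)
    bmp.integral_normed hf.continuous.aestronglyMeasurable fun y hy => (lip hf h x y).trans ?_
  exact mul_le_of_le_one_right (by positivity) (mem_ball_iff_norm.1 hy).le

/-- **MOLL.** -/
theorem moll : MOLL := by
  refine ⟨fun n => ∑ b : Fin n → Fin 3, ∫ t, |pw (List.ofFn b) ker t|, fun δ hδ =>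
    ⟨fun f => dil δ⁻¹ (cvl ker (dil δ f)), fun f h1 h2 => ?_⟩⟩
  have h0 := hδ.1.ne'
  have hf : Tst (dil δ f) := Tst.dil ⟨h1, h2⟩ h0
  refine ⟨(cvl_cd ker_tst hf).comp (contDiff_const_smul _), fun x hx => ?_, fun i => ?_,
    fun c hc x => ?_, fun c hc β x => ?_⟩
  · obtain ⟨t, ht⟩ := exists_ne_zero_of_integral_ne_zero hx
    rw [lsmul_apply, smul_eq_mul, mul_ne_zero_iff] at ht
    obtain ⟨-, t0, t1, t2, t3⟩ := ker_ne ht.1
    have p : 0 < t 0 := by linarith
    have q : ∀ i, |t i| < 1 / 4 → |((t 0)⁻¹ • t) i| ≤ 1 := fun i hi => by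
      rw [PiLp.smul_apply, smul_eq_mul, abs_mul, abs_inv, abs_of_pos p, inv_mul_le_iff₀ p]
      linarith
    refine ⟨δ * t 0, ⟨(mul_pos hδ.1 p).le, mul_le_of_le_one_right hδ.1.le t1.le⟩, (t 0)⁻¹ • t,
      inv_mul_cancel₀ p.ne', q 1 t2, q 2 t3, ?_⟩
    have := ht.2
    rwa [dil, smul_sub, smul_inv_smul₀ h0, ← mul_inv_cancel_right₀ p.ne' δ, mul_smul] at this
  · rw [pd_dil, pd_cvl ker_tst hf, pd_dil, cvl, convolution_smul]
    funext x
    simp only [dil, Pi.smul_apply, smul_eq_mul, inv_mul_cancel_left₀ h0, cvl]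
  · have := ker_near (c := δ * c) hf.1 (fun i y => by
      rw [pd_dil, Pi.smul_apply, smul_eq_mul, abs_mul, abs_of_pos hδ.1]
      exact mul_le_mul_of_nonneg_left (hc i _) hδ.1.le) (δ⁻¹ • x)
    rw [dil, smul_inv_smul₀ h0, ← mul_assoc] at this
    exact this
  · rw [pw_dil, pw_cvl hf β ker_tst, Pi.smul_apply, smul_eq_mul, abs_mul,
      abs_of_pos (pow_pos (inv_pos.2 hδ.1) _), inv_pow, mul_comm, ← div_eq_mul_inv]
    refine div_le_div_of_nonneg_right ((cvl_le (ker_tst.pw β) (fun y => hc _) _).trans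
      (mul_le_mul_of_nonneg_right ?_ ((abs_nonneg _).trans (hc x)))) (pow_pos hδ.1 _).le
    have := Finset.single_le_sum (f := fun b : Fin β.length → Fin 3 =>
      ∫ t, |pw (List.ofFn b) ker t|) (fun b _ => integral_nonneg fun t => abs_nonneg _)
      (Finset.mem_univ β.get)
    rwa [List.ofFn_get] at this

end Vale.Agent.P354XP
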