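import Vale.Agent.P354XP.Wkb
import Vale.Agent.P354XP.Defs
import Vale.Agent.P354PU.Pull1

/-!
Block P: the exact statements of the parts of KSG.
-/

open scoped ContDiff
open Set Filter Topology Matrix

noncomputable section

namespace Vale.Agent.P354XP

open Vale.Agent.P354H (X3)
open Vale.Agent.P354C (Ix)
open Vale.Agent.P354I (X Dat ee pd Con Cyl Cy1)
open Vale.Agent.P354J (U0 PDy M3)
open Vale.Agent.P354T (DSm)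
open Vale.Agent.P354PU (JG JX pg)
open Vale.Agent.P354XB (Sa Pol Win)
open Vale.Agent.P354XC (Gam Cone Ham Mom)
open Vale.Agent.P354XS (DA qm)

/-- The first unit vector. -/
def e0 : Fin 3 → ℝ := ![1, 0, 0]

/-- PREP: the leading terms of the perturbation of h and K which produce the wave
A sin (lam x) α in the initial values. -/
def PREP : Prop :=
  ∃ gam kap : M3 → (Ix → ℝ) → M3,
    (∀ h a i j, gam h a i j = gam h a j i ∧ kap h a i j = kap h a j i) ∧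
    (∀ h, gam h 0 = 0 ∧ kap h 0 = 0) ∧
    (∀ h a, h.PosDef → (h⁻¹ * gam h a).trace = 0 ∧ gam h a *ᵥ (h⁻¹ *ᵥ e0) = 0 ∧
      (h⁻¹ * kap h a).trace = 0 ∧ kap h a *ᵥ (h⁻¹ *ᵥ e0) = 0) ∧
    ∀ (P : Type) (O : Os P X3) (h : P → X3 → M3) (α : P → X3 → Ix → ℝ), O.F.e = P354H.e →
      (O.F.Ev fun r x => (h r x).PosDef) → O.F.B0 1 (fun r x => (h r x).det)⁻¹ →
      (∀ k ≤ O.K, (∀ i j, O.F.T k 1 fun r x => h r x i j) → (∀ i, O.F.T k 1 fun r x => α r x i) →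
        ∀ i j, (O.F.T k 1 fun r x => gam (h r x) (α r x) i j) ∧
          O.F.T k 1 fun r x => kap (h r x) (α r x) i j) ∧
      ∀ (k : ℕ) (K h' K' : P → X3 → M3), (O.φ = fun _ x => x.1) →
        (∀ᶠ r in O.F.l, Pol (α r) ∧ O.s r = O.A r / O.lam r) →
        (O.F.Ev fun r x => (K r x).IsSymm) →
        (∀ i j, O.Rel (k + 2) (-2) (fun r x => h r x i j) (fun r x => h r x i j)
          (fun r x => h' r x i j) fun r x => (0, gam (h r x) (α r x) i j)) →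
        (∀ i j, O.Rel (k + 1) (-1) (fun r x => K r x i j) (fun r x => K r x i j)
          (fun r x => K' r x i j) fun r x => (kap (h r x) (α r x) i j, 0)) →
        ∃ N : ℕ, ∀ᶠ r in O.F.l, ∀ z ∈ O.F.U r, ∀ i, Sa (O.lam r) k (fun x =>
          U0 (h' r) (K' r) x i - U0 (h r) (K r) x i - O.A r * Real.sin (O.lam r * x.1) * α r x i) z
          (O.A r * O.F.G r ^ N / O.lam r)

/-- The properties of the chart of CONE which concern the size. -/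
def Cn (B : ℕ → ℝ) (σ : Bool) (ρ : ℝ) (Ψ Θ : X → X) : Prop :=
  Cyl B Ψ Θ ∧ (∀ x, ‖Ψ x‖ = ‖Lam σ x‖) ∧ ∀ x, 10 * ρ ≤ ‖x‖ → Ψ x = Lam σ x

/-- BG: the background in the chart of the cone. -/
def BG : Prop :=
  ∀ M a : ℝ, |a| < M → ∀ (d : DA M a) (B : ℕ → ℝ), ∃ ρ0 c : ℝ, 0 < c ∧ ∃ C : ℕ → ℝ,
    ∀ σ ρ Ψ Θ, ρ0 ≤ ρ → Cn B σ ρ Ψ Θ → ∀ x : X, ρ / 4 ≤ ‖x‖ →
      (∀ v : Fin 3 → ℝ, c * (v ⬝ᵥ v) ≤ v ⬝ᵥ (d.1.pull Ψ).h x *ᵥ v) ∧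
      c ≤ ((d.1.pull Ψ).h x).det ∧ ∀ k i j,
        ‖x‖ ^ k * ‖iteratedFDeriv ℝ k (fun y => (d.1.pull Ψ).h y i j) x‖ ≤ C k ∧
        ‖x‖ ^ (k + 2) * ‖iteratedFDeriv ℝ (k + 1) (fun y => (d.1.pull Ψ).h y i j) x‖ ≤ C k * ρ ∧
        ‖x‖ ^ (k + 2) * ‖iteratedFDeriv ℝ k (fun y => (d.1.pull Ψ).K y i j) x‖ ≤ C k * ρ

/-- QP: the seminorms and the pull back. -/
def QP : Prop :=
  ∀ (B : ℕ → ℝ) (m : ℕ), ∃ C : ℝ, 0 ≤ C ∧ ∀ (ψ : X → X) (d d' : Dat), Cy1 B ψ →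
    (∀ y ≠ 0, ‖y‖ ≤ 2 * ‖ψ y‖ ∧ ‖ψ y‖ ≤ 2 * ‖y‖) → DSm d → DSm d' →
    qm m (d.pull ψ) (d'.pull ψ) ≤ ENNReal.ofReal C * qm m d d'

/-- CHART: the window in the chart of the cone. -/
def CHART : Prop :=
  ∀ (P : Type) (B : ℕ → ℝ) (c : ℝ) (n : ℕ) (F : Fr P X3) (R w ρ : P → ℝ) (σ : P → Bool)
    (j : P → X3 → X) (Ψ Θ : P → X → X), F.e = P354H.e → F.V = F.U → (∀ i, F.c i = 1) →
    (∀ᶠ r in F.l, F.U r = Win (R r) (w r) 6 ∧ 1 ≤ ρ r ∧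
      Cht (n + 1) (R r) (w r) (F.G r) (ρ r) c (σ r) (j r) ∧ Cn B (σ r) (ρ r) (Ψ r) (Θ r)) →
    ∃ (F' : Fr P X) (θ : P → X → X3) (J : Fin 3 → Fin 3 → Fn P X), F'.l = F.l ∧ F'.e = ee ∧
      F'.V = F'.U ∧ F'.G = F.G ∧ (∀ i, F'.c i = 1) ∧
      (∀ r, F'.U r = (fun z => Θ r (j r z)) '' F.U r) ∧ Fr.Mp F' F θ J ∧
      (Fr.Mp F F' (fun r z => Θ r (j r z)) fun i b r z => (JG (j r) z * JX (Θ r) (j r z)) i b) ∧
      (∀ i b, F'.T n 1 (J i b) ∧ F.T n 1 fun r z => (JG (j r) z * JX (Θ r) (j r z)) i b) ∧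
      F.Ev fun r z => θ r (Θ r (j r z)) = z ∧
        JG (j r) z * JX (Θ r) (j r z) * (of fun i b => J i b r (Θ r (j r z))) = 1

/-- HULL: the set of the points outward of C is an invariant cone in the chart. -/
def HULL : Prop :=
  ∀ (l R : ℝ) (C : Set X) (Ψ : X → X), 0 < R → 0 ≤ l → IsCompact C → (0 : X) ∉ C →
    ContinuousOn Ψ {0}ᶜ → (∀ x ∈ Gam R, ∀ s : ℝ, 0 ≤ s → ∀ v : X, v 0 = 1 → |v 1| ≤ 1 →
      |v 2| ≤ 1 → ‖Ψ x‖ + l * ‖dir (Ψ (x + s • v)) - dir (Ψ x)‖ ≤ ‖Ψ (x + s • v)‖) →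
    IsClosed (Hull l C) ∧ C ⊆ Hull l C ∧ Cone R {x ∈ Gam R | Ψ x ∈ Hull l C}

/-- MOL: extension by zero and mollification. -/
def MOL : Prop :=
  ∀ (P : Type) (F : Fr P X) (C : P → Set X) (δ : P → ℝ), F.e = ee → F.V = F.U →
    (∀ i, F.c i = 1) → (∀ᶠ r in F.l, IsCompact (C r) ∧ C r ⊆ F.U r ∧ δ r ∈ Ioc 0 1) →
    ∃ E M : Fn P X → Fn P X, ∀ (k : ℕ) (a : P → ℝ) (f : Fn P X), F.T (k + 1) (pr a) f →
      (∀ᶠ r in F.l, 0 ≤ a r) → (F.Ev fun r x => x ∉ C r → f r x = 0) → F.Eq f (E f) ∧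
      (∀ᶠ r in F.l, (∀ x ∉ C r, E f r x = 0) ∧ ∀ x, M f r x ≠ 0 → ∃ s ∈ Icc (0 : ℝ) 1, ∃ v : X,
        v 0 = 1 ∧ |v 1| ≤ 1 ∧ |v 2| ≤ 1 ∧ x - s • v ∈ C r) ∧
      ∀ F' : Fr P X, F'.l = F.l → F'.e = ee → (∀ i, F'.c i = 1) →
        (∀ᶠ r in F.l, F.G r ≤ F'.G r) → F'.T (k + 1) (pr a) (E f) ∧
          F'.T k (pr (δ * a)) (M f - E f) ∧
          ((∀ᶠ r in F.l, (δ r)⁻¹ ≤ F'.G r) → ∀ m, F'.T m (pr a) (M f))

variable {P : Type}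

/-- A frame on the cone in which every derivative costs lam; A is infinitely small. -/
structure Fit (F : Fr P X) (l : Filter P) (ρ lam A s : P → ℝ) : Prop where
  hl : F.l = l
  he : F.e = ee
  hc : ∀ i, F.c i = pr lam
  hU : F.U = fun _ => {0}ᶜ
  hV : F.V = fun r => Gam (ρ r / 2)
  ev : ∀ᶠ r in l, ρ r ≤ F.G r ∧ 1 ≤ lam r ∧ s r ≤ A r
  small : ∀ n : ℕ, ∀ᶠ r in l, (lam r * F.G r) ^ n * A r ≤ 1

/-- The perturbation has the size A and the defect has the size s. -/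
def App (F : Fr P X) (k : ℕ) (A s : P → ℝ) (d : P → Dat) (u v : Fin 3 → Fin 3 → Fn P X) : Prop :=
  (∀ i j, F.T (k + 1) (pr A) (u i j) ∧ F.T k (pr A) (v i j)) ∧
    F.T k (pr s) (lf Ham (ad d u v)) ∧ ∀ b, F.T k (pr s) (lf (fun d => Mom d b) (ad d u v))

/-- TAIL: the correction to an exact solution in the chart of the cone. -/
def TAIL : Prop :=
  ∀ M a : ℝ, |a| < M → ∀ (d : DA M a) (B : ℕ → ℝ) (P : Type) (l : Filter P) (σ : P → Bool)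
    (ρ : P → ℝ) (Ψ Θ : P → X → X) (S : P → Set X) (u v : Fin 3 → Fin 3 → Fn P X),
    Tendsto ρ l atTop → (∀ i j, u i j = u j i ∧ v i j = v j i) →
    (∀ᶠ r in l, Cn B (σ r) (ρ r) (Ψ r) (Θ r) ∧ Cone (ρ r / 2) (S r) ∧
      ∀ i j x, x ∉ S r ∨ 9 * ρ r ≤ ‖x‖ → u i j r x = 0 ∧ v i j r x = 0) →
    (∃ F lam A s, Fit F l ρ lam A s ∧ App F 0 A s (fun r => d.1.pull (Ψ r)) u v) →
    ∃ d1 : P → Dat, (∀ᶠ r in l, PDy (d1 r) ∧ Con (d1 r) ∧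
        (∀ x ∉ S r, (d1 r).h x = (d.1.pull (Ψ r)).h x ∧ (d1 r).K x = (d.1.pull (Ψ r)).K x) ∧
        ∀ m, qm m (d1 r) (d.1.pull (Ψ r)) < ⊤) ∧
      ∀ F lam A s k, Fit F l ρ lam A s → App F k A s (fun r => d.1.pull (Ψ r)) u v →
        (∀ i j, F.T k (pr s) (hh d1 i j - hh (ad (fun r => d.1.pull (Ψ r)) u v) i j) ∧
          F.T k (pr s) (kk d1 i j - kk (ad (fun r => d.1.pull (Ψ r)) u v) i j)) ∧
        ∃ n : ℕ, ∀ᶠ r in l,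
          qm k (d1 r) (d.1.pull (Ψ r)) ≤ ENNReal.ofReal ((lam r * F.G r) ^ n * A r)

end Vale.Agent.P354XP
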