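import Vale.Agent.P354XP.Lip

/-!
The approximate solution is extended by zero and mollified.
-/

open scoped ContDiff
open Set Filter Topology Matrix

noncomputable section

namespace Vale.Agent.P354XP

open Vale.Agent.P354I (X Dat ee pd Con)
open Vale.Agent.P354XC (Ham Mom Gam Cone)

variable {P : Type}

/-- The frame on the exterior of a ball. -/
def FB (l : Filter P) (ρ G : P → ℝ) (h : ∀ᶠ r in l, 2 ≤ G r) : Fr P X where
  l := l
  e := ee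
  U r := {x | ρ r / 4 < ‖x‖}
  V r := {x | ρ r / 4 < ‖x‖}
  G := G
  c _ := 1
  ok := h.mono fun _ h =>
    ⟨isOpen_lt continuous_const continuous_norm, subset_rfl, h, fun _ _ _ => zero_le_one⟩

/-- The frame on the cone. -/
def FC (l : Filter P) (ρ G lam : P → ℝ) (h : ∀ᶠ r in l, 1 ≤ ρ r ∧ 2 ≤ G r ∧ 1 ≤ lam r) :
    Fr P X where
  l := l
  e := ee
  U _ := {0}ᶜ
  V r := Gam (ρ r / 2)
  G := G
  c _ := pr lam
  ok := h.mono fun _ h => ⟨isOpen_compl_singleton, fun x hx e => by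
    have := hx.1; rw [e] at this; simp at this; linarith [h.1], h.2.1,
    fun _ _ _ => zero_le_one.trans h.2.2⟩

/-- No oscillation. -/
def OB (l : Filter P) (ρ G A s : P → ℝ) (K : ℕ) (h : ∀ᶠ r in l, 2 ≤ G r)
    (h1 : ∀ᶠ r in l, 0 < A r ∧ s r ≤ A r) (h2 : ∀ n : ℕ, ∀ᶠ r in l, G r ^ n * A r ^ 2 ≤ s r) :
    Os P X where
  F := FB l ρ G h
  C _ := ∅
  lam := 1
  A := A
  s := s
  φ := 0
  K := K
  hV := rfl
  hc _ := rfl
  ok := h1.mono fun _ h => ⟨isClosed_empty, le_rfl, h⟩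
  small n := (h2 n).mono fun _ h => by simpa [FB] using h
  sm := Fr.sm_cst 0
  ph i := (Fr.t_zero Fr.b0_one).cast (by funext r x; simp [D])

theorem gam_norm {R : ℝ} {x : X} (h : x ∈ Gam R) : R ≤ ‖x‖ :=
  h.1.trans ((le_abs_self _).trans (PiLp.norm_apply_le x 0))

/-- Functionals which are local and vanish on solutions of the constraints. -/
def Lc (Φ : Dat → X → ℝ) : Prop :=
  (∀ d d' y, d'.h =ᶠ[𝓝 y] d.h → d'.K =ᶠ[𝓝 y] d.K → Φ d' y = Φ d y) ∧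
    ∀ d, Con d → ∀ y ≠ 0, Φ d y = 0

theorem lc_ham : Lc Ham := ⟨fun _ _ _ a b => (ham_ev a b).1, fun _ h y hy => (h y hy).1⟩
theorem lc_mom (j : Fin 3) : Lc fun d => Mom d j :=
  ⟨fun _ _ _ a b => (ham_ev a b).2 j, fun _ h y hy => (h y hy).2 j⟩

theorem Lc.ev {Φ : Dat → X → ℝ} (h : Lc Φ) {d : P → Dat} {u v u' v' : Fin 3 → Fin 3 → Fn P X}
    {r : P} {x : X} (e : ∀ᶠ y in 𝓝 x, ∀ i j, u i j r y = u' i j r y ∧ v i j r y = v' i j r y) :
    Φ (ad d u v r) =ᶠ[𝓝 x] Φ (ad d u' v' r) := by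
  filter_upwards [e.eventually_nhds] with y e
  refine h.1 _ _ _ ?_ ?_ <;> filter_upwards [e] with z e <;> ext i j <;> simp [ad, e i j]

theorem Lc.zero {Φ : Dat → X → ℝ} (h : Lc Φ) {d : P → Dat} {u v : Fin 3 → Fin 3 → Fn P X}
    {r : P} (hc : Con (d r)) {S : Set X} (hS : IsClosed S)
    (z : ∀ i j, ∀ x ∉ S, u i j r x = 0 ∧ v i j r x = 0) {x : X} (h0 : x ≠ 0) (hx : x ∉ S) :
    Φ (ad d u v r) =ᶠ[𝓝 x] fun _ => 0 := by
  have e : ad d 0 0 r = d r := by simp only [ad]; congr <;> funext x <;> ext i j <;> simp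
  refine (h.ev (u' := 0) (v' := 0) ?_).trans ?_
  · filter_upwards [hS.isOpen_compl.mem_nhds hx] with y hy i j using z i j y hy
  · filter_upwards [isOpen_compl_singleton.mem_nhds h0] with y hy
    rw [e]; exact h.2 _ hc y hy

/-- The background has bounds of all orders outside the ball. -/
def Sb (l : Filter P) (ρ : P → ℝ) (d : P → Dat) : Prop :=
  ∀ F : Fr P X, F.l = l → F.e = ee → (∀ i, F.c i = 1) →
    (∀ᶠ r in l, F.U r ⊆ {0}ᶜ ∧ ∀ x ∈ F.V r, ρ r / 4 ≤ ‖x‖) →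
    (∀ m i j, F.T m 1 (hh d i j) ∧ F.T m 1 (kk d i j)) ∧ F.B0 1 (fun r x => ((d r).h x).det)⁻¹

/-- The constraints. -/
def Cs (Φ : Dat → X → ℝ) : Prop := Φ = Ham ∨ ∃ b, Φ = fun d => Mom d b

theorem Cs.lc {Φ : Dat → X → ℝ} : Cs Φ → Lc Φ
  | .inl h => h ▸ lc_ham
  | .inr ⟨b, h⟩ => h ▸ lc_mom b

theorem lipB {l : Filter P} {ρ G A s : P → ℝ} {d : P → Dat} {m : ℕ}
    {u v u' v' : Fin 3 → Fin 3 → Fn P X} (sb : Sb l ρ d)
    (h : ∀ᶠ r in l, 1 ≤ ρ r ∧ P354J.PDy (d r) ∧ Con (d r)) (a : ∀ᶠ r in l, 2 ≤ G r)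
    (b : ∀ᶠ r in l, 0 < A r ∧ s r ≤ A r) (c : ∀ n : ℕ, ∀ᶠ r in l, G r ^ n * A r ^ 2 ≤ s r)
    (h1 : ∀ i j, (FB l ρ G a).T (m + 2) (pr A) (u i j) ∧ (FB l ρ G a).T (m + 2) (pr A) (v i j))
    (h2 : ∀ i j, (FB l ρ G a).T (m + 2) (pr s) (u' i j - u i j) ∧
      (FB l ρ G a).T (m + 2) (pr s) (v' i j - v i j)) {Φ : Dat → X → ℝ} (hΦ : Cs Φ) :
    (FB l ρ G a).T m (pr A) (lf Φ (ad d u v)) ∧
      (FB l ρ G a).T m (pr s) (lf Φ (ad d u' v') - lf Φ (ad d u v)) := by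
  have n0 : ∀ᶠ r in l, ∀ x : X, ρ r / 4 < ‖x‖ → x ≠ 0 := h.mono fun r h x hx e => by
    rw [e, norm_zero] at hx; linarith [h.1]
  have q := sb (FB l ρ G a) rfl rfl (fun _ => rfl) (n0.mono fun r h => ⟨h, fun x hx => le_of_lt hx⟩)
  have p : (FB l ρ G a).Ev fun r x => ((d r).h x).PosDef := by
    filter_upwards [h, n0] with r h n0 x hx using (h.2.1.2 x (n0 x hx)).1
  have L := lipc (O := OB l ρ G A s (m + 2) a b c) rfl rfl le_rfl
    (fun i j => ⟨(q.1 _ i j).1, (q.1 _ i j).2⟩) (Eventually.mono p fun r h x hx => by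
      simpa only [IsSymm, conjTranspose_eq_transpose_of_trivial] using (h x hx).isHermitian.eq)
    ⟨Eventually.mono p fun r h x hx => (h x hx).det_pos.ne', q.2⟩
    (fun i j => ⟨Os.toH (h1 i j).1, Os.toH (h1 i j).2.pred⟩)
    fun i j => ⟨(h2 i j).1, (h2 i j).2.pred⟩
  have L' : (OB l ρ G A s (m + 2) a b c).H.T m (pr A) (lf Φ (ad d u v) - lf Φ d) ∧
      (FB l ρ G a).T m (pr s) (lf Φ (ad d u' v') - lf Φ (ad d u v)) := by
    rcases hΦ with rfl | ⟨j, rfl⟩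
    exacts [L.1, L.2 j]
  refine ⟨(L'.1.res (F' := FB l ρ G a) rfl rfl (.of_forall fun _ => ⟨subset_rfl, subset_rfl,
    fun _ _ _ => le_rfl⟩) fun n => ⟨n, .of_forall fun r x _ => by simp [Os.H, OB, FB]⟩).congr ?_,
    L'.2⟩
  filter_upwards [h, n0] with r h n0 x hx
  simp [lf, hΦ.lc.2 _ h.2.2 x (n0 x hx)]

theorem app (mol : MOL) {U : Os P X} {ρ δ : P → ℝ} {d : P → Dat} {S : P → Set X} {k J : ℕ}
    {γ κ : MA P X} (he : U.F.e = ee) (hk : k + 3 ≤ U.K) (sb : Sb U.F.l ρ d)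
    (h : ∀ᶠ r in U.F.l, 1 ≤ ρ r ∧ ρ r ≤ U.F.G r ∧ 0 < δ r ∧ P354J.PDy (d r) ∧ Con (d r) ∧
      Cone (ρ r / 2) (S r) ∧ IsCompact (U.C r) ∧ U.C r ⊆ U.F.U r ∧ U.C r ⊆ S r ∧
      ∀ x ∈ U.C r, ‖x‖ ≤ 4 * ρ r)
    (hδ : ∀ n : ℕ, ∀ᶠ r in U.F.l, (U.lam r * U.F.G r) ^ n * δ r ≤ 1 ∧
      (U.lam r * U.F.G r / δ r) ^ n * U.A r ≤ δ r ∧
      (U.lam r * U.F.G r) ^ n * (δ r * U.A r) ≤ U.s r) (hal : U.al (-J - 1) = pr U.s)
    (hγ : U.SA (k + 3) γ) (hκ : U.SA (k + 3) κ) (st : St U (k + 1) J d γ κ) :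
    ∃ (B π : MA P X) (u v : Fin 3 → Fin 3 → Fn P X), U.SA k B ∧ U.SA k π ∧
      (∀ i j, u i j = u j i ∧ v i j = v j i) ∧
      (∀ᶠ r in U.F.l, ∀ i j x, x ∉ S r ∨ 9 * ρ r ≤ ‖x‖ → u i j r x = 0 ∧ v i j r x = 0) ∧
      (∀ i j, U.F.T k (pr U.s) (u i j - U.pu (-2) γ B i j) ∧
        U.F.T k (pr U.s) (v i j - U.pu (-1) κ π i j)) ∧
      (∃ F, Fit F U.F.l ρ U.lam δ U.s ∧ F.G = U.F.G ∧ App F k δ U.s d u v) ∧
      ∀ m, ∃ F, Fit F U.F.l ρ 1 U.A U.A ∧ (F.G = fun r => U.lam r * U.F.G r / δ r) ∧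
        App F m U.A U.A d u v := by
  obtain ⟨B, π, eH, eM, hB, hπ, aH, aM, tH, tM⟩ := st
  have o : ∀ᶠ r in U.F.l, 2 ≤ U.F.G r ∧ 1 ≤ U.lam r ∧ 0 < U.A r ∧ U.s r ≤ U.A r ∧ δ r ≤ 1 ∧
      U.F.G r ≤ U.lam r * U.F.G r ∧ U.lam r * U.F.G r ≤ U.lam r * U.F.G r / δ r ∧
      (δ r)⁻¹ ≤ U.lam r * U.F.G r / δ r ∧ U.A r ≤ δ r := by
    filter_upwards [U.F.ok, U.ok, h, hδ 0] with r a b c e
    have d1 : δ r ≤ 1 := by simpa using e.1
    have g : U.F.G r ≤ U.lam r * U.F.G r := by nlinarith [a.2.2.1, b.2.1]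
    refine ⟨a.2.2.1, b.2.1, b.2.2.1, b.2.2.2, d1, g, ?_, ?_, by simpa using e.2.1⟩
    · exact le_div_self (by linarith [a.2.2.1]) c.2.2.1 d1
    · rw [inv_eq_one_div]; exact div_le_div_of_nonneg_right (by linarith [a.2.2.1]) c.2.2.1.le
  have hA : ∀ n : ℕ, ∀ᶠ r in U.F.l, (U.lam r * U.F.G r) ^ n * U.A r ≤ δ r := fun n => by
    filter_upwards [o, hδ n] with r o e
    exact (mul_le_mul_of_nonneg_right (pow_le_pow_left₀ (by linarith [o.1, o.2.2.2.2.2.1])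
      o.2.2.2.2.2.2.1 n) o.2.2.1.le).trans e.2.1
  obtain ⟨E, M, mol⟩ := mol P U.H U.C δ he U.hV U.hc (by
    filter_upwards [h, o] with r h o
    exact ⟨h.2.2.2.2.2.2.1, h.2.2.2.2.2.2.2.1, h.2.2.1, o.2.2.2.2.1⟩)
  have pz : ∀ {n B B'}, U.SA (k + 3) B → U.SA (k + 3) B' → ∀ i j,
      U.F.Ev fun r x => x ∉ U.C r → U.pu n B B' i j r x = 0 := fun a b i j => by
    filter_upwards [(a.1 i j).z, (b.1 i j).z] with r a b x hx hc
    simp [Os.pu, Os.W, p1, p2, a x hx hc, b x hx hc]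
  have A0 : ∀ᶠ r in U.F.l, 0 ≤ U.A r := o.mono fun _ o => o.2.2.1.le
  have mu := fun i j => mol (k + 2) U.A _ (pu_T hk hγ hB (-2) i j) A0 (pz hγ hB i j)
  have mv := fun i j => mol (k + 2) U.A _ (pu_T hk hκ hπ (-1) i j) A0 (pz hκ hπ i j)
  set u0 := U.pu (-2) γ B
  set v0 := U.pu (-1) κ π
  have supp : ∀ᶠ r in U.F.l, ∀ i j x, x ∉ S r ∨ 9 * ρ r ≤ ‖x‖ →
      M (u0 i j) r x = 0 ∧ M (v0 i j) r x = 0 := by
    filter_upwards [h, eventually_all.2 fun i => eventually_all.2 fun j => (mu i j).2.1,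
      eventually_all.2 fun i => eventually_all.2 fun j => (mv i j).2.1] with r h a b i j x hx
    have key : ¬ ∃ s ∈ Icc (0 : ℝ) 1, ∃ v : X, v 0 = 1 ∧ |v 1| ≤ 1 ∧ |v 2| ≤ 1 ∧
        x - s • v ∈ U.C r := by
      rintro ⟨s, hs, v, v0, v1, v2, hc⟩
      rcases hx with hx | hx
      · exact hx (by simpa using h.2.2.2.2.2.1.2.2 _ (h.2.2.2.2.2.2.2.2.1 hc) s hs.1 v v0 v1 v2)
      · have n1 := h.2.2.2.2.2.2.2.2.2 _ hc
        have n2 : ‖v‖ ≤ 2 := by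
          rw [EuclideanSpace.norm_eq, Real.sqrt_le_iff, Fin.sum_univ_three, v0]
          simp only [Real.norm_eq_abs]
          exact ⟨two_pos.le, by nlinarith [abs_nonneg (v 1), abs_nonneg (v 2), abs_one (α := ℝ)]⟩
        have n3 := norm_sub_norm_le x (s • v)
        rw [norm_smul, Real.norm_of_nonneg hs.1] at n3
        nlinarith [h.1, hs.1, hs.2, norm_nonneg v]
    exact ⟨by_contra fun e => key ((a i j).2 x e), by_contra fun e => key ((b i j).2 x e)⟩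
  have gH : ∀ᶠ r in U.F.l, 2 ≤ U.lam r * U.F.G r := o.mono fun _ o => o.1.trans o.2.2.2.2.2.1
  have g3 : ∀ᶠ r in U.F.l, 2 ≤ U.lam r * U.F.G r / δ r :=
    o.mono fun _ o => (o.1.trans o.2.2.2.2.2.1).trans o.2.2.2.2.2.2.1
  have f1 : ∀ᶠ r in U.F.l, 1 ≤ ρ r ∧ 2 ≤ U.F.G r ∧ 1 ≤ U.lam r := by
    filter_upwards [h, o] with r h o using ⟨h.1, o.1, o.2.1⟩
  have f3 : ∀ᶠ r in U.F.l, 1 ≤ ρ r ∧ 2 ≤ U.lam r * U.F.G r / δ r ∧ (1 : ℝ) ≤ (1 : P → ℝ) r := by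
    filter_upwards [h, g3] with r h o using ⟨h.1, o, le_rfl⟩
  have hb : ∀ᶠ r in U.F.l, 1 ≤ ρ r ∧ P354J.PDy (d r) ∧ Con (d r) :=
    h.mono fun _ h => ⟨h.1, h.2.2.2.1, h.2.2.2.2.1⟩
  have mH := fun {f} (m : ∀ F' : Fr P X, F'.l = U.H.l → F'.e = ee → (∀ i, F'.c i = 1) →
      (∀ᶠ r in U.H.l, U.H.G r ≤ F'.G r) → F'.T (k + 2 + 1) (pr U.A) (E f) ∧
        F'.T (k + 2) (pr (δ * U.A)) (M f - E f) ∧
        ((∀ᶠ r in U.H.l, (δ r)⁻¹ ≤ F'.G r) → ∀ m, F'.T m (pr U.A) (M f))) =>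
    And.intro (m (FB U.F.l ρ _ gH) rfl rfl (fun _ => rfl) (.of_forall fun _ => le_rfl))
      (And.intro (m (FC U.F.l ρ (fun r => U.lam r * U.F.G r) 1 (by
        filter_upwards [f1, gH] with r a b using ⟨a.1, b, le_rfl⟩)) rfl rfl (fun _ => rfl)
        (.of_forall fun _ => le_rfl)) (And.intro (m U.H rfl he U.hc (.of_forall fun _ => le_rfl))
      (And.intro ((m (FB U.F.l ρ _ g3) rfl rfl (fun _ => rfl)
        (o.mono fun _ o => o.2.2.2.2.2.2.1)).2.2 (o.mono fun _ o => o.2.2.2.2.2.2.2.1))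
        ((m (FC U.F.l ρ _ 1 f3) rfl rfl (fun _ => rfl)
        (o.mono fun _ o => o.2.2.2.2.2.2.1)).2.2 (o.mono fun _ o => o.2.2.2.2.2.2.2.1)))))
  have nu := fun i j => mH (mu i j).2.2
  have nv := fun i j => mH (mv i j).2.2
  have sub : ∀ r, 0 < ρ r → Gam (ρ r / 2) ⊆ {x | ρ r / 4 < ‖x‖} := fun r h x hx =>
    lt_of_lt_of_le (by linarith) (gam_norm hx)
  have smo : ∀ {Φ G a}, Cs Φ → (FB U.F.l ρ G a).Sm (lf Φ (ad d (fun i j => M (u0 i j))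
      fun i j => M (v0 i j))) → ∀ᶠ r in U.F.l, ContDiffOn ℝ ∞ (lf Φ (ad d (fun i j => M (u0 i j))
      fun i j => M (v0 i j)) r) {0}ᶜ := fun {Φ G a} hΦ s => by
    filter_upwards [s, supp, h] with r s supp h x hx
    by_cases hS : x ∈ S r
    · exact (s.contDiffAt ((isOpen_lt continuous_const continuous_norm).mem_nhds
        (sub r (by linarith [h.1]) (h.2.2.2.2.2.1.2.1 hS)))).contDiffWithinAt
    · exact (contDiffAt_const.congr_of_eventuallyEq (hΦ.lc.zero h.2.2.2.2.1 h.2.2.2.2.2.1.1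
        (fun i j x hx => supp i j x (.inl hx)) hx hS)).contDiffWithinAt
  refine ⟨B, π, fun i j => M (u0 i j), fun i j => M (v0 i j), hB.low (by omega),
    hπ.low (by omega), fun i j => ?_, supp, fun i j => ?_, ⟨FC U.F.l ρ U.F.G U.lam f1,
      ⟨rfl, rfl, fun _ => rfl, rfl, rfl, ?_, fun n => (hδ n).mono fun _ h => h.1⟩, rfl, ?_⟩,
    fun m => ⟨FC U.F.l ρ _ 1 f3, ⟨rfl, rfl, fun _ => rfl, rfl, rfl, ?_, fun n => ?_⟩, rfl, ?_⟩⟩
  · simp only [u0, v0, Os.pu, hγ.2 i j, hκ.2 i j, hB.2 i j, hπ.2 i j, and_self]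
  · have key : ∀ {f : Fn P X}, U.H.T (k + 2) (pr (δ * U.A)) (M f - E f) → U.H.Eq f (E f) →
        U.F.T k (pr U.s) (M f - f) := fun {f} a e => by
      refine ((a.low (by omega)).res (F' := U.F) rfl rfl (.of_forall fun _ => ⟨subset_rfl,
        subset_rfl, fun _ _ _ => le_rfl⟩) fun n => ⟨0, (hδ n).mono fun r h x _ => ?_⟩).congr ?_
      · simpa [pr, Os.H] using h.2.2
      · filter_upwards [e] with r e x hx
        simp only [Pi.sub_apply, e x hx]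
    exact ⟨key (nu i j).2.2.1.2.1 (mu i j).1, key (nv i j).2.2.1.2.1 (mv i j).1⟩
  · filter_upwards [h, o] with r h o using ⟨h.2.1, o.2.1, o.2.2.2.1.trans o.2.2.2.2.2.2.2.2⟩
  · have key : ∀ {f : Fn P X} {a}, (FC U.F.l ρ (fun r => U.lam r * U.F.G r) 1 a).T (k + 2 + 1)
        (pr U.A) (E f) → (FC U.F.l ρ (fun r => U.lam r * U.F.G r) 1 a).T (k + 2) (pr (δ * U.A))
        (M f - E f) → (FC U.F.l ρ U.F.G U.lam f1).T (k + 1) (pr δ) (M f) := fun {f a} p q => by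
      refine ((((q.mono (Fr.B0.of_le ?_)).add p.pred).low (by omega)).res
        (F' := FC U.F.l ρ U.F.G U.lam f1) rfl rfl (o.mono fun _ o => ⟨subset_rfl, subset_rfl,
          fun _ _ _ => o.2.1⟩) fun n => ⟨0, (hA n).mono fun r h x _ => ?_⟩).cast (by ring)
      · filter_upwards [h, o] with r h o x _
        simp only [pr, Pi.mul_apply]
        rw [abs_of_pos (mul_pos h.2.2.1 o.2.2.1)]
        exact mul_le_of_le_one_left o.2.2.1.le o.2.2.2.2.1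
      · simpa [pr, FC] using h
    have df : ∀ {Φ e}, Cs Φ → U.Am (k + 1) e → U.F.T (k + 1) (pr U.s)
        (lf Φ (ad d u0 v0) - U.al (-J - 1) * U.W e) → (FC U.F.l ρ U.F.G U.lam f1).T k (pr U.s)
        (lf Φ (ad d (fun i j => M (u0 i j)) fun i j => M (v0 i j))) := fun {Φ e} hΦ a t => by
      have L := lipB (s := δ * U.A) (m := k) (u := fun i j => E (u0 i j))
        (v := fun i j => E (v0 i j)) sb hb gH (by
          filter_upwards [o] with r o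
          exact ⟨o.2.2.1, mul_le_of_le_one_left o.2.2.1.le o.2.2.2.2.1⟩) (fun n => by
          filter_upwards [o, hA n] with r o h
          rw [sq, ← mul_assoc]; exact mul_le_mul_of_nonneg_right h o.2.2.1.le)
        (fun i j => ⟨(nu i j).1.1.pred, (nv i j).1.1.pred⟩)
        (fun i j => ⟨(nu i j).1.2.1, (nv i j).1.2.1⟩) hΦ
      have s3 := smo hΦ ((L.2.sm.add L.1.sm).congr (.of_eq fun r x => by simp))
      let F : Fr P X := { U.F with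
        c := fun _ => pr U.lam
        ok := by
          filter_upwards [U.F.ok, o] with r a o
          exact ⟨a.1, a.2.1, a.2.2.1, fun _ _ _ => zero_le_one.trans o.2.1⟩ }
      have t1 : F.T k (pr U.s) (lf Φ (ad d u0 v0)) := by
        have b := (Fr.t_par (F := F) (a := U.s) (Fr.B0.refl (Os.s_nn.mono fun _ h _ _ => h))
          k).mulr ((a.low k.le_succ).wc (by omega) (F := F) rfl rfl (fun _ => rfl)
            (.of_forall fun _ => ⟨subset_rfl, le_rfl⟩))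
        refine ((t.pred.res (F' := F) rfl rfl (o.mono fun _ o => ⟨subset_rfl, subset_rfl,
          fun i _ _ => by rw [U.hc]; exact o.2.1⟩) fun n => ⟨n, .of_forall fun _ _ _ => le_rfl⟩).add
          b).cast ?_
        rw [hal]; exact sub_add_cancel _ _
      have b1 : (FC U.F.l ρ U.F.G U.lam f1).B k (pr U.s)
          (lf Φ (ad d (fun i j => E (u0 i j)) fun i j => E (v0 i j))) := by
        refine Fr.B.tr (F := F) (F' := FC U.F.l ρ U.F.G U.lam f1) (π := id) (W := U.F.U)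
          tendsto_id he.symm (fun i => ⟨0, .of_forall fun r x _ _ => by simp [F, FC]⟩) t1.b
          (fun n => ⟨n, Os.s_nn.mono fun r h x _ => ⟨h, fun _ => le_rfl⟩⟩) ?_
        filter_upwards [h, U.F.ok, U.ok, (FC U.F.l ρ U.F.G U.lam f1).ok,
          eventually_all.2 fun i => eventually_all.2 fun j => (mu i j).1.and (mu i j).2.1,
          eventually_all.2 fun i => eventually_all.2 fun j => (mv i j).1.and (mv i j).2.1]
          with r h o o' o2 a b x hx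
        refine ⟨fun hw => ⟨U.hV ▸ hw, hΦ.lc.ev ?_⟩, fun hw => hΦ.lc.zero h.2.2.2.2.1 o'.1
          (fun i j x hx => ⟨(a i j).2.1 x hx, (b i j).2.1 x hx⟩) (o2.2.1 hx)
          fun hc => hw (h.2.2.2.2.2.2.2.1 hc)⟩
        filter_upwards [o.1.mem_nhds hw] with y hy i j
        exact ⟨((a i j).1 y hy).symm, ((b i j).1 y hy).symm⟩
      have b2 := L.2.b.res (F' := FC U.F.l ρ U.F.G U.lam f1) (s' := pr U.s) rfl rfl
        (f1.mono fun r h => ⟨sub r (by linarith [h.1]), fun _ _ _ => h.2.2⟩)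
        fun n => ⟨0, (hδ n).mono fun r h x _ => by simpa [pr, FB] using h.2.2⟩
      let F2 : Fr P X := { FC U.F.l ρ U.F.G U.lam f1 with
        U := (FB U.F.l ρ _ gH).U
        ok := by
          filter_upwards [(FC U.F.l ρ U.F.G U.lam f1).ok, (FB U.F.l ρ _ gH).ok, f1] with r a b c
          exact ⟨b.1, sub r (by linarith [c.1]), a.2.2⟩ }
      have z : ∀ {F F' : Fr P X} {f}, F.B k (pr U.s) f → F'.l = F.l → F'.e = F.e → F'.V = F.V →
          F'.c = F.c → F'.G = F.G → F'.B k (pr U.s) f := fun h a b c d e =>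
        h.res a b (.of_forall fun _ => ⟨by rw [c], fun _ _ _ => by rw [d]⟩)
          fun n => ⟨n, .of_forall fun _ _ _ => by rw [e]⟩
      have t2 := Fr.T.add (F := F2) ⟨L.2.sm, z b2 rfl rfl rfl rfl rfl⟩
        ⟨L.1.sm, z b1 rfl rfl rfl rfl rfl⟩
      exact ⟨s3, z (t2.cast (sub_add_cancel _ _)).b rfl rfl rfl rfl rfl⟩
    exact ⟨fun i j => ⟨key (nu i j).2.1.1 (nu i j).2.1.2.1,
      (key (nv i j).2.1.1 (nv i j).2.1.2.1).pred⟩, df (.inl rfl) aH tH,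
      fun b => df (.inr ⟨b, rfl⟩) (aM b) (tM b)⟩
  · filter_upwards [h, o] with r h o
    exact ⟨(h.2.1.trans o.2.2.2.2.2.1).trans o.2.2.2.2.2.2.1, le_rfl, le_rfl⟩
  · filter_upwards [hδ n, o] with r h o
    simpa [FC] using h.2.1.trans o.2.2.2.2.1
  · have df : ∀ {Φ}, Cs Φ → (FC U.F.l ρ _ 1 f3).T m (pr U.A)
        (lf Φ (ad d (fun i j => M (u0 i j)) fun i j => M (v0 i j))) := fun {Φ} hΦ => by
      have z : (FB U.F.l ρ _ g3).T (m + 2) (pr U.A) 0 :=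
        Fr.t_zero (Fr.B0.refl (A0.mono fun _ h _ _ => h))
      have L := (lipB (s := U.A) (m := m) (u' := fun i j => M (u0 i j))
        (v' := fun i j => M (v0 i j)) sb hb g3 (o.mono fun _ o => ⟨o.2.2.1, le_rfl⟩) (fun n => by
          filter_upwards [o, hδ n] with r o h
          rw [sq, ← mul_assoc]
          exact mul_le_of_le_one_left o.2.2.1.le (h.2.1.trans o.2.2.2.2.1))
        (fun i j => ⟨(nu i j).2.2.2.1 _, (nv i j).2.2.2.1 _⟩)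
        (fun i j => ⟨z.cast (sub_self _).symm, z.cast (sub_self _).symm⟩) hΦ).1
      exact ⟨smo hΦ L.sm, L.b.res rfl rfl
        (f1.mono fun r h => ⟨sub r (by linarith [h.1]), fun _ _ _ => le_rfl⟩)
        fun n => ⟨n, .of_forall fun _ _ _ => le_rfl⟩⟩
    exact ⟨fun i j => ⟨(nu i j).2.2.2.2 _, (nv i j).2.2.2.2 _⟩, df (.inl rfl),
      fun b => df (.inr ⟨b, rfl⟩)⟩

end Vale.Agent.P354XP
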