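import Mathlib

/-!
A calculus for families of functions whose derivatives up to a finite order are bounded by powers
of a base G times a size; every derivative in the direction i costs the factor c i.
-/

open scoped ContDiff
open Set Filter Topology

noncomputable section

namespace Vale.Agent.P354XP

/-- Families of functions. -/
abbrev Fn (P E : Type) : Type := P → E → ℝ

/-- The filter on the parameters, the directions, the domain U of smoothness, the set V on which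
the bounds hold, the base and the costs. -/
structure Fr (P E : Type) [TopologicalSpace E] where
  l : Filter P
  e : Fin 3 → E
  U : P → Set E
  V : P → Set E
  G : P → ℝ
  c : Fin 3 → Fn P E
  ok : ∀ᶠ r in l, IsOpen (U r) ∧ V r ⊆ U r ∧ 2 ≤ G r ∧ ∀ i, ∀ x ∈ V r, 0 ≤ c i r x

variable {P E : Type} [NormedAddCommGroup E] [NormedSpace ℝ E]

/-- The derivative in the direction e i. -/
def D (e : Fin 3 → E) (i : Fin 3) (f : Fn P E) : Fn P E := fun r x => fderiv ℝ (f r) x (e i)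

/-- Constants. -/
def cst (a : ℝ) : Fn P E := fun _ _ => a

namespace Fr

variable (F : Fr P E)

def Sm (f : Fn P E) : Prop := ∀ᶠ r in F.l, ContDiffOn ℝ ∞ (f r) (F.U r)
def Ev (p : P → E → Prop) : Prop := ∀ᶠ r in F.l, ∀ x ∈ F.U r, p r x
def Eq (f g : Fn P E) : Prop := F.Ev fun r x => f r x = g r x
def B0 (s f : Fn P E) : Prop := ∃ n : ℕ, ∀ᶠ r in F.l, ∀ x ∈ F.V r, |f r x| ≤ F.G r ^ n * s r x
def B : ℕ → Fn P E → Fn P E → Prop
  | 0, s, f => F.B0 s f
  | k + 1, s, f => F.B0 s f ∧ ∀ i, B k (s * F.c i) (D F.e i f)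

/-- Smooth, with bounds up to the order k. -/
structure T (k : ℕ) (s f : Fn P E) : Prop where
  sm : F.Sm f
  b : F.B k s f

variable {F} {s s' f g : Fn P E} {k : ℕ}

theorem B0.nn (h : F.B0 s f) : ∀ᶠ r in F.l, ∀ x ∈ F.V r, 0 ≤ s r x := by
  obtain ⟨n, h⟩ := h
  filter_upwards [h, F.ok] with r h o x hx
  have : 0 < F.G r ^ n := pow_pos (by linarith [o.2.2.1]) n
  exact (mul_nonneg_iff_of_pos_left this).1 ((abs_nonneg _).trans (h x hx))

theorem B0.of_le (h : ∀ᶠ r in F.l, ∀ x ∈ F.V r, |f r x| ≤ s r x) : F.B0 s f :=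
  ⟨0, by simpa using h⟩

theorem B0.refl (h : ∀ᶠ r in F.l, ∀ x ∈ F.V r, 0 ≤ s r x) : F.B0 s s :=
  B0.of_le (h.mono fun _ h x hx => (abs_of_nonneg (h x hx)).le)

theorem B0.self (h : F.B0 s f) : F.B0 s s := B0.refl h.nn

theorem b0_c (i : Fin 3) : F.B0 (F.c i) (F.c i) := B0.refl (F.ok.mono fun _ o => o.2.2.2 i)

theorem B0.trans (h' : F.B0 s' s) (h : F.B0 s f) : F.B0 s' f := by
  obtain ⟨n, h⟩ := h
  obtain ⟨m, h'⟩ := h'
  refine ⟨n + m, ?_⟩
  filter_upwards [h, h', F.ok] with r h h' o x hx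
  have : 0 < F.G r ^ n := pow_pos (by linarith [o.2.2.1]) n
  rw [pow_add, mul_assoc]
  exact (h x hx).trans (mul_le_mul_of_nonneg_left ((le_abs_self _).trans (h' x hx)) this.le)

theorem B0.mul (h : F.B0 s f) (h' : F.B0 s' g) : F.B0 (s * s') (f * g) := by
  obtain ⟨n, h⟩ := h
  obtain ⟨m, h'⟩ := h'
  refine ⟨n + m, ?_⟩
  filter_upwards [h, h'] with r h h' x hx
  simp only [Pi.mul_apply, abs_mul]
  refine (mul_le_mul (h x hx) (h' x hx) (abs_nonneg _)
    ((abs_nonneg _).trans (h x hx))).trans_eq (by ring)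

theorem B0.add (h : F.B0 s f) (h' : F.B0 s g) : F.B0 s (f + g) := by
  have h0 := h.nn
  obtain ⟨n, h⟩ := h
  obtain ⟨m, h'⟩ := h'
  refine ⟨n + m + 1, ?_⟩
  filter_upwards [h, h', h0, F.ok] with r h h' h0 o x hx
  have g1 : 1 ≤ F.G r := by linarith [o.2.2.1]
  have a1 : F.G r ^ n ≤ F.G r ^ (n + m) := pow_le_pow_right₀ g1 (by omega)
  have a2 : F.G r ^ m ≤ F.G r ^ (n + m) := pow_le_pow_right₀ g1 (by omega)
  have a3 : 2 * F.G r ^ (n + m) ≤ F.G r ^ (n + m + 1) := by
    rw [pow_succ']; exact mul_le_mul_of_nonneg_right o.2.2.1 (by positivity)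
  refine (abs_add_le _ _).trans ((add_le_add (h x hx) (h' x hx)).trans ?_)
  rw [← add_mul]
  exact mul_le_mul_of_nonneg_right (by linarith) (h0 x hx)

theorem b0_cst (a : ℝ) : F.B0 1 (cst a) := by
  obtain ⟨n, hn⟩ := pow_unbounded_of_one_lt |a| (one_lt_two (α := ℝ))
  refine ⟨n, F.ok.mono fun r o x _ => ?_⟩
  simp only [cst, Pi.one_apply, mul_one]
  exact hn.le.trans (pow_le_pow_left₀ (by norm_num) o.2.2.1 n)

theorem B0.congr (h : F.B0 s f) (e : F.Eq f g) : F.B0 s g := by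
  obtain ⟨n, h⟩ := h
  refine ⟨n, ?_⟩
  filter_upwards [h, e, F.ok] with r h e o x hx
  rw [← e x (o.2.1 hx)]; exact h x hx

theorem B.zero : ∀ {k : ℕ}, F.B k s f → F.B0 s f
  | 0, h => h
  | _ + 1, h => h.1

theorem B.mono : ∀ {k : ℕ} {s s' f : Fn P E}, F.B0 s' s → F.B k s f → F.B k s' f
  | 0, _, _, _, h', h => h'.trans h
  | _ + 1, _, _, _, h', h => ⟨h'.trans h.1, fun i => B.mono (h'.mul (b0_c i)) (h.2 i)⟩

theorem B.pred : ∀ {k : ℕ} {s f : Fn P E}, F.B (k + 1) s f → F.B k s f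
  | 0, _, _, h => h.1
  | _ + 1, _, _, h => ⟨h.1, fun i => B.pred (h.2 i)⟩

theorem Eq.d (e : F.Eq f g) (i : Fin 3) : F.Eq (D F.e i f) (D F.e i g) := by
  filter_upwards [e, F.ok] with r e o x hx
  have : f r =ᶠ[𝓝 x] g r := Filter.mem_of_superset (o.1.mem_nhds hx) e
  simp only [D, this.fderiv_eq]

theorem Eq.symm (e : F.Eq f g) : F.Eq g f := Eventually.mono e fun _ e x hx => (e x hx).symm

theorem Eq.of_eq (e : ∀ r x, f r x = g r x) : F.Eq f g := .of_forall fun r x _ => e r x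

theorem B.congr : ∀ {k : ℕ} {s f g : Fn P E}, F.B k s f → F.Eq f g → F.B k s g
  | 0, _, _, _, h, e => B0.congr h e
  | _ + 1, _, _, _, h, e => ⟨h.1.congr e, fun i => (h.2 i).congr (e.d i)⟩

theorem Sm.congr (h : F.Sm f) (e : F.Eq f g) : F.Sm g := by
  filter_upwards [h, e] with r h e using h.congr fun x hx => (e x hx).symm

theorem Sm.d (h : F.Sm f) (i : Fin 3) : F.Sm (D F.e i f) := by
  filter_upwards [h, F.ok] with r h o
  exact (h.fderiv_of_isOpen o.1 (m := ∞) (by simp)).clm_apply contDiffOn_const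

theorem Sm.da (h : F.Sm f) : F.Ev fun r x => DifferentiableAt ℝ (f r) x := by
  filter_upwards [h, F.ok] with r h o x hx
  exact (h.contDiffAt (o.1.mem_nhds hx)).differentiableAt (by simp)

theorem Sm.add (h : F.Sm f) (h' : F.Sm g) : F.Sm (f + g) := by
  filter_upwards [h, h'] with r h h' using h.add h'

theorem Sm.mul (h : F.Sm f) (h' : F.Sm g) : F.Sm (f * g) := by
  filter_upwards [h, h'] with r h h' using h.mul h'

theorem sm_cst (a : ℝ) : F.Sm (cst a) := .of_forall fun _ => contDiffOn_const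

theorem d_add (h : F.Sm f) (h' : F.Sm g) (i : Fin 3) :
    F.Eq (D F.e i f + D F.e i g) (D F.e i (f + g)) := by
  filter_upwards [h.da, h'.da] with r h h' x hx
  simp only [D, Pi.add_apply, fderiv_add (h x hx) (h' x hx), ContinuousLinearMap.add_apply]

theorem d_mul (h : F.Sm f) (h' : F.Sm g) (i : Fin 3) :
    F.Eq (D F.e i f * g + f * D F.e i g) (D F.e i (f * g)) := by
  filter_upwards [h.da, h'.da] with r h h' x hx
  simp only [D, Pi.add_apply, Pi.mul_apply, fderiv_mul (h x hx) (h' x hx),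
    ContinuousLinearMap.add_apply, ContinuousLinearMap.smul_apply, smul_eq_mul]
  ring

theorem T.mono (h : F.T k s f) (h' : F.B0 s' s) : F.T k s' f := ⟨h.sm, h.b.mono h'⟩
theorem T.congr (h : F.T k s f) (e : F.Eq f g) : F.T k s g := ⟨h.sm.congr e, h.b.congr e⟩
theorem T.cast (h : F.T k s f) (e : f = g) : F.T k s g := e ▸ h
theorem T.wt (h : F.T k s f) (e : s = s') : F.T k s' f := e ▸ h
theorem T.pred (h : F.T (k + 1) s f) : F.T k s f := ⟨h.sm, h.b.pred⟩
theorem T.b0 (h : F.T k s f) : F.B0 s f := h.b.zero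
theorem T.d (h : F.T (k + 1) s f) (i : Fin 3) : F.T k (s * F.c i) (D F.e i f) :=
  ⟨h.sm.d i, h.b.2 i⟩

theorem T.low {k' : ℕ} (h : F.T k s f) (hk : k' ≤ k) : F.T k' s f := by
  induction hk with
  | refl => exact h
  | step _ ih => exact ih h.pred

theorem T.succ (h0 : F.T 0 s f) (h : ∀ i, F.T k (s * F.c i) (D F.e i f)) : F.T (k + 1) s f :=
  ⟨h0.sm, h0.b, fun i => (h i).b⟩

theorem T.add : ∀ {k : ℕ} {s f g : Fn P E}, F.T k s f → F.T k s g → F.T k s (f + g)
  | 0, _, _, _, h, h' => ⟨h.sm.add h'.sm, B0.add h.b h'.b⟩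
  | _ + 1, _, _, _, h, h' => T.succ ⟨h.sm.add h'.sm, h.b0.add h'.b0⟩ fun i =>
      ((h.d i).add (h'.d i)).congr (d_add h.sm h'.sm i)

theorem T.mul : ∀ {k : ℕ} {s s' f g : Fn P E}, F.T k s f → F.T k s' g → F.T k (s * s') (f * g)
  | 0, _, _, _, _, h, h' => ⟨h.sm.mul h'.sm, B0.mul h.b h'.b⟩
  | _ + 1, _, _, _, _, h, h' => T.succ ⟨h.sm.mul h'.sm, h.b0.mul h'.b0⟩ fun i =>
      ((((h.d i).mul h'.pred).wt (by ring)).add ((h.pred.mul (h'.d i)).wt (by ring))).congr
        (d_mul h.sm h'.sm i)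

theorem t_zero : ∀ {k : ℕ} {s : Fn P E}, F.B0 s s → F.T k s 0
  | 0, _, h => ⟨sm_cst 0, B0.of_le (h.nn.mono fun _ h x hx => by simpa using h x hx)⟩
  | _ + 1, _, h => T.succ (t_zero h) fun i => (t_zero (h.mul (b0_c i))).cast (by
      funext r x; simp [D])

theorem b0_one : F.B0 1 1 := B0.refl (.of_forall fun _ _ _ => zero_le_one)

/-- Functions of the parameter only. -/
theorem t_par {a : P → ℝ} (h : F.B0 s fun r _ => a r) : ∀ k, F.T k s fun r _ => a r
  | 0 => ⟨.of_forall fun _ => contDiffOn_const, h⟩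
  | _ + 1 => T.succ (t_par h 0) fun i => (t_zero (h.self.mul (b0_c i))).cast (by
      funext r x; simp [D])

theorem t_cst (a : ℝ) : F.T k 1 (cst a) := t_par (a := fun _ => a) (b0_cst a) k
theorem t_one : F.T k 1 1 := t_cst 1

theorem T.mul1 (h : F.T k 1 f) (h' : F.T k s g) : F.T k s (f * g) := (h.mul h').wt (one_mul s)
theorem T.mulr (h : F.T k s f) (h' : F.T k 1 g) : F.T k s (f * g) := (h.mul h').wt (mul_one s)
theorem T.neg (h : F.T k s f) : F.T k s (-f) :=
  ((t_cst (-1)).mul1 h).cast (by funext r x; simp [cst])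
theorem T.sub (h : F.T k s f) (h' : F.T k s g) : F.T k s (f - g) :=
  (h.add h'.neg).cast (sub_eq_add_neg f g).symm

theorem T.sum {ι : Type} [Fintype ι] [Nonempty ι] {f : ι → Fn P E} (h : ∀ i, F.T k s (f i)) :
    F.T k s (∑ i, f i) :=
  Finset.sum_induction f (F.T k s) (fun _ _ => T.add)
    (t_zero (h (Classical.arbitrary ι)).b0.self) fun i _ => h i

theorem T.fsum {ι : Type} [Fintype ι] [Nonempty ι] {f : ι → Fn P E} (h : ∀ i, F.T k s (f i)) :
    F.T k s fun r x => ∑ i, f i r x := (T.sum h).cast (by funext r x; simp)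

theorem T.inv (h0 : F.Ev fun r x => f r x ≠ 0) (h1 : F.B0 1 f⁻¹) :
    ∀ {k : ℕ}, F.T k 1 f → F.T k 1 f⁻¹
  | 0, h => ⟨by filter_upwards [h.sm, h0] with r h h0 using h.inv h0, h1⟩
  | k + 1, h => by
    have ih := T.inv h0 h1 h.pred
    refine T.succ (ih.low k.zero_le) fun i => (((h.d i).mulr (ih.mul1 ih)).neg).congr ?_
    filter_upwards [h.sm.da, h0] with r h h0 x hx
    have e := ((hasDerivAt_inv (h0 x hx)).comp_hasFDerivAt x (h x hx).hasFDerivAt).fderiv
    have e' : (f⁻¹ : Fn P E) r = (fun y => y⁻¹) ∘ f r := rfl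
    simp only [D, e', e, Pi.neg_apply, Pi.mul_apply, Pi.inv_apply,
      ContinuousLinearMap.smul_apply, smul_eq_mul, Function.comp]
    rw [sq, mul_inv]; ring

/-- The square root. -/
def rt (f : Fn P E) : Fn P E := fun r x => √(f r x)

theorem T.rt (h0 : F.Ev fun r x => 0 < f r x) (h1 : F.B0 1 f⁻¹) :
    ∀ {k : ℕ}, F.T k 1 f → F.T k 1 (rt f)
  | 0, h => by
    refine ⟨by filter_upwards [h.sm, h0] with r h h0 using h.sqrt fun x hx => (h0 x hx).ne', ?_⟩
    obtain ⟨n, hn⟩ := (b0_one.add h.b).add h.b.self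
    refine ⟨n, ?_⟩
    filter_upwards [hn, h0, F.ok] with r hn h0 o x hx
    refine le_trans ?_ (hn x hx)
    have p := h0 x (o.2.1 hx)
    simp only [Fr.rt, Pi.add_apply, Pi.one_apply]
    rw [abs_of_nonneg (Real.sqrt_nonneg _), abs_of_pos (by linarith)]
    exact Real.sqrt_le_iff.2 ⟨by linarith, by nlinarith⟩
  | k + 1, h => by
    have ih := T.rt h0 h1 h.pred
    have hi := T.inv (Eventually.mono h0 fun _ h x hx => (h x hx).ne') h1 h.pred
    refine T.succ (ih.low k.zero_le) fun i =>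
      ((h.d i).mulr ((t_cst (1 / 2)).mul1 (ih.mul1 hi))).congr ?_
    filter_upwards [h.sm.da, h0] with r h h0 x hx
    have p := h0 x hx
    have e := ((h x hx).hasFDerivAt.sqrt p.ne').fderiv
    have e' : Fr.rt f r = fun y => √(f r y) := rfl
    have q := Real.sqrt_pos.2 p
    have q2 := Real.mul_self_sqrt p.le
    simp only [D, e', e, Pi.mul_apply, Pi.inv_apply, cst, ContinuousLinearMap.smul_apply,
      smul_eq_mul]
    generalize √(f r x) = t at q q2
    rw [← q2]; field_simp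

/-! ### Words -/

/-- Derivatives along words and their cost. -/
def Dw (e : Fin 3 → E) : List (Fin 3) → Fn P E → Fn P E
  | [], f => f
  | i :: α, f => Dw e α (D e i f)

theorem B.words : ∀ {k : ℕ} {s f : Fn P E}, F.B k s f → ∃ n : ℕ, ∀ᶠ r in F.l,
    ∀ α : List (Fin 3), α.length ≤ k → ∀ x ∈ F.V r,
      |Dw F.e α f r x| ≤ F.G r ^ n * (s * (α.map F.c).prod) r x
  | 0, _, _, ⟨n, h⟩ => ⟨n, h.mono fun r h α hα x hx => by
      obtain rfl : α = [] := List.length_eq_zero_iff.1 (by omega)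
      simpa [Dw] using h x hx⟩
  | k + 1, s, f, h => by
    choose m hm using fun i => B.words (h.2 i)
    obtain ⟨n, hn⟩ := h.1
    refine ⟨n + ∑ i, m i, ?_⟩
    filter_upwards [eventually_all.2 hm, hn, F.ok] with r hm hn o α hα x hx
    have g1 : 1 ≤ F.G r := by linarith [o.2.2.1]
    have key : ∀ (a : ℕ) (u v : ℝ), a ≤ n + ∑ i, m i → |u| ≤ F.G r ^ a * v →
        |u| ≤ F.G r ^ (n + ∑ i, m i) * v := fun a u v ha h =>
      h.trans (mul_le_mul_of_nonneg_right (pow_le_pow_right₀ g1 ha)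
        ((mul_nonneg_iff_of_pos_left (by positivity)).1 ((abs_nonneg _).trans h)))
    rcases α with _ | ⟨i, α⟩
    · exact key n _ _ (by omega) (by simpa [Dw] using hn x hx)
    · refine key (m i) _ _ ?_ ?_
      · have := Finset.single_le_sum (f := m) (fun _ _ => Nat.zero_le _) (Finset.mem_univ i)
        omega
      · simpa [Dw, mul_assoc] using hm i α (by simpa using hα) x hx

theorem B.of_words : ∀ {k : ℕ} {s f : Fn P E} (n : ℕ), (∀ᶠ r in F.l,
    ∀ α : List (Fin 3), α.length ≤ k → ∀ x ∈ F.V r,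
      |Dw F.e α f r x| ≤ F.G r ^ n * (s * (α.map F.c).prod) r x) → F.B k s f
  | 0, _, _, n, h => ⟨n, h.mono fun r h x hx => by simpa [Dw] using h [] le_rfl x hx⟩
  | k + 1, s, f, n, h => ⟨⟨n, h.mono fun r h x hx => by simpa [Dw] using h [] (by simp) x hx⟩,
      fun i => B.of_words n (h.mono fun r h α hα x hx => by
        simpa [Dw, mul_assoc] using h (i :: α) (by simpa using hα) x hx)⟩

end Fr

end Vale.Agent.P354XP
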