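import Vale.Agent.P354XP.Defs
import Vale.Agent.P354J.Sl2

/-!
LOC: the initial values in a local chart.
-/

open scoped ContDiff
open Set Filter Topology Metric

noncomputable section

namespace Vale.Agent.P354XP

open Vale.Agent.P354H (X3 e)
open Vale.Agent.P354C (Ix)
open Vale.Agent.P354I (X Dat Con)
open Vale.Agent.P354J (U0 U1 PDy M3 MD Gh dsl)
open Vale.Agent.P354PU (JG pg Gd JG_eq)

theorem ex_sq : ∃ σ h : ℝ → ℝ, ContDiff ℝ ∞ σ ∧ (∀ t, HasDerivAt σ (h t) t ∧ 0 < h t ∧ |σ t| ≤ 10) ∧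
    ∀ t, |t| ≤ 1 → σ t = t := by
  let b : ContDiffBump (0 : ℝ) := ⟨1, 2, one_pos, one_lt_two⟩
  have p : ∀ t, 0 < 1 + (1 - b t) * t ^ 2 := fun t => by
    have := mul_nonneg (sub_nonneg.2 (b.le_one (x := t))) (sq_nonneg t)
    linarith
  have c : ContDiff ℝ ∞ fun t => (1 + (1 - b t) * t ^ 2)⁻¹ :=
    (contDiff_const.add ((contDiff_const.sub b.contDiff).mul (contDiff_id.pow 2))).inv
      fun t => (p t).ne'
  have d := fun t => (c.continuous.integral_hasStrictDerivAt 0 t).hasDerivAt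
  refine ⟨_, _, contDiff_infty_iff_deriv.2 ⟨fun t => (d t).differentiableAt, ?_⟩,
    fun t => ⟨d t, inv_pos.2 (p t), ?_⟩, fun t ht => ?_⟩
  · rw [funext fun t => (d t).deriv]; exact c
  · have k := intervalIntegral.norm_integral_le_abs_of_norm_le (μ := MeasureTheory.volume)
      (a := 0) (b := t) (f := fun t => (1 + (1 - b t) * t ^ 2)⁻¹) (g := fun t => 5 * (1 + t ^ 2)⁻¹)
      (Eventually.of_forall fun s => by
        rw [Real.norm_of_nonneg (inv_pos.2 (p s)).le, ← div_eq_mul_inv,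
          le_div_iff₀ (by positivity), inv_mul_le_iff₀ (p s)]
        have q := mul_nonneg (sub_nonneg.2 (b.le_one (x := s))) (sq_nonneg s)
        by_cases hs : 2 ≤ |s|
        · rw [b.zero_of_le_dist (by simpa using hs)]
          nlinarith [sq_nonneg s]
        · nlinarith [sq_abs s, abs_nonneg s, not_le.1 hs])
      (Continuous.intervalIntegrable (continuous_const.mul ((continuous_const.add
        (continuous_id.pow 2)).inv₀ fun s => show (1 + s ^ 2 : ℝ) ≠ 0 by positivity)) _ _)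
    rw [intervalIntegral.integral_const_mul, integral_inv_one_add_sq, Real.arctan_zero, sub_zero,
      abs_mul] at k
    have := abs_le.2 ⟨(Real.neg_pi_div_two_lt_arctan t).le, (Real.arctan_lt_pi_div_two t).le⟩
    rw [Nat.abs_ofNat] at k
    exact k.trans (by linarith [Real.pi_le_four])
  · rw [intervalIntegral.integral_congr (g := fun _ => 1) fun s hs => by
      have : |s| ≤ 1 := (abs_sub_left_of_mem_uIcc hs).trans' (by simp) |>.trans (by simpa using ht)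
      simp [b.one_of_mem_closedBall (by simpa using this)]]
    simp

theorem ex_gd {j : X3 → X} {D : Set X3} (hD : IsOpen D) (hj : ContDiffOn ℝ ∞ j D)
    (hn : ∀ z ∈ D, j z ≠ 0 ∧ (JG j z).det ≠ 0) {z0 : X3} (h0 : z0 ∈ D) :
    ∃ Φ, Gd Φ ∧ j =ᶠ[𝓝 z0] Φ := by
  obtain ⟨σ, h, c, d, i⟩ := ex_sq
  obtain ⟨ε, e0, hb⟩ := nhds_basis_closedBall.mem_iff.1 (hD.mem_nhds h0)
  obtain ⟨δ, d0, rfl⟩ : ∃ δ > 0, ε = δ * 10 := ⟨ε / 10, by positivity, by ring⟩
  let τ : ℝ → ℝ → ℝ := fun a t => a + δ * σ (δ⁻¹ * (t - a))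
  let s : X3 → X3 := fun z => (τ z0.1 z.1, τ z0.2.1 z.2.1, τ z0.2.2 z.2.2)
  have tc : ∀ a, ContDiff ℝ ∞ (τ a) := fun a => contDiff_const.add (contDiff_const.mul
    (c.comp (contDiff_const.mul (contDiff_id.sub contDiff_const))))
  have td : ∀ a t, HasDerivAt (τ a) (h (δ⁻¹ * (t - a))) t := fun a t => by
    have := (((d (δ⁻¹ * (t - a))).1.comp t (((hasDerivAt_id t).sub_const a).const_mul δ⁻¹)).const_mul
      δ).const_add a
    rwa [mul_one, mul_comm δ, inv_mul_cancel_right₀ d0.ne'] at this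
  have tb : ∀ a t, dist (τ a t) a ≤ δ * 10 := fun a t => by
    rw [Real.dist_eq, add_sub_cancel_left, abs_mul, abs_of_pos d0]
    exact mul_le_mul_of_nonneg_left (d _).2.2 d0.le
  have ti : ∀ a t, dist t a < δ → τ a t = t := fun a t ht => by
    simp only [τ]
    rw [i _ (by
      rw [abs_mul, abs_inv, abs_of_pos d0, inv_mul_le_iff₀ d0, mul_one]; exact ht.le),
      mul_inv_cancel_left₀ d0.ne', add_sub_cancel]
  have sc : ContDiff ℝ ∞ s := ((tc _).comp contDiff_fst).prodMk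
    (((tc _).comp contDiff_snd.fst).prodMk ((tc _).comp contDiff_snd.snd))
  have sm : ∀ z, s z ∈ D := fun z => hb (max_le (tb _ _) (max_le (tb _ _) (tb _ _)))
  have cj := hj.comp_contDiff sc sm
  refine ⟨j ∘ s, ⟨cj, fun z => (hn _ (sm z)).1, fun z => ?_⟩, ?_⟩
  · have x := hasFDerivAt_id (𝕜 := ℝ) z
    have sd : HasFDerivAt s _ z := ((td _ _).comp_hasFDerivAt z x.fst).prodMk
      (((td _ _).comp_hasFDerivAt z x.snd.fst).prodMk ((td _ _).comp_hasFDerivAt z x.snd.snd))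
    have jd := (hj.contDiffAt (hD.mem_nhds (sm z))).differentiableAt (by simp)
    obtain ⟨v, hv, v0⟩ : ∃ v : Fin 3 → ℝ, (∀ a, fderiv ℝ s z (e a) = v a • e a) ∧ ∀ a, 0 < v a :=
      ⟨![h (δ⁻¹ * (z.1 - z0.1)), h (δ⁻¹ * (z.2.1 - z0.2.1)), h (δ⁻¹ * (z.2.2 - z0.2.2))],
        fun a => by rw [sd.fderiv]; fin_cases a <;> simp [e], fun a => by
          fin_cases a <;> exact (d _).2.1⟩
    have : JG (j ∘ s) z = Matrix.of fun a i => v a * JG j (s z) a i := by
      ext a i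
      rw [JG_eq (cj.differentiable (by simp) z), fderiv_comp z jd sd.differentiableAt,
        Matrix.of_apply, JG_eq jd, ContinuousLinearMap.comp_apply, hv, map_smul]
      rfl
    rw [this, Matrix.det_mul_column]
    exact mul_ne_zero (Finset.prod_pos fun a _ => v0 a).ne' (hn _ (sm z)).2
  · filter_upwards [ball_mem_nhds z0 d0] with z hz
    have k := mem_ball.1 hz
    simp only [Prod.dist_eq, max_lt_iff] at k
    simp only [Function.comp, s, ti _ _ k.1, ti _ _ k.2.1, ti _ _ k.2.2]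

variable {z : X3}

theorem pd_ev' {f f' : X3 → ℝ} (h : f =ᶠ[𝓝 z] f') (i : Fin 3) :
    P354H.pd i f z = P354H.pd i f' z := by rw [P354H.pd, P354H.pd, h.fderiv_eq]

theorem MD_ev {m n : Type} {M M' : X3 → Matrix m n ℝ} (h : M =ᶠ[𝓝 z] M') (i : Fin 3) :
    MD i M z = MD i M' z := by
  ext a b
  exact pd_ev' (h.mono fun y hy => by simp only [hy]) i

theorem dsl_ev' {u u' : X3 → Ix → ℝ} (h : u =ᶠ[𝓝 z] u') : dsl u z = dsl u' z := by
  have h1 : ∀ i j, P354H.pd j (fun y => u y i) z = P354H.pd j (fun y => u' y i) z := fun i j =>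
    pd_ev' (h.mono fun y hy => by simp only [hy]) j
  funext k i
  simp only [dsl, P354J.fd, h1, h.self_of_nhds]

theorem U1_ev {h h' K K' : X3 → M3} (e1 : h =ᶠ[𝓝 z] h') (e2 : K =ᶠ[𝓝 z] K') :
    U1 h K z = U1 h' K' z := by
  have k : ∀ i, MD i (P354J.S0 (fun y => P354J.Oh (h y)) fun y => P354J.Eh (h y)) z =
      MD i (P354J.S0 (fun y => P354J.Oh (h' y)) fun y => P354J.Eh (h' y)) z := fun i =>
    MD_ev (e1.mono fun y hy => by simp only [P354J.S0, hy]) i
  have k2 : ∀ a, Gh h K a z = Gh h' K' a z := fun a => by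
    simp only [Gh, P354J.ev, P354J.om, P354J.gauge, k, P354J.GW, P354J.Chr, MD_ev e1, P354J.T0]
    simp only [P354J.S0, e1.self_of_nhds, e2.self_of_nhds]
  simp only [U1, k2, e1.self_of_nhds]

theorem U0_ev {h h' K K' : X3 → M3} (e1 : h =ᶠ[𝓝 z] h') (e2 : K =ᶠ[𝓝 z] K') :
    U0 h K =ᶠ[𝓝 z] U0 h' K' := by
  have k : U1 h K =ᶠ[𝓝 z] U1 h' K' := by
    filter_upwards [e1.eventually_nhds, e2.eventually_nhds] with y a b using U1_ev a b
  filter_upwards [k.eventually_nhds] with y hy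
  rw [U0, U0, dsl_ev' hy, hy.self_of_nhds]

theorem pg_ev {j Φ : X3 → X} (h : j =ᶠ[𝓝 z] Φ) (F : X → M3) : pg j F =ᶠ[𝓝 z] pg Φ F := by
  filter_upwards [h.eventually_nhds] with y hy
  have : JG j y = JG Φ y := by
    ext a i
    exact pd_ev' (hy.mono fun x hx => by simp only [hx]) a
  rw [pg, pg, this, hy.self_of_nhds]

/-- **LOC.** -/
theorem loc : LOC := by
  intro d j D hd hc hD hj hn
  have k : ∀ z ∈ D, ∃ Φ, Gd Φ ∧ pg j d.h z = pg Φ d.h z ∧ pg j d.K z = pg Φ d.K z ∧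
      Uj d j =ᶠ[𝓝 z] U0 (pg Φ d.h) (pg Φ d.K) := fun z hz => by
    obtain ⟨Φ, g, h⟩ := ex_gd hD hj hn hz
    exact ⟨Φ, g, (pg_ev h _).self_of_nhds, (pg_ev h _).self_of_nhds,
      U0_ev (pg_ev h _) (pg_ev h _)⟩
  refine ⟨fun i z hz => ?_, fun z hz => ?_⟩
  · obtain ⟨Φ, g, -, -, h⟩ := k z hz
    exact (((P354J.sl1 _ _ (P354PU.toPDG hd g)).1 i).contDiffAt.congr_of_eventuallyEq
      (h.mono fun y hy => congrFun hy i)).contDiffWithinAt
  · obtain ⟨Φ, g, e1, e2, h⟩ := k z hz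
    obtain ⟨s1, s2, s3, s4, s5, s6⟩ := (P354J.sl1 _ _ (P354PU.toPDG hd g)).2 z
    rw [P354XB.Cn, dsl_ev' h, h.self_of_nhds, e1, e2]
    exact ⟨s1, s2, s3, s4, s5, s6.1 ((P354PU.sl2G hd g z).2 (hc _ (g.ne z)))⟩

end Vale.Agent.P354XP
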