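import Vale.Agent.P354XP.Win
import Vale.Agent.P354XP.Loc
import Vale.Agent.P354PP.Bg

/-!
The kick for a family of parameters, and KSG from its parts.
-/

open scoped ContDiff
open Set Filter Topology Matrix

noncomputable section

namespace Vale.Agent.P354XP

open Vale.Agent.P354H (X3 pdl)
open Vale.Agent.P354C (Ix)
open Vale.Agent.P354E (sg)
open Vale.Agent.P354I (X Dat ee pd Con)
open Vale.Agent.P354J (PDy U0)
open Vale.Agent.P354PU (JG JX pg)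
open Vale.Agent.P354XB (Sa Prf Win Pol)
open Vale.Agent.P354XC (Gam Cone Ham Mom)
open Vale.Agent.P354XS (DA qm)

variable {P : Type}

/-- The conclusion of KSG with the sizes ε and η. -/
def Kk {M a : ℝ} (d : DA M a) (n m : ℕ) (c0 R w ρ A l : ℝ) (j : X3 → X) (α : X3 → Ix → ℝ)
    (ε η : ℝ) : Prop :=
  ∃ d' : DA M a, qm m d'.1 d.1 ≤ ENNReal.ofReal ε ∧
    (∀ y ≠ 0, y ∉ Hull (c0 * ρ) (j '' tsupport α) → d'.1.h y = d.1.h y ∧ d'.1.K y = d.1.K y) ∧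
    ∀ z ∈ Win R w 6, (j z ∉ Hull (c0 * ρ) (j '' tsupport α) → Uj d'.1 j z = Uj d.1 j z) ∧
      ∀ i, Sa l n (fun x => Uj d'.1 j x i - Uj d.1 j x i - A * Real.sin (l * x.1) * α x i) z η

theorem pg_pull (d : Dat) (j : X3 → X) (Θ : X → X) (z : X3) :
    pg j (d.pull Θ).h z = JG j z * JX Θ (j z) * d.h (Θ (j z)) * (JG j z * JX Θ (j z))ᵀ ∧
    pg j (d.pull Θ).K z = JG j z * JX Θ (j z) * d.K (Θ (j z)) * (JG j z * JX Θ (j z))ᵀ := by
  simp only [pg, P354PU.pull_h, P354PU.pull_K, transpose_mul, Matrix.mul_assoc, and_self]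

theorem core (prep : PREP) (bg : BG) (qp : QP) (chart : CHART) (hull : HULL) (mol : MOL)
    (tail : TAIL) {M a : ℝ} (ha : |a| < M) (d : DA M a) (n m : ℕ) {B : ℕ → ℝ} {c c0 : ℝ}
    (hc0 : 0 < c0) {l : Filter P} {σ : P → Bool} {R w G ρ A lam δ : P → ℝ} {j : P → X3 → X}
    {α : P → X3 → Ix → ℝ} {Ψ Θ : P → X → X} (hρ : Tendsto ρ l atTop)
    (h : ∀ᶠ r in l, 0 < w r ∧ ρ r ≤ G r ∧ Cht (3 * n + 9 + 1) (R r) (w r) (G r) (ρ r) c (σ r) (j r) ∧
      Prf (3 * n + 9 + 1) (R r) (w r) (G r) (α r) ∧ 1 ≤ lam r ∧ 0 < A r ∧ 0 < δ r)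
    (hc : ∀ᶠ r in l, Cn B (σ r) (ρ r) (Ψ r) (Θ r) ∧
      (∀ y, ρ r ≤ ‖y‖ → ‖y‖ ≤ 2 * ρ r → c * ‖y‖ ≤ ‖y‖ + sg (σ r) * y 2 → Θ r y ∈ Gam (ρ r / 2)) ∧
      ∀ x ∈ Gam (ρ r / 2), ∀ s : ℝ, 0 ≤ s → ∀ v : X, v 0 = 1 → |v 1| ≤ 1 → |v 2| ≤ 1 →
        ‖Ψ r x‖ + c0 * ρ r * ‖dir (Ψ r (x + s • v)) - dir (Ψ r x)‖ ≤ ‖Ψ r (x + s • v)‖)
    (hδ : ∀ n : ℕ, ∀ᶠ r in l, (lam r * G r) ^ n * δ r ≤ 1 ∧ (lam r * G r / δ r) ^ n * A r ≤ δ r) :
    ∃ N1 N2 : ℕ, ∀ᶠ r in l, Kk d n m c0 (R r) (w r) (ρ r) (A r) (lam r) (j r) (α r)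
      ((lam r * G r / δ r) ^ N1 * A r) (A r * G r ^ N2 / lam r) := by
  have g2 : ∀ᶠ r in l, 2 ≤ G r := by
    filter_upwards [h, hρ.eventually_ge_atTop 2] with r h g using g.trans h.2.1
  have r1 := hρ.eventually_ge_atTop 1
  have o : ∀ᶠ r in l, δ r ≤ 1 ∧ lam r ≤ lam r * G r ∧ lam r * G r ≤ lam r * G r / δ r ∧
      2 ≤ lam r * G r / δ r := by
    filter_upwards [h, hδ 0, g2] with r h e g
    have d1 : δ r ≤ 1 := by simpa using e.1
    have l1 := h.2.2.2.2.1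
    have := le_div_self (a := lam r * G r) (by nlinarith) h.2.2.2.2.2.2 d1
    exact ⟨d1, by nlinarith, this, by nlinarith⟩
  have sm : ∀ (k N : ℕ) (t : P → ℝ), (∀ᶠ r in l, 0 ≤ t r ∧ (lam r * G r) ^ (N + k) * t r ≤ 1) →
      ∀ᶠ r in l, (lam r * G r) ^ N * (t r * A r) ≤ A r / lam r ^ k := fun k N t ht => by
    filter_upwards [ht, h, o] with r ht h o
    have l0 : 0 < lam r := by linarith [h.2.2.2.2.1]
    have A0 := h.2.2.2.2.2.1
    have : lam r ^ k ≤ (lam r * G r) ^ k := pow_le_pow_left₀ l0.le o.2.1 k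
    have p : 0 ≤ (lam r * G r) ^ N := pow_nonneg (by linarith [o.2.1]) N
    rw [le_div_iff₀ (pow_pos l0 k)]
    calc _ = (lam r * G r) ^ N * lam r ^ k * t r * A r := by ring
      _ ≤ (lam r * G r) ^ N * (lam r * G r) ^ k * t r * A r := by gcongr; exact ht.1
      _ ≤ 1 * A r := by rw [← pow_add]; gcongr; exact ht.2
      _ = _ := one_mul _
  have sA : ∀ N : ℕ, ∀ᶠ r in l, 0 ≤ A r ∧ (lam r * G r) ^ N * A r ≤ 1 := fun N => by
    filter_upwards [hδ N, h, o] with r e h o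
    exact ⟨h.2.2.2.2.2.1.le, (mul_le_mul_of_nonneg_right (pow_le_pow_left₀
      (by linarith [o.2.1, h.2.2.2.2.1]) o.2.2.1 N) h.2.2.2.2.2.1.le).trans (e.2.trans o.1)⟩
  have sd : ∀ k : ℕ, ∀ᶠ r in l, A r / lam r ^ k ≤ A r := fun k => h.mono fun r h =>
    div_le_self h.2.2.2.2.2.1.le (one_le_pow₀ h.2.2.2.2.1)
  let W : Os P X3 :=
    { F := FW l R w G g2, C := fun r => tsupport (α r), lam := lam, A := A,
      s := fun r => A r / lam r ^ 1, φ := fun _ x => x.1, K := 3 * n + 9, hV := rfl,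
      hc := fun _ => rfl
      ok := by
        filter_upwards [h, sd 1] with r h s
        exact ⟨isClosed_tsupport _, h.2.2.2.2.1, h.2.2.2.2.2.1, s⟩
      small := fun N => (sm 1 N A (sA _)).mono fun r h => by rw [sq]; exact h
      sm := .of_forall fun _ => contDiffOn_fst
      ph := fun i => (Fr.t_cst (P354H.e i).1).cast (by
        funext r x; simp [D, cst, FW, fderiv_fst]) }
  obtain ⟨F, θ, J, fl, fe, fV, fG, fc, fU, mθ, mτ, tJ, inv⟩ := chart P B c (3 * n + 9) W.F R w ρ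
    σ j Ψ Θ rfl rfl (fun _ => rfl) (by
      filter_upwards [h, hc, r1] with r h hc r1 using ⟨rfl, r1, h.2.2.1, hc.1⟩)
  have fl' : F.l = l := fl
  have fG' : F.G = G := fG
  have cpt : ∀ᶠ r in l, IsCompact ((fun z => Θ r (j r z)) '' tsupport (α r)) := by
    obtain ⟨_, e⟩ := mτ.ev
    filter_upwards [e, h] with r e h
    have := prf_supp h.2.2.2.1 h.1
    exact this.1.image_of_continuousOn (e.1.continuousOn.mono this.2)
  have zs : ∀ᶠ r in l, A r * lam r ^ (-((n + 2 : ℕ) : ℤ) - 1) = A r / lam r ^ (n + 3) :=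
    .of_forall fun r => by
      rw [div_eq_mul_inv, ← zpow_natCast, ← _root_.zpow_neg]; congr 2
  let U : Os P X :=
    { F := F, C := fun r => (fun z => Θ r (j r z)) '' tsupport (α r), lam := lam, A := A,
      s := fun r => A r * lam r ^ (-((n + 2 : ℕ) : ℤ) - 1), φ := fun r x => (θ r x).1,
      K := 3 * n + 9, hV := fV, hc := fc
      ok := by
        rw [fl']
        filter_upwards [h, sd (n + 3), cpt, zs] with r h s c z
        exact ⟨c.isClosed, h.2.2.2.2.1, h.2.2.2.2.2.1, z ▸ s⟩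
      small := fun N => by
        rw [fl', fG']
        filter_upwards [sm (n + 3) N A (sA _), zs] with r h z
        rw [sq, z]; exact h
      sm := (xi_eq mθ rfl).1
      ph := fun i => (tJ i 0).1.congr ((xi_eq mθ rfl).2 i) }
  have t : Two W U θ (fun r z => Θ r (j r z)) J
      fun i b r z => (JG (j r) z * JX (Θ r) (j r z)) i b :=
    ⟨rfl, fe, fl, rfl, rfl, rfl, rfl, rfl, fU, fun _ => rfl, by
      filter_upwards [h, zs] with r h z
      refine ⟨z.trans_le ?_, (prf_supp h.2.2.2.1 h.1).2⟩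
      exact div_le_div_of_nonneg_left h.2.2.2.2.2.1.le (by linarith [h.2.2.2.2.1])
        (pow_le_pow_right₀ h.2.2.2.2.1 (by omega)), mθ, mτ, tJ, inv⟩
  let S : P → Set X := fun r =>
    {x ∈ Gam (ρ r / 2) | Ψ r x ∈ Hull (c0 * ρ r) (j r '' tsupport (α r))}
  have j0 : ∀ᶠ r in l, ∀ z ∈ Win (R r) (w r) 6, j r z ≠ 0 ∧ Θ r (j r z) ∈ Gam (ρ r / 2) ∧
      Ψ r (Θ r (j r z)) = j r z ∧ ‖Θ r (j r z)‖ ≤ 4 * ρ r := by
    filter_upwards [h, hc, r1] with r h hc r1 z hz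
    obtain ⟨a, b, e⟩ := h.2.2.1.loc z hz
    have n0 : j r z ≠ 0 := fun e => by rw [e, norm_zero] at a; linarith
    have i := (hc.1.1.inv _ n0).1
    have := (P354PP.lam_norm (σ r) (Θ r (j r z))).1
    rw [← hc.1.2.1, i] at this
    exact ⟨n0, hc.2.1 _ a b e, i, by linarith⟩
  have hu : ∀ᶠ r in l, IsClosed (Hull (c0 * ρ r) (j r '' tsupport (α r))) ∧
      j r '' tsupport (α r) ⊆ Hull (c0 * ρ r) (j r '' tsupport (α r)) ∧ Cone (ρ r / 2) (S r) := by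
    filter_upwards [h, hc, r1, j0] with r h hc r1 j0
    have p := prf_supp h.2.2.2.1 h.1
    refine hull _ _ _ _ (by linarith) (by positivity)
      (p.1.image_of_continuousOn (h.2.2.1.sm.continuousOn.mono p.2)) ?_
      hc.1.1.l.sm.continuousOn hc.2.2
    rintro ⟨z, hz, e⟩
    exact (j0 z (p.2 hz)).1 e
  obtain ⟨u, v, sy, su, f3, F1, f1, a1, fin⟩ := mid prep mol t rfl (ρ := ρ) (δ := δ) (S := S)
    (α := α) (sb_of bg ha d (fl' ▸ hρ) (fl' ▸ hc.mono fun _ h => h.1)) (fl'.le (by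
      filter_upwards [h, hc, r1, j0, hu, cpt] with r h hc r1 j0 hu cpt
      have p := prf_supp h.2.2.2.1 h.1
      refine ⟨r1, fG' ▸ h.2.1, h.2.2.2.2.2.2, P354PU.pdy_pull hc.1.1 d.2.1,
        P354PU.con_pull hc.1.1 d.2.1 d.2.2.1, hu.2.2, cpt, fU r ▸ image_mono p.2, ?_, ?_⟩
      · rintro _ ⟨z, hz, rfl⟩
        exact ⟨(j0 z (p.2 hz)).2.1, hu.2.1 ⟨z, hz, (j0 z (p.2 hz)).2.2.1.symm⟩⟩
      · rintro _ ⟨z, hz, rfl⟩
        exact (j0 z (p.2 hz)).2.2.2)) (fl'.le (by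
      filter_upwards [j0] with r j0
      show F.U r ⊆ _
      rw [fU]
      rintro _ ⟨z, hz, rfl⟩
      exact (j0 z hz).2.1)) (fun N => fl'.le (by
      filter_upwards [hδ N, zs, sm (n + 3) N δ (by
        filter_upwards [h, hδ (N + (n + 3))] with r h e using ⟨h.2.2.2.2.2.2.le, e.1⟩)]
        with r e z s
      show (lam r * F.G r) ^ N * δ r ≤ 1 ∧ (lam r * F.G r / δ r) ^ N * A r ≤ δ r ∧
        (lam r * F.G r) ^ N * (δ r * A r) ≤ _
      rw [fG']; exact ⟨e.1, e.2, s.trans_eq z.symm⟩)) rfl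
    (fun i => (prf_T (h := g2) (h.mono fun _ h => h.2.2.2.1) i).pred)
    (h.mono fun r h => ⟨h.2.2.2.1.pol, by simp [W]⟩)
    (.of_forall fun r x _ hx => image_eq_zero_of_notMem_tsupport hx)
  obtain ⟨F0, g0, -, a0⟩ := f3 0
  obtain ⟨d1, e1, e2⟩ := tail M a ha d B P F.l σ ρ Ψ Θ S u v (fl' ▸ hρ) sy (by
    filter_upwards [fl'.le hc, fl'.le hu, su] with r a b c using ⟨a.1, b.2.2, c⟩)
    ⟨F0, _, _, _, g0, a0⟩
  obtain ⟨N2, s2⟩ := fin d1 (e2 _ _ _ _ _ f1 a1).1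
  obtain ⟨F3, g3, G3, a3⟩ := f3 m
  obtain ⟨N1, s1⟩ := (e2 _ _ _ _ _ g3 a3).2
  choose C C0 qp using qp B
  obtain ⟨N3, s3⟩ := pow_unbounded_of_one_lt (C m) (one_lt_two (α := ℝ))
  refine ⟨N3 + N1, N2, ?_⟩
  filter_upwards [h, hc, j0, hu, o, fl'.ge e1, fl'.ge s1, s2, W.F.ok] with r h hc j0 hu o e1 s1 s2 ok
  have cy := hc.1.1
  have eq := P354PU.eqv_pull cy d.1
  have cs : P354I.Cyl B (Θ r) (Ψ r) := ⟨cy.r, cy.l, fun y hy => (cy.inv y hy).symm⟩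
  have p1 := P354PU.pdy_pull cs e1.1
  have q : ∀ m, qm m ((d1 r).pull (Θ r)) d.1 ≤
      ENNReal.ofReal (C m) * qm m (d1 r) (d.1.pull (Ψ r)) := fun m => by
    rw [← P354XQ.qm_congr m (fun _ _ => ⟨rfl, rfl⟩) eq]
    refine qp m _ _ _ cy.r (fun y hy => ?_) e1.1.1 (P354PU.pdy_pull cy d.2.1).1
    have := P354PP.lam_norm (σ r) (Θ r y)
    rw [← hc.1.2.1, (cy.inv y hy).1] at this
    exact ⟨by linarith [norm_nonneg (Θ r y)], this.1⟩
  have off : ∀ y ≠ 0, y ∉ Hull (c0 * ρ r) (j r '' tsupport (α r)) →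
      ((d1 r).pull (Θ r)).h y = d.1.h y ∧ ((d1 r).pull (Θ r)).K y = d.1.K y := fun y hy hH => by
    have := e1.2.2.1 (Θ r y) fun hS => hH ((cy.inv y hy).1 ▸ hS.2)
    rw [← (eq y hy).1, ← (eq y hy).2]
    simp only [P354PU.pull_h _ (Θ r), P354PU.pull_K _ (Θ r), this.1, this.2, and_self]
  refine ⟨⟨(d1 r).pull (Θ r), p1, P354PU.con_pull cs e1.1 e1.2.1, fun m =>
    (P354XQ.qm_tri m p1.1 d.2.1.1 (P354XK.pdy ha).1).trans_lt (ENNReal.add_lt_top.2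
      ⟨(q m).trans_lt (ENNReal.mul_lt_top ENNReal.ofReal_lt_top (e1.2.2.2 m)), d.2.2.2 m⟩)⟩,
    (q m).trans ((mul_le_mul_right s1 _).trans ?_), off, fun z hz => ⟨fun hH => ?_, fun i => ?_⟩⟩
  · rw [← ENNReal.ofReal_mul (C0 m), G3]
    refine ENNReal.ofReal_le_ofReal ?_
    show C m * ((1 * (lam r * F.G r / δ r)) ^ N1 * A r) ≤ _
    rw [one_mul, fG', pow_add, mul_assoc]
    exact mul_le_mul_of_nonneg_right (s3.le.trans (pow_le_pow_left₀ two_pos.le o.2.2.2 _))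
      (mul_nonneg (pow_nonneg (by linarith [o.2.2.2]) _) h.2.2.2.2.2.1.le)
  · have ct := (h.2.2.1.sm.continuousOn.continuousAt (ok.1.mem_nhds hz)).eventually
      (hu.1.isOpen_compl.mem_nhds hH)
    refine (U0_ev ?_ ?_).eq_of_nhds <;> filter_upwards [ct, ok.1.mem_nhds hz] with y a b <;>
      simp only [pg, off _ (j0 y b).1 a]
  · refine sa_ev (s2 z hz i) ?_
    have a : U0 (Two.pl (fun r z => Θ r (j r z)) (fun i b r z => (JG (j r) z * JX (Θ r) (j r z)) i b)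
        (fun r => (d.1.pull (Ψ r)).h) r) (Two.pl (fun r z => Θ r (j r z))
          (fun i b r z => (JG (j r) z * JX (Θ r) (j r z)) i b) (fun r => (d.1.pull (Ψ r)).K) r)
        =ᶠ[𝓝 z] Uj d.1 (j r) := by
      refine U0_ev ?_ ?_ <;> filter_upwards [ok.1.mem_nhds hz] with y b
      · exact (pg_pull _ _ _ y).1.symm.trans (by simp only [pg, (eq _ (j0 y b).1).1])
      · exact (pg_pull _ _ _ y).2.symm.trans (by simp only [pg, (eq _ (j0 y b).1).2])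
    have b1 := funext fun y => (pg_pull (d1 r) (j r) (Θ r) y).1
    have b2 := funext fun y => (pg_pull (d1 r) (j r) (Θ r) y).2
    filter_upwards [a] with y a
    rw [a, Uj, Uj, b1, b2]; rfl

end Vale.Agent.P354XP
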