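import Vale.Agent.P354XP.Ksg0
import Vale.Agent.P354PR.Main
import Vale.Agent.P354PP.Mol
import Vale.Agent.P354CH.Chart
import Vale.Agent.P354CH.Hull
import Vale.Agent.P354XC.Tail
import Vale.Agent.P354YG.Cone

/-!
KSG.
-/

namespace Vale.Agent.P354XP

/-- **KSG.** -/
theorem ksg : KSG :=
  ksg_of P354PR.prep P354PP.bg P354PP.qp P354CH.chart P354CH.hull P354PP.mol
    (P354XC.tail P354PP.bg) P354YG.cone

end Vale.Agent.P354XP
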