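import Vale.Agent.P354XP.Core

/-!
KSG from its parts.
-/

open scoped ContDiff
open Set Filter Topology

noncomputable section

namespace Vale.Agent.P354XP

open Vale.Agent.P354H (X3)
open Vale.Agent.P354C (Ix)
open Vale.Agent.P354I (X)
open Vale.Agent.P354XB (Prf)

/-- The parameters. -/
structure Par (n : ℕ) (c : ℝ) where
  σ : Bool
  R : ℝ
  w : ℝ
  G : ℝ
  ρ : ℝ
  A : ℝ
  l : ℝ
  δ : ℝ
  j : X3 → X
  α : X3 → Ix → ℝ
  ok : 0 < w ∧ ρ ≤ G ∧ Cht n R w G ρ c σ j ∧ Prf n R w G α ∧ 1 ≤ l ∧ 0 < A ∧ 0 < δ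

/-- The conditions of order N. -/
def Par.S (n : ℕ) (c : ℝ) (N : ℕ) : Set (Par n c) :=
  {p | ∀ k ≤ N, (k : ℝ) ≤ p.ρ ∧ (p.l * p.G) ^ k * p.δ ≤ 1 ∧ (p.l * p.G / p.δ) ^ k * p.A ≤ p.δ}

theorem ksg_of (prep : PREP) (bg : BG) (qp : QP) (chart : CHART) (hull : HULL) (mol : MOL)
    (tail : TAIL) (cone : CONE) : KSG := by
  refine fun n => ⟨3 * n + 9 + 1, fun c hc => ?_⟩
  obtain ⟨B, c0, h0, cone⟩ := cone c hc
  choose! Ψ Θ cone using cone
  refine ⟨c0, h0, fun M a ha d m => ?_⟩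
  have hb : (⨅ N, 𝓟 (Par.S (3 * n + 9 + 1) c N)).HasBasis (fun _ => True) (Par.S _ c) :=
    hasBasis_iInf_principal (directed_of_isDirected_le fun i j h p hp k hk => hp k (hk.trans h))
  have ev := fun N => hb.mem_of_mem (i := N) trivial
  have hρ : Tendsto (fun p : Par (3 * n + 9 + 1) c => p.ρ) (⨅ N, 𝓟 (Par.S _ c N)) atTop :=
    tendsto_atTop.2 fun b => mem_of_superset (ev ⌈b⌉₊) fun p hp =>
      (Nat.le_ceil b).trans (hp _ le_rfl).1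
  obtain ⟨N1, N2, h⟩ := core prep bg qp chart hull mol tail ha d n m (B := B) (c := c) h0
    (σ := Par.σ) (R := Par.R) (w := Par.w) (G := Par.G) (A := Par.A) (lam := Par.l) (δ := Par.δ)
    (j := Par.j) (α := Par.α) (Ψ := fun p => Ψ p.σ p.ρ) (Θ := fun p => Θ p.σ p.ρ) hρ
    (.of_forall fun p => p.ok) ((hρ.eventually_gt_atTop 0).mono fun p hp =>
      have := cone p.σ p.ρ hp
      ⟨⟨this.1, this.2.1, this.2.2.1⟩, this.2.2.2⟩)
    fun N => mem_of_superset (ev N) fun p hp => (hp _ le_rfl).2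
  obtain ⟨N, -, h⟩ := hb.eventually_iff.1 h
  refine ⟨(N + 1) * (N + N1) + N + N2, N + 1,
    fun σ R w G ρ A l j α hw hρ hG cht prf hl hA hs => ?_⟩
  have G1 : 1 ≤ G := by linarith [(Nat.cast_nonneg N : (0 : ℝ) ≤ N)]
  have q1 : 1 ≤ l * G := by nlinarith
  have q0 : 0 < (l * G) ^ N := by positivity
  have e : ∀ k : ℕ, (l * G / ((l * G) ^ N)⁻¹) ^ k = (l * G) ^ ((N + 1) * k) := fun k => by
    rw [div_inv_eq_mul, ← pow_succ', pow_mul]
  obtain ⟨d', h1, h2, h3⟩ := @h ⟨σ, R, w, G, ρ, A, l, ((l * G) ^ N)⁻¹, j, α, hw, hG, cht, prf, hl,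
    hA, inv_pos.2 q0⟩ fun k hk => by
      refine ⟨by dsimp only; linarith [(Nat.cast_le (α := ℝ)).2 hk], ?_, ?_⟩
      · exact mul_inv_le_one_of_le₀ (pow_le_pow_right₀ q1 hk) q0.le
      · show (l * G / ((l * G) ^ N)⁻¹) ^ k * A ≤ ((l * G) ^ N)⁻¹
        rw [e, inv_eq_one_div, le_div_iff₀ q0, mul_right_comm, ← pow_add, mul_comm]
        exact (mul_le_mul_of_nonneg_left (pow_le_pow_right₀ q1 (by nlinarith)) hA.le).trans hs
  refine ⟨d', h1.trans (ENNReal.ofReal_le_ofReal ?_), h2, fun z hz => ⟨(h3 z hz).1,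
    fun i β hβ => ((h3 z hz).2 i β hβ).trans ?_⟩⟩
  · show (l * G / ((l * G) ^ N)⁻¹) ^ N1 * A ≤ _
    rw [e, mul_comm]
    exact mul_le_mul_of_nonneg_left (pow_le_pow_right₀ q1 (by nlinarith)) hA.le
  · show A * G ^ N2 / l * l ^ _ ≤ _
    gcongr
    omega

end Vale.Agent.P354XP
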