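import Vale.Agent.P354XP.Props

/-!
Changes of frames and of charts for the relation Rel; the constraints are local and Lipschitz.
-/

open scoped ContDiff
open Set Filter Topology Matrix

noncomputable section

namespace Vale.Agent.P354XP

open Vale.Agent.P354I (X Dat ee pd)
open Vale.Agent.P354XC (Ham Mom)

section
variable {P E E' : Type} [NormedAddCommGroup E] [NormedSpace ℝ E] [NormedAddCommGroup E']
  [NormedSpace ℝ E'] {k : ℕ} {s s' f : Fn P E}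

/-- Restriction with a change of the base and of the size. -/
theorem Fr.B.res {F F' : Fr P E} (hf : F.B k s f) (hl : F'.l = F.l) (he : F'.e = F.e)
    (h : ∀ᶠ r in F.l, F'.V r ⊆ F.V r ∧ ∀ i, ∀ x ∈ F'.V r, F.c i r x ≤ F'.c i r x)
    (hs : ∀ n : ℕ, ∃ m : ℕ, ∀ᶠ r in F.l, ∀ x ∈ F'.V r, F.G r ^ n * s r x ≤ F'.G r ^ m * s' r x) :
    F'.B k s' f := by
  refine Fr.B.tr (F := F) (F' := F') (π := id) (W := fun _ => univ) hl.le he
    (fun i => ⟨0, ?_⟩) hf (fun n => ?_) ?_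
  · rw [hl]; filter_upwards [h] with r h x hx _ using by simpa using h.2 i x hx
  · obtain ⟨m, hm⟩ := hs n
    refine ⟨m, ?_⟩
    filter_upwards [F'.ok, hl.le hm, hl.le h, hl.le hf.zero.nn, hl.le F.ok]
      with r o' hm h hn o x hx
    refine ⟨?_, fun _ => hm x hx⟩
    have : 0 ≤ F.G r ^ n * s r x :=
      mul_nonneg (pow_nonneg (by linarith [o.2.2.1]) _) (hn x (h.1 hx))
    exact (mul_nonneg_iff_of_pos_left (pow_pos (by linarith [o'.2.2.1]) m)).1 (this.trans (hm x hx))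
  · filter_upwards [hl.le h] with r h x hx
    exact ⟨fun _ => ⟨h.1 hx, .rfl⟩, fun h => (h trivial).elim⟩

theorem Fr.T.res {F F' : Fr P E} (hf : F.T k s f) (hl : F'.l = F.l) (he : F'.e = F.e)
    (h : ∀ᶠ r in F.l, F'.U r ⊆ F.U r ∧ F'.V r ⊆ F.V r ∧ ∀ i, ∀ x ∈ F'.V r, F.c i r x ≤ F'.c i r x)
    (hs : ∀ n : ℕ, ∃ m : ℕ, ∀ᶠ r in F.l, ∀ x ∈ F'.V r, F.G r ^ n * s r x ≤ F'.G r ^ m * s' r x) :
    F'.T k s' f := by
  refine ⟨?_, hf.b.res hl he (h.mono fun _ h => h.2) hs⟩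
  unfold Fr.Sm; rw [hl]
  filter_upwards [hf.sm, h] with r hf h using hf.mono h.1

/-- The cost of the derivatives is moved to the size. -/
theorem Fr.T.cost {F F' : Fr P E} {lam : P → ℝ} (hf : F.T k s f) (hl : F'.l = F.l)
    (he : F'.e = F.e) (hc : ∀ i, F.c i = pr lam) (hc' : ∀ i, F'.c i = 1)
    (h : ∀ᶠ r in F.l, F'.U r ⊆ F.U r ∧ F'.V r ⊆ F.V r ∧ F.G r ≤ F'.G r ∧ 1 ≤ lam r) :
    F'.T k (s * pr fun r => lam r ^ k) f := by
  refine ⟨?_, ?_⟩
  · unfold Fr.Sm; rw [hl]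
    filter_upwards [hf.sm, h] with r hf h using hf.mono h.1
  obtain ⟨n, hn⟩ := hf.b.words
  refine Fr.B.of_words n ?_
  rw [hl, he]
  filter_upwards [hn, h, hf.b0.nn, F.ok] with r hn h h0 o α hα x hx
  have e1 : ∀ α : List (Fin 3), (α.map F.c).prod r x = lam r ^ α.length := fun α => by
    induction α with
    | nil => simp
    | cons a α ih => simp [ih, hc, pr, pow_succ']
  have e2 : (α.map F'.c).prod r x = 1 := by
    induction α with
    | nil => simp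
    | cons a α ih => simp [ih (by simp at hα; omega), hc']
  refine (hn α hα x (h.2.1 hx)).trans ?_
  simp only [Pi.mul_apply, e1, e2, mul_one, pr]
  have s0 := h0 x (h.2.1 hx)
  have g0 : 0 ≤ F.G r := by linarith [o.2.2.1]
  have l0 : 0 ≤ lam r := by linarith [h.2.2.2]
  exact mul_le_mul (pow_le_pow_left₀ g0 h.2.2.1 n) (mul_le_mul_of_nonneg_left
    (pow_le_pow_right₀ h.2.2.2 hα) s0) (by positivity) (pow_nonneg (g0.trans h.2.2.1) n)

variable {O : Os P E} {n : ℤ} {f' f'' g : Fn P E} {σ : Pr P E}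

theorem Os.Rel.pert (h : O.Rel k n f f' f'' σ) (hg : O.F.T k (pr O.s) g) :
    O.Rel k n f f' (f'' + g) σ := by
  obtain ⟨τ, a, b⟩ := h.ex
  exact ⟨h.le, h.t, h.d, h.am, τ, a, (b.add hg).cast (by ring)⟩

/-- The wave in a frame in which every derivative costs lam. -/
theorem Os.Am.wc (h : O.Am k σ) (hk : k ≤ O.K + 1) {F : Fr P E} (hl : F.l = O.F.l)
    (he : F.e = O.F.e) (hc : ∀ i, F.c i = pr O.lam)
    (hU : ∀ᶠ r in O.F.l, F.U r ⊆ O.F.U r ∧ O.F.G r ≤ F.G r) : F.T k 1 (O.W σ) := by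
  have key : ∀ {m : ℕ} {f : Fn P E}, O.F.T m 1 f → F.T m 1 f := fun {m f} hf => by
    refine hf.res hl he ?_ fun n => ⟨n, ?_⟩
    · filter_upwards [hU, hl.ge F.ok, O.ok] with r h o o'
      refine ⟨h.1, ?_, fun i x _ => by rw [hc, O.hc]; exact o'.2.1⟩
      rw [O.hV]; exact o.2.1.trans h.1
    · filter_upwards [hU, O.F.ok] with r h o x _
      exact mul_le_mul_of_nonneg_right (pow_le_pow_left₀ (by linarith [o.2.2.1]) h.2 n) zero_le_one
  have sm : F.Sm (pr O.lam * O.φ) := by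
    unfold Fr.Sm; rw [hl]
    filter_upwards [Os.sm_ph (O := O), hU] with r h h' using h.mono h'.1
  have w := Fr.t_trig sm (K := O.K) (fun i => by
    have l : F.T O.K (pr O.lam) (pr O.lam) := Fr.t_par (Fr.B0.refl (by
      filter_upwards [hl.le O.ok] with r o x _ using zero_le_one.trans o.2.1)) _
    refine ((l.mulr (key (O.ph i))).congr ?_).wt (hc i).symm
    unfold Fr.Eq Fr.Ev; rw [hl, he]
    filter_upwards [Os.d_pr O.lam O.sm i, hU] with r h h' x hx using h x (h'.1 hx)) hk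
  exact ((key h.a).mul1 w.1).add ((key h.b).mul1 w.2)

/-- The relation in another chart. -/
theorem Os.Rel.cp {O' : Os P E'} {τ : P → E' → E} {J : Fin 3 → Fin 3 → Fn P E'} {K : ℕ}
    (h : O.Rel k n f f f'' σ) (m : Fr.Mp O'.F O.F τ J) (hJ : ∀ i b, O'.F.T K 1 (J i b))
    (hk : k ≤ K + 1) (hk' : k ≤ O'.K) (hl : O'.lam = O.lam) (hA : O'.A = O.A)
    (hs : ∀ᶠ r in O'.F.l, O.s r ≤ O'.s r)
    (e : O'.F.Ev fun r x => O'.φ r x = O.φ r (τ r x) ∧ (x ∉ O'.C r → τ r x ∉ O.C r)) :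
    O'.Rel k n (Fr.cp f τ) (Fr.cp f τ) (Fr.cp f'' τ) fun r x => σ r (τ r x) := by
  obtain ⟨ρ, a, b⟩ := h.ex
  have key : ∀ {s f : Fn P E}, O.F.T k s f → O'.F.T k (Fr.cp s τ) (Fr.cp f τ) := fun hf =>
    m.comp hJ (fun i b => by rw [O.hc, O'.hc]; exact Fr.b0_one.congr (.of_eq fun _ _ => by
      simp [Fr.cp])) hk hf
  have am : ∀ {σ : Pr P E}, O.Am k σ → O'.Am k fun r x => σ r (τ r x) := fun h =>
    ⟨key h.a, key h.b, by
      obtain ⟨_, ha⟩ := m.ev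
      filter_upwards [m.le h.z, e, ha] with r h e ha x hx hc
      exact h _ (ha.2.1 hx) ((e x hx).2 hc)⟩
  refine ⟨hk', key h.t, (Fr.t_zero Os.bAA).cast (by ring), am h.am, _, am a,
    ((key b).mono (Fr.B0.of_le ?_)).congr ?_⟩
  · filter_upwards [hs, m.le (Os.s_nn (O := O))] with r hs h0 x _
    simpa only [Fr.cp, pr, abs_of_nonneg h0] using hs
  · filter_upwards [e] with r e x hx
    simp only [Fr.cp, Os.W, Os.al, pr, p1, p2, co, si, Pi.sub_apply, Pi.mul_apply, Pi.add_apply,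
      (e x hx).1, hl, hA]

end

/-- The constraints are local. -/
theorem ham_ev {d d' : Dat} {y : X} (h1 : d'.h =ᶠ[𝓝 y] d.h) (h2 : d'.K =ᶠ[𝓝 y] d.K) :
    Ham d' y = Ham d y ∧ ∀ j, Mom d' j y = Mom d j y := by
  have e : ∀ {F G : X → N3} {z : X}, F =ᶠ[𝓝 z] G → ∀ i a b,
      pd i (fun z => F z a b) z = pd i (fun z => G z a b) z := fun h i a b => by
    rw [pd, pd, EventuallyEq.fderiv_eq (h.mono fun w hw => by rw [hw])]
  have c : ∀ k i j, d'.chr k i j =ᶠ[𝓝 y] d.chr k i j := fun k i j =>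
    h1.eventually_nhds.mono fun z hz => by simp only [Dat.chr, e hz, EventuallyEq.eq_of_nhds hz]
  have t : d'.trK =ᶠ[𝓝 y] d.trK := by
    filter_upwards [h1, h2] with z a b
    simp only [Dat.trK, a, b]
  refine ⟨?_, fun j => ?_⟩
  · simp only [Ham, Dat.scal, Dat.ric, pd, (c _ _ _).fderiv_eq, (c _ _ _).eq_of_nhds,
      h1.eq_of_nhds, h2.eq_of_nhds, Dat.sqK, t.eq_of_nhds]
  · simp only [Mom, Dat.divK, e h2, (c _ _ _).eq_of_nhds, h1.eq_of_nhds, h2.eq_of_nhds]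
    rw [pd, pd, t.fderiv_eq]

variable {P : Type} {O : Os P X} {k : ℕ} {d : P → Dat} {u v u' v' : Fin 3 → Fin 3 → Fn P X}

/-- The constraints are Lipschitz. -/
theorem lipc (he : O.F.e = ee) (hC : O.C = fun _ => ∅) (hk : k + 2 ≤ O.K)
    (hb : ∀ i j, O.F.T (k + 2) 1 (hh d i j) ∧ O.F.T (k + 1) 1 (kk d i j))
    (sy : O.F.Ev fun r x => ((d r).h x).IsSymm)
    (nz : (O.F.Ev fun r x => ((d r).h x).det ≠ 0) ∧ O.F.B0 1 (fun r x => ((d r).h x).det)⁻¹)
    (h : ∀ i j, O.H.T (k + 2) (pr O.A) (u i j) ∧ O.H.T (k + 1) (pr O.A) (v i j))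
    (h' : ∀ i j, O.F.T (k + 2) (pr O.s) (u' i j - u i j) ∧
      O.F.T (k + 1) (pr O.s) (v' i j - v i j)) :
    (O.H.T k (pr O.A) (lf Ham (ad d u v) - lf Ham d) ∧
      O.F.T k (pr O.s) (lf Ham (ad d u' v') - lf Ham (ad d u v))) ∧ ∀ b,
    O.H.T k (pr O.A) (lf (fun d => Mom d b) (ad d u v) - lf (fun d => Mom d b) d) ∧
      O.F.T k (pr O.s) (lf (fun d => Mom d b) (ad d u' v') - lf (fun d => Mom d b) (ad d u v)) := by
  have rel : ∀ {m : ℕ} {n : ℤ} {f g g' : Fn P X}, m ≤ O.K → O.F.T m 1 f → O.H.T m (pr O.A) g →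
      O.F.T m (pr O.s) (g' - g) → O.Rel m n f (f + g) (f + g') 0 := fun hm a b c =>
    ⟨hm, a, b.cast (by ring), Os.am_zero, 0, Os.am_zero, c.cast (by rw [Os.W_zero]; ring)⟩
  have D : RD ⟨O, d, ad d u v, ad d u' v'⟩ k 0 0 0 :=
    ⟨he, fun i j => rel hk (hb i j).1 (h i j).1 (h' i j).1,
      fun i j => rel (by omega) (hb i j).2 (h i j).2 (h' i j).2, nz, sy, fun _ _ => rfl,
      fun _ _ => rfl⟩
  have key : ∀ {n : ℤ} {f f' f'' : Fn P X} {σ : Pr P X}, O.Rel k n f f' f'' σ →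
      O.H.T k (pr O.A) (f' - f) ∧ O.F.T k (pr O.s) (f'' - f') := fun h => by
    obtain ⟨τ, a, b⟩ := h.ex
    refine ⟨h.d, b.congr ?_⟩
    filter_upwards [a.z, h.am.z] with r a a' x hx
    simp [Os.W, p1, p2, a x hx (by simp [hC]), a' x hx (by simp [hC])]
  exact ⟨key D.ham, fun b => key (D.mom b)⟩

end Vale.Agent.P354XP
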