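import Vale.Agent.P354XP.Tr

/-!
Oscillating perturbations: the relation Rel between a function of the background, of a first and
of a second perturbation, with the principal symbol of the change.
-/

open scoped ContDiff
open Set Filter Topology

noncomputable section

namespace Vale.Agent.P354XP

variable {P E : Type} [NormedAddCommGroup E] [NormedSpace ℝ E]

/-- Functions of the parameter. -/
def pr (a : P → ℝ) : Fn P E := fun r _ => a r

/-- Pairs of amplitudes. -/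
abbrev Pr (P E : Type) : Type := P → E → ℝ × ℝ
def p1 (σ : Pr P E) : Fn P E := fun r x => (σ r x).1
def p2 (σ : Pr P E) : Fn P E := fun r x => (σ r x).2
def Jr (σ : Pr P E) : Pr P E := fun r x => ((σ r x).2, -(σ r x).1)
def Dp (e : Fin 3 → E) (i : Fin 3) (σ : Pr P E) : Pr P E :=
  fun r x => (D e i (p1 σ) r x, D e i (p2 σ) r x)
def co (ψ : Fn P E) : Fn P E := fun r x => Real.cos (ψ r x)
def si (ψ : Fn P E) : Fn P E := fun r x => Real.sin (ψ r x)

theorem Fr.d_trig {F : Fr P E} {ψ : Fn P E} (h : F.Sm ψ) (i : Fin 3) :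
    F.Eq (-(D F.e i ψ * si ψ)) (D F.e i (co ψ)) ∧ F.Eq (D F.e i ψ * co ψ) (D F.e i (si ψ)) := by
  refine ⟨?_, ?_⟩ <;> filter_upwards [h.da] with r h x hx
  · have e : co ψ r = fun y => Real.cos (ψ r y) := rfl
    simp [D, e, fderiv_cos (h x hx), si, mul_comm]
  · have e : si ψ r = fun y => Real.sin (ψ r y) := rfl
    simp [D, e, fderiv_sin (h x hx), co, mul_comm]

theorem Fr.t_trig {F : Fr P E} {ψ : Fn P E} (h : F.Sm ψ) {K : ℕ}
    (hd : ∀ i, F.T K (F.c i) (D F.e i ψ)) :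
    ∀ {k : ℕ}, k ≤ K + 1 → F.T k 1 (co ψ) ∧ F.T k 1 (si ψ)
  | 0, _ => ⟨⟨h.mono fun _ h => Real.contDiff_cos.comp_contDiffOn h,
      Fr.B0.of_le (.of_forall fun _ _ _ => Real.abs_cos_le_one _)⟩,
    ⟨h.mono fun _ h => Real.contDiff_sin.comp_contDiffOn h,
      Fr.B0.of_le (.of_forall fun _ _ _ => Real.abs_sin_le_one _)⟩⟩
  | k + 1, hk => by
    have ih := Fr.t_trig h hd (k := k) (by omega)
    have h0 := Fr.t_trig h hd (k := 0) (by omega)
    exact ⟨h0.1.succ fun i => ((((hd i).low (by omega)).mulr ih.2).neg.congr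
        (Fr.d_trig h i).1).wt (one_mul _).symm,
      h0.2.succ fun i => ((((hd i).low (by omega)).mulr ih.1).congr
        (Fr.d_trig h i).2).wt (one_mul _).symm⟩

/-- The frame, the support C, the frequency, the amplitude A, the size s of the remainders, and
the phase, which is controlled up to the order K + 1. -/
structure Os (P E : Type) [NormedAddCommGroup E] [NormedSpace ℝ E] where
  F : Fr P E
  C : P → Set E
  lam : P → ℝ
  A : P → ℝ
  s : P → ℝ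
  φ : Fn P E
  K : ℕ
  hV : F.V = F.U
  hc : ∀ i, F.c i = 1
  ok : ∀ᶠ r in F.l, IsClosed (C r) ∧ 1 ≤ lam r ∧ 0 < A r ∧ s r ≤ A r
  small : ∀ n : ℕ, ∀ᶠ r in F.l, (lam r * F.G r) ^ n * A r ^ 2 ≤ s r
  sm : F.Sm φ
  ph : ∀ i, F.T K 1 (D F.e i φ)

namespace Os

variable (O : Os P E)

/-- The frame with the base lam G. -/
def H : Fr P E := { O.F with
  G := fun r => O.lam r * O.F.G r
  ok := by
    filter_upwards [O.F.ok, O.ok] with r o o'
    exact ⟨o.1, o.2.1, by nlinarith [o.2.2.1, o'.2.1], o.2.2.2⟩ }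

/-- The wave, the differential of the phase, and the sizes. -/
def W (σ : Pr P E) : Fn P E := p1 σ * co (pr O.lam * O.φ) + p2 σ * si (pr O.lam * O.φ)
def ξ (i : Fin 3) : Fn P E := D O.F.e i O.φ
def al (n : ℤ) : Fn P E := pr fun r => O.A r * O.lam r ^ n

/-- Amplitudes. -/
structure Am (k : ℕ) (σ : Pr P E) : Prop where
  a : O.F.T k 1 (p1 σ)
  b : O.F.T k 1 (p2 σ)
  z : O.F.Ev fun r x => x ∉ O.C r → σ r x = 0

/-- The relation. -/
structure Rel (k : ℕ) (n : ℤ) (f f' f'' : Fn P E) (σ : Pr P E) : Prop where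
  le : k ≤ O.K
  t : O.F.T k 1 f
  d : O.H.T k (pr O.A) (f' - f)
  am : O.Am k σ
  ex : ∃ τ, O.Am k τ ∧ O.F.T k (pr O.s) (f'' - f' - O.al n * O.W σ - O.al (n - 1) * O.W τ)

variable {O} {k : ℕ} {n : ℤ} {s f f' f'' g g' g'' : Fn P E} {σ τ : Pr P E}

theorem toH (h : O.F.T k s f) : O.H.T k s f := by
  refine Fr.T.sub_fr (F := O.F) (F' := O.H) (π := id) tendsto_id rfl 1 ?_ h
  filter_upwards [O.F.ok, O.ok, O.H.ok] with r o o' o2
  refine ⟨subset_rfl, subset_rfl, ?_, fun i x hx => ?_⟩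
  · show O.F.G r ≤ (O.lam r * O.F.G r) ^ 1
    nlinarith [o.2.2.1, o'.2.1]
  · exact le_mul_of_one_le_left (o.2.2.2 i x hx) (one_le_pow₀ (by linarith [o2.2.2.1]))

theorem s_nn : ∀ᶠ r in O.F.l, 0 ≤ O.s r := (O.small 0).mono fun r h => le_trans (by positivity) h

theorem quad (h : O.H.T k (pr O.A * pr O.A) f) : O.F.T k (pr O.s) f := by
  refine ⟨h.sm, Fr.B.tr (F := O.H) (F' := O.F) (π := id) (W := fun _ => univ) tendsto_id rfl
    (fun i => ⟨0, .of_forall fun r x _ _ => by simp [H]⟩) h.b (fun n => ⟨0, ?_⟩)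
    (.of_forall fun r x hx => ⟨fun _ => ⟨hx, .rfl⟩, fun h => (h trivial).elim⟩)⟩
  filter_upwards [O.small n, s_nn] with r h h0 x _
  exact ⟨h0, fun _ => by simpa [pr, H, sq] using h⟩

theorem tiny (n : ℕ) : ∀ᶠ r in O.F.l, (O.lam r * O.F.G r) ^ n * O.A r ≤ 1 / 2 := by
  filter_upwards [O.small (n + 1), O.ok, O.H.ok] with r h o o2
  have h2 : 2 ≤ O.lam r * O.F.G r := o2.2.2.1
  have h3 : (O.lam r * O.F.G r) ^ (n + 1) * O.A r * O.A r ≤ 1 * O.A r := by nlinarith [o.2.2.2]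
  have h4 := le_of_mul_le_mul_right h3 o.2.2.1
  have h5 : 0 ≤ (O.lam r * O.F.G r) ^ n * O.A r := by have := o.2.2.1; positivity
  rw [pow_succ] at h4; nlinarith

theorem b_A : O.H.B0 1 (pr O.A) := Fr.B0.of_le (by
  filter_upwards [tiny 0, O.ok] with r h o x _
  simp only [pr, Pi.one_apply]; rw [abs_of_pos o.2.2.1]; linarith)

theorem b_s : O.H.B0 (pr O.A) (pr O.s) := Fr.B0.of_le (by
  filter_upwards [s_nn, O.ok] with r h o x _
  simp only [pr]; rw [abs_of_nonneg h]; exact o.2.2.2)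

theorem t_lam : O.H.T k 1 (pr O.lam) := Fr.t_par ⟨1, by
  filter_upwards [O.F.ok, O.ok] with r o o' x _
  show |O.lam r| ≤ (O.lam r * O.F.G r) ^ 1 * 1
  rw [abs_of_pos (by linarith [o'.2.1])]; nlinarith [o.2.2.1, o'.2.1]⟩ k

theorem t_lami : O.F.T k 1 (pr fun r => (O.lam r)⁻¹) := Fr.t_par (Fr.B0.of_le (by
  filter_upwards [O.ok] with r o x _
  rw [abs_of_pos (inv_pos.2 (by linarith [o.2.1]))]; exact inv_le_one_of_one_le₀ o.2.1)) k

theorem t_al (n : ℤ) : O.H.T k (pr O.A) (O.al n) := Fr.t_par ⟨n.toNat, by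
  filter_upwards [O.F.ok, O.ok] with r o o' x _
  show |O.A r * O.lam r ^ n| ≤ (O.lam r * O.F.G r) ^ n.toNat * O.A r
  have l0 : 0 < O.lam r := by linarith [o'.2.1]
  rw [abs_of_pos (mul_pos o'.2.2.1 (zpow_pos l0 n)), mul_comm]
  refine mul_le_mul_of_nonneg_right ?_ o'.2.2.1.le
  refine (zpow_le_zpow_right₀ o'.2.1 (Int.self_le_toNat n)).trans ?_
  rw [zpow_natCast]
  exact pow_le_pow_left₀ l0.le (by nlinarith [o.2.2.1]) _⟩ k

theorem d_pr (a : P → ℝ) (h : O.F.Sm f) (i : Fin 3) :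
    O.F.Eq (pr a * D O.F.e i f) (D O.F.e i (pr a * f)) := by
  filter_upwards [Fr.d_mul (f := pr a) (.of_forall fun _ => contDiffOn_const) h i] with r h x hx
  rw [← h x hx]; simp [D, show pr a r = fun _ : E => a r from rfl]

theorem sm_ph : O.F.Sm (pr O.lam * O.φ) :=
  Fr.Sm.mul (.of_forall fun _ => contDiffOn_const) O.sm

theorem t_wave (hk : k ≤ O.K + 1) :
    O.H.T k 1 (co (pr O.lam * O.φ)) ∧ O.H.T k 1 (si (pr O.lam * O.φ)) :=
  Fr.t_trig (F := O.H) sm_ph (fun i => ((t_lam.mul1 (toH (O.ph i))).congr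
    (d_pr _ O.sm i)).wt (O.hc i).symm) hk

theorem Am.w (h : O.Am k σ) (hk : k ≤ O.K + 1) : O.H.T k 1 (O.W σ) :=
  ((toH h.a).mul1 (t_wave hk).1).add ((toH h.b).mul1 (t_wave hk).2)

theorem am_zero : O.Am k 0 :=
  ⟨Fr.t_zero Fr.b0_one, Fr.t_zero Fr.b0_one, .of_forall fun _ _ _ _ => rfl⟩

theorem Am.add (h : O.Am k σ) (h' : O.Am k τ) : O.Am k (σ + τ) :=
  ⟨h.a.add h'.a, h.b.add h'.b, by
    filter_upwards [h.z, h'.z] with r h h' x hx hc
    simp [h x hx hc, h' x hx hc]⟩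

theorem Am.smul (hf : O.F.T k 1 f) (h : O.Am k σ) : O.Am k (f • σ) :=
  ⟨hf.mul1 h.a, hf.mul1 h.b, by
    filter_upwards [h.z] with r h x hx hc
    simp [h x hx hc]⟩

theorem Am.jr (h : O.Am k σ) : O.Am k (Jr σ) :=
  ⟨h.b, h.a.neg, by
    filter_upwards [h.z] with r h x hx hc
    simp [Jr, h x hx hc]⟩

theorem Am.low {k' : ℕ} (h : O.Am k σ) (hk : k' ≤ k) : O.Am k' σ := ⟨h.a.low hk, h.b.low hk, h.z⟩

theorem Am.congr (h : O.Am k σ) (e : O.F.Ev fun r x => σ r x = τ r x) : O.Am k τ :=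
  ⟨h.a.congr (Eventually.mono e fun _ e x hx => congrArg Prod.fst (e x hx)),
    h.b.congr (Eventually.mono e fun _ e x hx => congrArg Prod.snd (e x hx)), by
    filter_upwards [h.z, e] with r h e x hx hc
    rw [← e x hx]; exact h x hx hc⟩

theorem Am.sum {ι : Type} [Fintype ι] {σ : ι → Pr P E} (h : ∀ i, O.Am k (σ i)) :
    O.Am k (∑ i, σ i) :=
  Finset.sum_induction σ (O.Am k) (fun _ _ => Am.add) am_zero fun i _ => h i

theorem td (h : O.F.T (k + 1) s f) (i : Fin 3) : O.F.T k s (D O.F.e i f) :=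
  (h.d i).wt (by rw [O.hc, mul_one])

theorem tdH (h : O.H.T (k + 1) s f) (i : Fin 3) : O.H.T k s (D O.F.e i f) :=
  (h.d i).wt (by rw [show O.H.c i = 1 from O.hc i, mul_one])

theorem Am.dp (h : O.Am (k + 1) σ) (i : Fin 3) : O.Am k (Dp O.F.e i σ) := by
  refine ⟨td h.a i, td h.b i, ?_⟩
  filter_upwards [h.z, O.F.ok, O.ok] with r h o o' x hx hc
  have e : σ r =ᶠ[𝓝 x] fun _ => 0 := by
    filter_upwards [o.1.mem_nhds hx, o'.1.isOpen_compl.mem_nhds hc] with y a b using h y a b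
  have e1 : p1 σ r =ᶠ[𝓝 x] fun _ => 0 := e.mono fun y hy => by simp [p1, hy]
  have e2 : p2 σ r =ᶠ[𝓝 x] fun _ => 0 := e.mono fun y hy => by simp [p2, hy]
  simp [Dp, D, e1.fderiv_eq, e2.fderiv_eq]

theorem W_add (σ τ : Pr P E) : O.W (σ + τ) = O.W σ + O.W τ := by
  funext r x; simp [W, p1, p2]; ring
theorem W_smul (f : Fn P E) (σ : Pr P E) : O.W (f • σ) = f * O.W σ := by
  funext r x; simp [W, p1, p2]; ring
theorem W_zero : O.W 0 = 0 := by funext r x; simp [W, p1, p2]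

theorem d_W (h : O.Am (k + 1) σ) (i : Fin 3) : O.F.Eq
    (pr O.lam * O.W (O.ξ i • Jr σ) + O.W (Dp O.F.e i σ)) (D O.F.e i (O.W σ)) := by
  have w := t_wave (O := O) (k := 0) (by omega)
  filter_upwards [Fr.d_add (h.a.sm.mul w.1.sm) (h.b.sm.mul w.2.sm) i, Fr.d_mul h.a.sm w.1.sm i,
    Fr.d_mul h.b.sm w.2.sm i, (Fr.d_trig sm_ph i).1, (Fr.d_trig sm_ph i).2,
    d_pr O.lam O.sm i] with r e1 e2 e3 e4 e5 e6 x hx
  have := e1 x hx
  simp only [Pi.add_apply] at this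
  rw [W, W, W, ← this, ← e2 x hx, ← e3 x hx]
  simp only [Pi.add_apply, Pi.mul_apply, ← e4 x hx, ← e5 x hx, Pi.neg_apply, ← e6 x hx]
  simp [p1, p2, Jr, Dp, ξ]; ring

theorem al_succ (n : ℤ) : O.F.Eq (O.al n * pr O.lam) (O.al (n + 1)) := by
  filter_upwards [O.ok] with r o x _
  simp only [al, pr, Pi.mul_apply]
  rw [zpow_add_one₀ (by linarith [o.2.1]), mul_assoc]

theorem al_pred (n : ℤ) : O.F.Eq (O.al n * pr fun r => (O.lam r)⁻¹) (O.al (n - 1)) := by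
  filter_upwards [O.ok] with r o x _
  simp only [al, pr, Pi.mul_apply]
  rw [zpow_sub_one₀ (by linarith [o.2.1]), mul_assoc]

end Os

end Vale.Agent.P354XP
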