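import Vale.Agent.P354XP.Rel

/-!
The relation Rel for functionals of three families of data.
-/

open scoped ContDiff
open Set Filter Topology Matrix

noncomputable section

namespace Vale.Agent.P354XP

variable {P E α : Type} [NormedAddCommGroup E] [NormedSpace ℝ E]

/-- The functional Φ on the family d. -/
def lf (Φ : α → E → ℝ) (d : P → α) : Fn P E := fun r => Φ (d r)

/-- The background and two perturbations. -/
structure Tri (P E α : Type) [NormedAddCommGroup E] [NormedSpace ℝ E] where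
  O : Os P E
  d : P → α
  d' : P → α
  d'' : P → α

namespace Tri

variable (t : Tri P E α)

/-- The relation with a given symbol, and with some symbol. -/
def R (k : ℕ) (n : ℤ) (Φ : α → E → ℝ) (σ : Pr P E) : Prop :=
  t.O.Rel k n (lf Φ t.d) (lf Φ t.d') (lf Φ t.d'') σ
def L (k : ℕ) (n : ℤ) (Φ : α → E → ℝ) : Prop := ∃ σ, t.R k n Φ σ

variable {t} {k : ℕ} {n : ℤ} {Φ Ψ : α → E → ℝ} {σ τ : Pr P E}

theorem R.l (h : t.R k n Φ σ) : t.L k n Φ := ⟨σ, h⟩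
theorem R.cast (h : t.R k n Φ σ) (e : ∀ a x, Φ a x = Ψ a x) : t.R k n Ψ σ := by
  obtain rfl : Φ = Ψ := funext fun a => funext (e a)
  exact h
theorem R.sy (h : t.R k n Φ σ) (e : t.O.F.Ev fun r x => σ r x = τ r x) : t.R k n Φ τ :=
  Os.Rel.sy h e
theorem R.sy' (h : t.R k n Φ σ) (e : ∀ r x, σ r x = τ r x) : t.R k n Φ τ :=
  h.sy (.of_forall fun r x _ => e r x)
theorem R.low {k' : ℕ} (h : t.R k n Φ σ) (hk : k' ≤ k) : t.R k' n Φ σ := Os.Rel.low h hk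
theorem R.add (h : t.R k n Φ σ) (h' : t.R k n Ψ τ) :
    t.R k n (fun a x => Φ a x + Ψ a x) (σ + τ) := Os.Rel.add h h'
theorem R.sub (h : t.R k n Φ σ) (h' : t.R k n Ψ τ) :
    t.R k n (fun a x => Φ a x - Ψ a x) (σ - τ) := Os.Rel.sub h h'
theorem R.neg (h : t.R k n Φ σ) : t.R k n (fun a x => -Φ a x) (-σ) := Os.Rel.neg h
theorem R.mul (h : t.R k n Φ σ) (h' : t.R k n Ψ τ) :
    t.R k n (fun a x => Φ a x * Ψ a x) (lf Ψ t.d • σ + lf Φ t.d • τ) := Os.Rel.mul h h'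
theorem R.cmul (c : ℝ) (h : t.R k n Φ σ) :
    t.R k n (fun a x => c * Φ a x) fun r x => c • σ r x := Os.Rel.cmul c h
theorem r_cst (hk : k ≤ t.O.K) (c : ℝ) : t.R k n (fun _ _ => c) 0 := Os.rel_cst hk c
theorem R.sum {ι : Type} [Fintype ι] [Nonempty ι] {Φ : ι → α → E → ℝ} {σ : ι → Pr P E}
    (h : ∀ i, t.R k n (Φ i) (σ i)) :
    t.R k n (fun a x => ∑ i, Φ i a x) fun r x => ∑ i, σ i r x :=
  (Os.Rel.sum h).congr (.of_eq fun r x => by simp [lf]) (.of_eq fun r x => by simp [lf])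
    (.of_eq fun r x => by simp [lf]) (.of_forall fun r x _ => by simp)
theorem R.pd (h : t.R (k + 1) n Φ σ) (i : Fin 3) :
    t.R k (n + 1) (fun a x => fderiv ℝ (Φ a) x (t.O.F.e i)) (t.O.ξ i • Jr σ) := Os.Rel.pd h i

/-- A coefficient of lower order times a term. -/
theorem L.up : t.L k n Φ → t.R k (n + 1) Φ 0 := fun ⟨_, h⟩ => Os.Rel.up h
theorem L.up2 (h : t.L k n Φ) : t.R k (n + 1 + 1) Φ 0 := h.up.l.up
theorem R.mul0 (h : t.R k n Φ 0) (h' : t.R k n Ψ τ) :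
    t.R k n (fun a x => Φ a x * Ψ a x) fun r x => Φ (t.d r) x • τ r x :=
  (h.mul h').sy' fun r x => by simp [lf]
theorem R.mul0' (h : t.R k n Φ σ) (h' : t.R k n Ψ 0) :
    t.R k n (fun a x => Φ a x * Ψ a x) fun r x => Ψ (t.d r) x • σ r x :=
  (h.mul h').sy' fun r x => by simp [lf]

theorem L.cast : t.L k n Φ → (∀ a x, Φ a x = Ψ a x) → t.L k n Ψ := fun ⟨_, h⟩ e => (h.cast e).l
theorem L.low {k' : ℕ} : t.L k n Φ → k' ≤ k → t.L k' n Φ := fun ⟨_, h⟩ e => (h.low e).l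
theorem L.add : t.L k n Φ → t.L k n Ψ → t.L k n fun a x => Φ a x + Ψ a x :=
  fun ⟨_, h⟩ ⟨_, h'⟩ => (h.add h').l
theorem L.sub : t.L k n Φ → t.L k n Ψ → t.L k n fun a x => Φ a x - Ψ a x :=
  fun ⟨_, h⟩ ⟨_, h'⟩ => (h.sub h').l
theorem L.mul : t.L k n Φ → t.L k n Ψ → t.L k n fun a x => Φ a x * Ψ a x :=
  fun ⟨_, h⟩ ⟨_, h'⟩ => (h.mul h').l
theorem L.neg : t.L k n Φ → t.L k n fun a x => -Φ a x := fun ⟨_, h⟩ => h.neg.l
theorem L.cmul (c : ℝ) : t.L k n Φ → t.L k n fun a x => c * Φ a x := fun ⟨_, h⟩ => (h.cmul c).l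
theorem L.le : t.L k n Φ → k ≤ t.O.K := fun ⟨_, h⟩ => h.le
theorem L.bg : t.L k n Φ → t.O.F.T k 1 (lf Φ t.d) := fun ⟨_, h⟩ => h.t
theorem l_cst (hk : k ≤ t.O.K) (c : ℝ) : t.L k n fun _ _ => c := (r_cst hk c).l
theorem L.sum {ι : Type} [Fintype ι] [Nonempty ι] {Φ : ι → α → E → ℝ} (h : ∀ i, t.L k n (Φ i)) :
    t.L k n fun a x => ∑ i, Φ i a x := by
  choose σ h using h
  exact (R.sum h).l
theorem L.pd : t.L (k + 1) n Φ → ∀ i,
    t.L k (n + 1) fun a x => fderiv ℝ (Φ a) x (t.O.F.e i) := fun ⟨_, h⟩ i => (h.pd i).l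

/-- The background value of Φ is bounded away from zero. -/
def Nz (t : Tri P E α) (Φ : α → E → ℝ) : Prop :=
  (t.O.F.Ev fun r x => Φ (t.d r) x ≠ 0) ∧ t.O.F.B0 1 (lf Φ t.d)⁻¹
def Ps (t : Tri P E α) (Φ : α → E → ℝ) : Prop :=
  (t.O.F.Ev fun r x => 0 < Φ (t.d r) x) ∧ t.O.F.B0 1 (lf Φ t.d)⁻¹

theorem Ps.nz (h : t.Ps Φ) : t.Nz Φ := ⟨Eventually.mono h.1 fun _ h x hx => (h x hx).ne', h.2⟩

theorem L.inv : t.L k n Φ → t.Nz Φ → t.L k n fun a x => (Φ a x)⁻¹ :=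
  fun ⟨_, h⟩ z => ⟨_, Os.Rel.inv h z.1 z.2⟩
theorem L.rt : t.L k n Φ → t.Ps Φ → t.L k n fun a x => √(Φ a x) :=
  fun ⟨_, h⟩ z => ⟨_, Os.Rel.rt h z.1 z.2⟩

/-- A lower bound by a positive function. -/
theorem Ps.of_le (h : t.Ps Φ) {c : Fn P E} (hc : t.O.F.B0 1 c)
    (e : t.O.F.Ev fun r x => 0 < Ψ (t.d r) x ∧ Φ (t.d r) x ≤ c r x * Ψ (t.d r) x) : t.Ps Ψ := by
  refine ⟨Eventually.mono e fun _ h x hx => (h x hx).1, ?_⟩
  obtain ⟨m, hm⟩ := hc.mul h.2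
  refine ⟨m, ?_⟩
  filter_upwards [hm, e, h.1, t.O.F.ok] with r hm e h o x hx
  obtain ⟨p, q⟩ := e x (o.2.1 hx)
  have p' := h x (o.2.1 hx)
  refine le_trans ?_ (((le_abs_self _).trans (hm x hx)).trans_eq (by simp))
  simp only [Pi.inv_apply, Pi.mul_apply, lf]
  rw [abs_of_pos (inv_pos.2 p), ← div_eq_mul_inv, inv_eq_one_div, div_le_div_iff₀ p p', one_mul]
  exact q

theorem Ps.mul (h : t.Ps Φ) (h' : t.Ps Ψ) : t.Ps fun a x => Φ a x * Ψ a x :=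
  ⟨by filter_upwards [h.1, h'.1] with r a b x hx using mul_pos (a x hx) (b x hx),
    by simpa only [mul_one] using (Fr.B0.congr (g := (lf (fun a x => Φ a x * Ψ a x) t.d)⁻¹)
      (h.2.mul h'.2) (.of_eq fun r x => by simp [lf, mul_comm]))⟩

theorem Ps.rt (h : t.Ps Φ) (l : t.L k n Φ) : t.Ps fun a x => √(Φ a x) :=
  h.of_le (l.rt h).bg.b0 (Eventually.mono h.1 fun _ h x hx =>
    ⟨Real.sqrt_pos.2 (h x hx), (Real.mul_self_sqrt (h x hx).le).ge⟩)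

variable {M : α → E → Matrix (Fin 3) (Fin 3) ℝ}

theorem l_det (h : ∀ i j, t.L k n fun a x => M a x i j) : t.L k n fun a x => (M a x).det :=
  ((((((((h 0 0).mul (h 1 1)).mul (h 2 2)).sub (((h 0 0).mul (h 1 2)).mul (h 2 1))).sub
    (((h 0 1).mul (h 1 0)).mul (h 2 2))).add (((h 0 1).mul (h 1 2)).mul (h 2 0))).add
    (((h 0 2).mul (h 1 0)).mul (h 2 1))).sub (((h 0 2).mul (h 1 1)).mul (h 2 0))).cast
    fun _ _ => (det_fin_three _).symm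

theorem adj3 (A : Matrix (Fin 3) (Fin 3) ℝ) (i j : Fin 3) : A.adjugate i j =
    A (j + 1) (i + 1) * A (j + 2) (i + 2) - A (j + 1) (i + 2) * A (j + 2) (i + 1) := by
  rw [adjugate_fin_three]
  fin_cases i <;> fin_cases j <;> simp <;> ring

theorem l_inv (h : ∀ i j, t.L k n fun a x => M a x i j) (z : t.Nz fun a x => (M a x).det)
    (i j : Fin 3) : t.L k n fun a x => (M a x)⁻¹ i j :=
  (((l_det h).inv z).mul (((h (j + 1) (i + 1)).mul (h (j + 2) (i + 2))).sub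
    ((h (j + 1) (i + 2)).mul (h (j + 2) (i + 1))))).cast fun a x => by
      rw [inv_def, Ring.inverse_eq_inv', Matrix.smul_apply, adj3, smul_eq_mul]

end Tri

end Vale.Agent.P354XP
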