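import Vale.Agent.P354XP.Os

/-!
The relation Rel is closed under the operations of the calculus.
-/

open scoped ContDiff
open Set Filter Topology

noncomputable section

namespace Vale.Agent.P354XP.Os

variable {P E : Type} [NormedAddCommGroup E] [NormedSpace ℝ E]
variable {O : Os P E} {k : ℕ} {n : ℤ} {s f f' f'' g g' g'' : Fn P E} {σ τ : Pr P E}

theorem Am.alw (h : O.Am k σ) (hk : k ≤ O.K) (n : ℤ) : O.H.T k (pr O.A) (O.al n * O.W σ) :=
  (t_al n).mulr (h.w (by omega))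

theorem Rel.d2 (h : O.Rel k n f f' f'' σ) : O.H.T k (pr O.A) (f'' - f') := by
  obtain ⟨τ, a, b⟩ := h.ex
  exact ((((toH b).mono b_s).add (h.am.alw h.le n)).add (a.alw h.le (n - 1))).cast (by ring)

theorem Rel.d3 (h : O.Rel k n f f' f'' σ) : O.H.T k (pr O.A) (f'' - f) :=
  (h.d2.add h.d).cast (by ring)

theorem Rel.t1 (h : O.Rel k n f f' f'' σ) : O.H.T k 1 f' :=
  ((h.d.mono b_A).add (toH h.t)).cast (by ring)

theorem Rel.t2 (h : O.Rel k n f f' f'' σ) : O.H.T k 1 f'' :=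
  ((h.d3.mono b_A).add (toH h.t)).cast (by ring)

theorem bAA : O.H.B0 (pr O.A) (pr O.A) := Fr.B0.refl (O.ok.mono fun _ o _ _ => o.2.2.1.le)
theorem bss : O.F.B0 (pr O.s) (pr O.s) := Fr.B0.refl (s_nn.mono fun _ o _ _ => o)

theorem Rel.low {k' : ℕ} (h : O.Rel k n f f' f'' σ) (hk : k' ≤ k) : O.Rel k' n f f' f'' σ := by
  obtain ⟨τ, a, b⟩ := h.ex
  exact ⟨hk.trans h.le, h.t.low hk, h.d.low hk, h.am.low hk, τ, a.low hk, b.low hk⟩

theorem rel_base (hk : k ≤ O.K) (h : O.F.T k 1 f) : O.Rel k n f f f 0 :=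
  ⟨hk, h, (Fr.t_zero bAA).cast (by ring), am_zero, 0, am_zero,
    (Fr.t_zero bss).cast (by rw [W_zero]; ring)⟩

theorem rel_cst (hk : k ≤ O.K) (a : ℝ) : O.Rel k n (cst a) (cst a) (cst a) 0 :=
  rel_base hk (Fr.t_cst a)

theorem Rel.congr (h : O.Rel k n f f' f'' σ) (e : O.F.Eq f g) (e' : O.F.Eq f' g')
    (e'' : O.F.Eq f'' g'') (es : O.F.Ev fun r x => σ r x = τ r x) : O.Rel k n g g' g'' τ := by
  obtain ⟨ρ, a, b⟩ := h.ex
  refine ⟨h.le, h.t.congr e, h.d.congr ?_, h.am.congr es, ρ, a, b.congr ?_⟩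
  · filter_upwards [e, e'] with r e e' x hx
    simp only [Pi.sub_apply, e x hx, e' x hx]
  · filter_upwards [e', e'', es] with r e' e'' es x hx
    simp only [Pi.sub_apply, Pi.mul_apply, Pi.add_apply, W, p1, p2, e' x hx, e'' x hx, es x hx]

theorem Rel.sy (h : O.Rel k n f f' f'' σ) (es : O.F.Ev fun r x => σ r x = τ r x) :
    O.Rel k n f f' f'' τ :=
  h.congr (.of_eq fun _ _ => rfl) (.of_eq fun _ _ => rfl) (.of_eq fun _ _ => rfl) es

theorem Rel.sy' (h : O.Rel k n f f' f'' σ) (es : σ = τ) : O.Rel k n f f' f'' τ := es ▸ h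

theorem Rel.add (h : O.Rel k n f f' f'' σ) (h' : O.Rel k n g g' g'' τ) :
    O.Rel k n (f + g) (f' + g') (f'' + g'') (σ + τ) := by
  obtain ⟨ρ, a, b⟩ := h.ex
  obtain ⟨ρ', a', b'⟩ := h'.ex
  exact ⟨h.le, h.t.add h'.t, (h.d.add h'.d).cast (by ring), h.am.add h'.am, ρ + ρ', a.add a',
    (b.add b').cast (by rw [W_add, W_add]; ring)⟩

theorem Rel.mul (h : O.Rel k n f f' f'' σ) (h' : O.Rel k n g g' g'' τ) :
    O.Rel k n (f * g) (f' * g') (f'' * g'') (g • σ + f • τ) := by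
  obtain ⟨ρ, a, b⟩ := h.ex
  obtain ⟨ρ', a', b'⟩ := h'.ex
  refine ⟨h.le, h.t.mul1 h'.t, ((h.d.mulr h'.t1).add ((toH h.t).mul1 h'.d)).cast (by ring),
    (h.am.smul h'.t).add (h'.am.smul h.t), g • ρ + f • ρ', (a.smul h'.t).add (a'.smul h.t), ?_⟩
  refine ((((quad (h.d2.mul h'.d3)).add (quad (h.d.mul h'.d2))).add (b.mulr h'.t)).add
    (h.t.mul1 b')).cast ?_
  simp only [W_add, W_smul]; ring

theorem Rel.cmul (a : ℝ) (h : O.Rel k n f f' f'' σ) :
    O.Rel k n (cst a * f) (cst a * f') (cst a * f'') ((cst a : Fn P E) • σ) :=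
  ((rel_cst h.le a).mul h).sy' (by simp)

theorem Rel.neg (h : O.Rel k n f f' f'' σ) : O.Rel k n (-f) (-f') (-f'') (-σ) :=
  (h.cmul (-1)).congr (.of_eq fun r x => by simp [cst]) (.of_eq fun r x => by simp [cst])
    (.of_eq fun r x => by simp [cst]) (.of_forall fun r x _ => by simp [cst])

theorem Rel.sub (h : O.Rel k n f f' f'' σ) (h' : O.Rel k n g g' g'' τ) :
    O.Rel k n (f - g) (f' - g') (f'' - g'') (σ - τ) := by
  simpa only [sub_eq_add_neg] using h.add h'.neg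

theorem Rel.sum {ι : Type} [Fintype ι] [Nonempty ι] {f f' f'' : ι → Fn P E} {σ : ι → Pr P E}
    (h : ∀ i, O.Rel k n (f i) (f' i) (f'' i) (σ i)) :
    O.Rel k n (∑ i, f i) (∑ i, f' i) (∑ i, f'' i) (∑ i, σ i) := by
  classical
  have : ∀ t : Finset ι, O.Rel k n (∑ i ∈ t, f i) (∑ i ∈ t, f' i) (∑ i ∈ t, f'' i)
      (∑ i ∈ t, σ i) := fun t => by
    induction t using Finset.induction_on with
    | empty => exact rel_cst (h (Classical.arbitrary ι)).le 0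
    | insert a t ha ih => simpa only [Finset.sum_insert ha] using (h a).add ih
  exact this _

theorem Rel.up (h : O.Rel k n f f' f'' σ) : O.Rel k (n + 1) f f' f'' 0 := by
  obtain ⟨ρ, a, b⟩ := h.ex
  refine ⟨h.le, h.t, h.d, am_zero, σ + (pr fun r => (O.lam r)⁻¹ : Fn P E) • ρ,
    h.am.add (a.smul t_lami), b.congr ?_⟩
  filter_upwards [al_pred (O := O) n] with r e x hx
  simp only [W_add, W_smul, W_zero, add_sub_cancel_right, Pi.sub_apply, Pi.mul_apply,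
    Pi.add_apply, Pi.zero_apply, ← e x hx]
  ring

theorem d_sub (h : O.F.Sm f) (h' : O.F.Sm g) (i : Fin 3) :
    O.F.Eq (D O.F.e i (f - g)) (D O.F.e i f - D O.F.e i g) := by
  filter_upwards [h.da, h'.da] with r h h' x hx
  simp only [D, Pi.sub_apply, fderiv_sub (h x hx) (h' x hx), ContinuousLinearMap.sub_apply]

theorem Rel.pd (h : O.Rel (k + 1) n f f' f'' σ) (i : Fin 3) :
    O.Rel k (n + 1) (D O.F.e i f) (D O.F.e i f') (D O.F.e i f'') (O.ξ i • Jr σ) := by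
  obtain ⟨ρ, a, b⟩ := h.ex
  have hk : k ≤ O.K := by have := h.le; omega
  have hx : O.F.T k 1 (O.ξ i) := (O.ph i).low hk
  refine ⟨hk, td h.t i, (tdH h.d i).congr (d_sub h.t1.sm h.t.sm i),
    (h.am.low k.le_succ).jr.smul hx,
    Dp O.F.e i σ + O.ξ i • Jr ρ + (pr fun r => (O.lam r)⁻¹ : Fn P E) • Dp O.F.e i ρ,
    ((h.am.dp i).add ((a.low k.le_succ).jr.smul hx)).add ((a.dp i).smul t_lami),
    (td b i).congr ?_⟩
  have s1 := (h.am.alw h.le n).sm
  have s2 := (a.alw h.le (n - 1)).sm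
  have s3 : O.F.Sm (f'' - f') := h.d2.sm
  have s4 : O.F.Sm (f'' - f' - O.al n * O.W σ) := (h.d2.sub (h.am.alw h.le n)).sm
  have w1 := (h.am.w (by have := h.le; omega)).sm
  have w2 := (a.w (by have := h.le; omega)).sm
  filter_upwards [d_sub s4 s2 i, d_sub s3 s1 i, d_sub h.t2.sm h.t1.sm i, d_pr _ w1 i, d_pr _ w2 i,
    d_W h.am i, d_W a i, al_succ (O := O) n, al_succ (O := O) (n - 1), al_pred (O := O) n]
    with r e1 e2 e3 e4 e5 e6 e7 e8 e9 e10 x hx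
  have e9' := e9 x hx
  rw [sub_add_cancel] at e9'
  rw [e1 x hx, Pi.sub_apply, Pi.sub_apply, e2 x hx, Pi.sub_apply, Pi.sub_apply, e3 x hx, al, al,
    ← e4 x hx, ← e5 x hx]
  simp only [W_add, W_smul, add_sub_cancel_right, Pi.sub_apply, Pi.mul_apply, Pi.add_apply,
    ← e6 x hx, ← e7 x hx, ← e8 x hx]
  change _ - O.al n r x * _ - O.al (n - 1) r x * _ = _
  have e11 := e10 x hx
  simp only [Pi.mul_apply] at e9' e11
  linear_combination (-(O.ξ i r x * O.W (Jr ρ) r x)) * e9' + O.W (Dp O.F.e i ρ) r x * e11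

/-- A function of f. -/
theorem Rel.fn (h : O.Rel k n f f' f'' σ) {w w0 : Fn P E} (hg : O.F.T k 1 g)
    (hd : O.H.T k (pr O.A) (g' - g)) (h0 : O.F.T k 1 w0) (hw : O.H.T k (pr O.A) (w - w0))
    (e : O.F.Eq ((f'' - f') * w) (g'' - g')) : O.Rel k n g g' g'' (w0 • σ) := by
  obtain ⟨ρ, a, b⟩ := h.ex
  refine ⟨h.le, hg, hd, h.am.smul h0, w0 • ρ, a.smul h0,
    ((quad (h.d2.mul hw)).add (b.mulr h0)).congr ?_⟩
  filter_upwards [e] with r e x hx
  have := e x hx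
  simp only [W_smul, Pi.sub_apply, Pi.mul_apply, Pi.add_apply] at this ⊢
  linear_combination this

theorem near (h : O.H.B0 (pr O.A) (f' - f)) (h0 : O.F.Ev fun r x => f r x ≠ 0)
    (h1 : O.F.B0 1 f⁻¹) : (O.F.Ev fun r x => f' r x ≠ 0 ∧ (0 < f r x → 0 < f' r x)) ∧
      O.H.B0 1 f'⁻¹ := by
  have h1' : O.H.B0 1 f⁻¹ := by
    obtain ⟨n, hn⟩ := h1
    refine ⟨n, ?_⟩
    filter_upwards [hn, O.F.ok, O.ok] with r hn o o' x hx
    refine (hn x hx).trans (mul_le_mul_of_nonneg_right (pow_le_pow_left₀ (by linarith [o.2.2.1])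
      (le_mul_of_one_le_left (by linarith [o.2.2.1]) o'.2.1) _) zero_le_one)
  obtain ⟨n, hn⟩ := h.mul h1'
  have key : O.F.Ev fun r x => ∃ t, |t| ≤ 1 / 2 ∧ f' r x = f r x * (1 + t) := by
    filter_upwards [hn, h0, tiny (O := O) n] with r hn h0 ht x hx
    have := hn x (by rw [show O.H.V = O.F.U from O.hV]; exact hx)
    refine ⟨(f' r x - f r x) * (f r x)⁻¹, this.trans (by simpa [pr, H] using ht), ?_⟩
    field_simp [h0 x hx]; ring
  refine ⟨?_, ?_⟩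
  · filter_upwards [key, h0] with r key h0 x hx
    obtain ⟨t, ht, e⟩ := key x hx
    have := abs_le.1 ht
    rw [e]
    exact ⟨mul_ne_zero (h0 x hx) (by linarith), fun p => mul_pos p (by linarith)⟩
  · obtain ⟨m, hm⟩ := (Fr.b0_cst (F := O.H) 2).mul h1'
    refine ⟨m, ?_⟩
    filter_upwards [key, hm, O.F.ok] with r key hm o x hx
    obtain ⟨t, ht, e⟩ := key x (o.2.1 hx)
    have := abs_le.1 ht
    refine le_trans ?_ ((hm x hx).trans_eq (by simp))
    simp only [Pi.inv_apply, Pi.mul_apply, cst, e, mul_inv, abs_mul]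
    rw [mul_comm]
    refine mul_le_mul_of_nonneg_right ?_ (abs_nonneg _)
    rw [abs_of_pos (inv_pos.2 (by linarith)), abs_two, inv_le_comm₀ (by linarith) two_pos]
    linarith

theorem inv_sub {u v : Fn P E} (h : O.H.T k (pr O.A) (u - v)) (hu : O.H.T k 1 u⁻¹)
    (hv : O.H.T k 1 v⁻¹) (h0 : O.F.Ev fun r x => u r x ≠ 0) (h1 : O.F.Ev fun r x => v r x ≠ 0) :
    O.H.T k (pr O.A) (u⁻¹ - v⁻¹) := by
  refine (h.mulr (hu.mul1 hv)).neg.congr ?_
  filter_upwards [h0, h1] with r h0 h1 x hx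
  simp only [Pi.neg_apply, Pi.mul_apply, Pi.sub_apply, Pi.inv_apply]
  field_simp [h0 x hx, h1 x hx]; ring

theorem Rel.inv (h : O.Rel k n f f' f'' σ) (h0 : O.F.Ev fun r x => f r x ≠ 0)
    (h1 : O.F.B0 1 f⁻¹) : O.Rel k n f⁻¹ f'⁻¹ f''⁻¹ ((-(f⁻¹ * f⁻¹)) • σ) := by
  have n1 := near h.d.b0 h0 h1
  have n2 := near h.d3.b0 h0 h1
  have z1 : O.F.Ev fun r x => f' r x ≠ 0 := Eventually.mono n1.1 fun _ h x hx => (h x hx).1
  have z2 : O.F.Ev fun r x => f'' r x ≠ 0 := Eventually.mono n2.1 fun _ h x hx => (h x hx).1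
  have i0 := h.t.inv h0 h1
  have i1 := Fr.T.inv (F := O.H) z1 n1.2 h.t1
  have i2 := Fr.T.inv (F := O.H) z2 n2.2 h.t2
  have a1 := inv_sub h.d i1 (toH i0) z1 h0
  have a2 := inv_sub h.d3 i2 (toH i0) z2 h0
  refine h.fn (w := -(f'⁻¹ * f''⁻¹)) i0 a1 (i0.mul1 i0).neg
    (((a1.mulr i2).add ((toH i0).mul1 a2)).neg.cast (by ring)) ?_
  filter_upwards [z1, z2] with r h0 h1 x hx
  simp only [Pi.neg_apply, Pi.mul_apply, Pi.sub_apply, Pi.inv_apply]
  field_simp [h0 x hx, h1 x hx]; ring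

theorem rt_inv {F : Fr P E} {u v : Fn P E} (hu : F.T k 1 u) (hv : F.T k 1 v)
    (pu : F.Ev fun r x => 0 < u r x) (pv : F.Ev fun r x => 0 < v r x) (iu : F.B0 1 u⁻¹)
    (iv : F.B0 1 v⁻¹) : (F.Ev fun r x => (Fr.rt u + Fr.rt v) r x ≠ 0) ∧
      F.T k 1 (Fr.rt u + Fr.rt v)⁻¹ := by
  have z : F.Ev fun r x => (Fr.rt u + Fr.rt v) r x ≠ 0 := by
    filter_upwards [pu] with r pu x hx
    have := Real.sqrt_pos.2 (pu x hx)
    simp only [Pi.add_apply, Fr.rt]; positivity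
  refine ⟨z, ((hu.rt pu iu).add (hv.rt pv iv)).inv z ?_⟩
  obtain ⟨m, hm⟩ := (hu.rt pu iu).b0.mul iu
  refine ⟨m, ?_⟩
  filter_upwards [hm, pu, F.ok] with r hm pu o x hx
  refine le_trans ?_ ((hm x hx).trans_eq (by simp))
  have p := pu x (o.2.1 hx)
  have q := Real.sqrt_pos.2 p
  have q2 := Real.mul_self_sqrt p.le
  have q3 := Real.sqrt_nonneg (v r x)
  simp only [Pi.inv_apply, Pi.mul_apply, Pi.add_apply, Fr.rt]
  generalize √(u r x) = t at q q2
  rw [← q2, abs_of_pos (by positivity), abs_of_pos (by positivity), mul_inv, ← mul_assoc,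
    mul_inv_cancel₀ q.ne', one_mul]
  exact inv_anti₀ q (by linarith)

theorem Rel.rt (h : O.Rel k n f f' f'' σ) (h0 : O.F.Ev fun r x => 0 < f r x)
    (h1 : O.F.B0 1 f⁻¹) :
    O.Rel k n (Fr.rt f) (Fr.rt f') (Fr.rt f'') ((Fr.rt f + Fr.rt f)⁻¹ • σ) := by
  have h0' : O.F.Ev fun r x => f r x ≠ 0 := Eventually.mono h0 fun _ h x hx => (h x hx).ne'
  have n1 := near h.d.b0 h0' h1
  have n2 := near h.d3.b0 h0' h1
  have z1 : O.F.Ev fun r x => 0 < f' r x := by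
    filter_upwards [n1.1, h0] with r a b x hx using (a x hx).2 (b x hx)
  have z2 : O.F.Ev fun r x => 0 < f'' r x := by
    filter_upwards [n2.1, h0] with r a b x hx using (a x hx).2 (b x hx)
  have i0 := (toH (h.t.inv h0' h1)).b0
  have r0 := rt_inv h.t h.t h0 h0 h1 h1
  have key : ∀ {u v : Fn P E}, (O.F.Ev fun r x => 0 < u r x) → (O.F.Ev fun r x => 0 < v r x) →
      O.F.Eq ((u - v) * (Fr.rt u + Fr.rt v)⁻¹) (Fr.rt u - Fr.rt v) := fun {u v} pu pv => by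
    filter_upwards [pu, pv] with r pu pv x hx
    have q := Real.sqrt_pos.2 (pu x hx)
    have q' := Real.sqrt_pos.2 (pv x hx)
    have a := Real.mul_self_sqrt (pu x hx).le
    have b := Real.mul_self_sqrt (pv x hx).le
    simp only [Pi.inv_apply, Pi.mul_apply, Pi.add_apply, Pi.sub_apply, Fr.rt]
    rw [mul_inv_eq_iff_eq_mul₀ (by positivity)]
    linear_combination b - a
  have a1 := (h.d.mulr (rt_inv h.t1 (toH h.t) z1 h0 n1.2 i0).2).congr (key z1 h0)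
  have a2 := (h.d3.mulr (rt_inv h.t2 (toH h.t) z2 h0 n2.2 i0).2).congr (key z2 h0)
  have r2 := rt_inv h.t2 h.t1 z2 z1 n2.2 n1.2
  exact h.fn (h.t.rt h0 h1) a1 r0.2
    (inv_sub ((a2.add a1).cast (by ring)) r2.2 (toH r0.2) r2.1 r0.1) (key z2 z1)

end Vale.Agent.P354XP.Os
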