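import Vale.Agent.P354XP.RF
import Vale.Agent.P354XC.Defs

/-!
The principal symbols of the constraints.
-/

open scoped ContDiff
open Set Filter Topology Matrix

noncomputable section

namespace Vale.Agent.P354XP

open Vale.Agent.P354I (X Dat ee pd)
open Vale.Agent.P354XC (Ham Mom)

abbrev N3 : Type := Matrix (Fin 3) (Fin 3) ℝ

/-- The symbols of the Hamiltonian and of the momentum constraint; g is the inverse metric. -/
def sH (g : N3) (ξ : Fin 3 → ℝ) (B : N3) : ℝ :=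
  (ξ ⬝ᵥ g *ᵥ ξ) * (g * B).trace - (g *ᵥ ξ) ⬝ᵥ B *ᵥ (g *ᵥ ξ)
def sM (g : N3) (ξ : Fin 3 → ℝ) (π : N3) (j : Fin 3) : ℝ :=
  (π *ᵥ (g *ᵥ ξ)) j - ξ j * (g * π).trace

theorem sH_eq {g B : N3} (hg : ∀ i j, g i j = g j i) (hB : ∀ i j, B i j = B j i)
    (ξ : Fin 3 → ℝ) : ∑ i, ∑ j, g i j * ∑ k,
      (-(ξ k * ∑ l, g k l * (1 / 2 * (ξ i * B j l + ξ j * B i l - ξ l * B i j))) +
        ξ j * ∑ l, g k l * (1 / 2 * (ξ k * B i l + ξ i * B k l - ξ l * B k i))) = sH g ξ B := by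
  simp only [sH, Fin.sum_univ_three, dotProduct, mulVec, trace, diag, mul_apply, hg 1 0, hg 2 0,
    hg 2 1, hB 1 0, hB 2 0, hB 2 1]
  ring

theorem sM_eq {g π : N3} (hg : ∀ i j, g i j = g j i) (hπ : ∀ i j, π i j = π j i)
    (ξ : Fin 3 → ℝ) (j : Fin 3) :
    ∑ i, ∑ k, g i k * (ξ i * π k j) - ξ j * ∑ i, ∑ k, g i k * π i k = sM g ξ π j := by
  simp only [sM, Fin.sum_univ_three, dotProduct, mulVec, trace, diag, mul_apply, hg 1 0, hg 2 0,
    hg 2 1, hπ 1 0, hπ 2 0, hπ 2 1, hπ j]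
  ring

variable {P : Type}

/-- The two parts of a matrix of amplitudes. -/
def m1 {E : Type} (B : Fin 3 → Fin 3 → Pr P E) (r : P) (x : E) : N3 := of fun i j => (B i j r x).1
def m2 {E : Type} (B : Fin 3 → Fin 3 → Pr P E) (r : P) (x : E) : N3 := of fun i j => (B i j r x).2

/-- The covector of the phase. -/
def Os.xi {E : Type} [NormedAddCommGroup E] [NormedSpace ℝ E] (O : Os P E) (r : P) (x : E) :
    Fin 3 → ℝ := fun i => O.ξ i r x

/-- The relation for the data. -/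
structure RD (t : Tri P X Dat) (k : ℕ) (n : ℤ) (B π : Fin 3 → Fin 3 → Pr P X) : Prop where
  he : t.O.F.e = ee
  h : ∀ i j, t.R (k + 2) n (fun d x => d.h x i j) (B i j)
  K : ∀ i j, t.R (k + 1) (n + 1) (fun d x => d.K x i j) (π i j)
  nz : t.Nz fun d x => (d.h x).det
  sy : t.O.F.Ev fun r x => ((t.d r).h x).IsSymm
  sB : ∀ i j, B i j = B j i
  sπ : ∀ i j, π i j = π j i

variable {t : Tri P X Dat} {k : ℕ} {n : ℤ} {B π : Fin 3 → Fin 3 → Pr P X}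

theorem pdX (he : t.O.F.e = ee) {Φ : Dat → X → ℝ} {σ : Pr P X} (h : t.R (k + 1) n Φ σ)
    (i : Fin 3) : t.R k (n + 1) (fun a => pd i (Φ a)) (t.O.ξ i • Jr σ) :=
  (h.pd i).cast fun a x => by rw [he]; rfl

namespace RD

variable (D : RD t k n B π)
include D

theorem g (i j : Fin 3) : t.L (k + 2) n fun d x => (d.h x)⁻¹ i j :=
  Tri.l_inv (fun i j => (D.h i j).l) D.nz i j

theorem gs : t.O.F.Ev fun r x => ∀ i j, ((t.d r).h x)⁻¹ i j = ((t.d r).h x)⁻¹ j i :=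
  Eventually.mono D.sy fun _ h x hx i j => (h x hx).inv.apply j i

theorem chr (a i j : Fin 3) : t.R (k + 1) (n + 1) (fun d => d.chr a i j) fun r x =>
    ∑ l, ((t.d r).h x)⁻¹ a l • ((1 / 2 : ℝ) • (t.O.ξ i • Jr (B j l) + t.O.ξ j • Jr (B i l) -
      t.O.ξ l • Jr (B i j)) r x) :=
  (Tri.R.sum fun l => (((D.g a l).low (by omega)).up).mul0 ((((pdX D.he (D.h j l) i).add
    (pdX D.he (D.h i l) j)).sub (pdX D.he (D.h i j) l)).cmul (1 / 2))).cast fun d x =>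
      Finset.sum_congr rfl fun l _ => by ring

theorem trK : t.R (k + 1) (n + 1) (fun d => d.trK) fun r x =>
    ∑ i, ∑ j, ((t.d r).h x)⁻¹ i j • π i j r x :=
  Tri.R.sum fun i => Tri.R.sum fun j => (((D.g i j).low (by omega)).up).mul0 (D.K i j)

theorem ham : t.R k (n + 1 + 1) Ham fun r x =>
    (sH ((t.d r).h x)⁻¹ (t.O.xi r x) (m1 B r x), sH ((t.d r).h x)⁻¹ (t.O.xi r x) (m2 B r x)) := by
  have g := fun i j => (D.g i j).low (k.le_add_right 2)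
  have c := fun a i j => (D.chr a i j).l.low k.le_succ
  have K := fun i j => (D.K i j).l.low k.le_succ
  have T := D.trK.l.low k.le_succ
  have h1 := Tri.R.sum fun i => Tri.R.sum fun j => (g i j).up2.mul0 (Tri.R.sum fun a =>
    ((pdX D.he (D.chr a i j) a).sub (pdX D.he (D.chr a a i) j)).add (Tri.L.sum fun l =>
      ((c a a l).mul (c l i j)).sub ((c a j l).mul (c l a i))).up)
  have h2 := Tri.L.sum fun i => Tri.L.sum fun j => Tri.L.sum fun a => Tri.L.sum fun l =>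
    ((((g i a).mul (g j l)).up.l.mul (K i j)).mul (K a l))
  refine (((h1.add (T.mul T).up).sub h2.up).cast fun d x => ?_).sy ?_
  · simp only [Ham, Dat.scal, Dat.ric, Dat.sqK, sq]
  · filter_upwards [D.gs] with r gs x hx
    rw [← sH_eq (B := m1 B r x) (gs x hx) fun i j => by simp [m1, D.sB i j],
      ← sH_eq (B := m2 B r x) (gs x hx) fun i j => by simp [m2, D.sB i j]]
    refine Prod.ext ?_ ?_ <;>
      simp only [Pi.add_apply, Pi.sub_apply, Pi.zero_apply, add_zero, sub_zero, Prod.fst_sum,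
        Prod.snd_sum, Prod.smul_fst, Prod.smul_snd, smul_eq_mul] <;>
      refine Finset.sum_congr rfl fun i _ => Finset.sum_congr rfl fun j _ =>
        congrArg _ (Finset.sum_congr rfl fun a _ => ?_) <;>
      simp [Jr, m1, m2, Os.xi, Fin.sum_univ_three] <;> ring

theorem mom (j : Fin 3) : t.R k (n + 1 + 1) (fun d => Mom d j) fun r x =>
    (sM ((t.d r).h x)⁻¹ (t.O.xi r x) (m2 π r x) j,
      -sM ((t.d r).h x)⁻¹ (t.O.xi r x) (m1 π r x) j) := by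
  have g := fun i j => (D.g i j).low (k.le_add_right 2)
  have c := fun a i j => (D.chr a i j).l.low k.le_succ
  have K := fun i j => (D.K i j).l.low k.le_succ
  have h1 := Tri.R.sum fun i => Tri.R.sum fun a => (g i a).up2.mul0
    ((pdX D.he (D.K a j) i).sub (Tri.L.sum fun l =>
      ((c l i a).mul (K l j)).add ((c l i j).mul (K a l))).up)
  refine ((h1.sub (pdX D.he D.trK j)).cast fun d x => ?_).sy ?_
  · simp only [Mom, Dat.divK]
  · filter_upwards [D.gs] with r gs x hx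
    rw [← sM_eq (π := m1 π r x) (gs x hx) fun i j => by simp [m1, D.sπ i j],
      ← sM_eq (π := m2 π r x) (gs x hx) fun i j => by simp [m2, D.sπ i j]]
    ext <;> simp [Jr, m1, m2, Os.xi, Fin.sum_univ_three] <;> ring

end RD

/-! ### The right inverses of the symbols -/

theorem sH_inv {h : N3} (hd : h.det ≠ 0) {ξ : Fin 3 → ℝ}
    (hN : ξ ⬝ᵥ h⁻¹ *ᵥ ξ ≠ 0) (f : ℝ) :
    sH h⁻¹ ξ ((1 / 2 * (ξ ⬝ᵥ h⁻¹ *ᵥ ξ)⁻¹ * f) • h) = f := by
  have e1 : h⁻¹ * h = 1 := nonsing_inv_mul h hd.isUnit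
  have e2 : h *ᵥ (h⁻¹ *ᵥ ξ) = ξ := by rw [mulVec_mulVec, mul_nonsing_inv h hd.isUnit, one_mulVec]
  simp only [sH, Matrix.mul_smul, e1, trace_smul, trace_one, smul_mulVec, e2, dotProduct_smul,
    smul_eq_mul, dotProduct_comm (h⁻¹ *ᵥ ξ) ξ, Fintype.card_fin]
  generalize ξ ⬝ᵥ h⁻¹ *ᵥ ξ = N at hN
  field_simp; push_cast; ring

/-- The right inverse of the symbol of the momentum constraint. -/
def iM (h : N3) (ξ m : Fin 3 → ℝ) : N3 := of fun i j =>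
  (ξ ⬝ᵥ h⁻¹ *ᵥ ξ)⁻¹ * (ξ i * m j + ξ j * m i - 1 / 2 * h i j * (m ⬝ᵥ h⁻¹ *ᵥ ξ))

theorem sM_inv {h : N3} (hs : h.IsSymm) (hd : h.det ≠ 0) {ξ : Fin 3 → ℝ}
    (hN : ξ ⬝ᵥ h⁻¹ *ᵥ ξ ≠ 0) (m : Fin 3 → ℝ) (j : Fin 3) : sM h⁻¹ ξ (iM h ξ m) j = m j := by
  have e1 : h⁻¹ * h = 1 := nonsing_inv_mul h hd.isUnit
  have e2 : h *ᵥ (h⁻¹ *ᵥ ξ) = ξ := by rw [mulVec_mulVec, mul_nonsing_inv h hd.isUnit, one_mulVec]
  have e3 : iM h ξ m = (ξ ⬝ᵥ h⁻¹ *ᵥ ξ)⁻¹ • (vecMulVec ξ m + vecMulVec m ξ -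
      (1 / 2 * (m ⬝ᵥ h⁻¹ *ᵥ ξ)) • h) := by
    ext i j; simp [iM, vecMulVec_apply]; left; ring
  have e4 : ∀ u v : Fin 3 → ℝ, (h⁻¹ * vecMulVec u v).trace = v ⬝ᵥ h⁻¹ *ᵥ u := fun u v => by
    rw [Matrix.mul_vecMulVec, trace_vecMulVec, dotProduct_comm]
  have e5 : ξ ⬝ᵥ h⁻¹ *ᵥ m = m ⬝ᵥ h⁻¹ *ᵥ ξ := by
    rw [dotProduct_mulVec, ← mulVec_transpose, hs.inv.eq, dotProduct_comm]
  have e6 : ∀ u v w : Fin 3 → ℝ, (vecMulVec u v *ᵥ w) j = u j * (v ⬝ᵥ w) := fun u v w => by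
    simp [mulVec, dotProduct, vecMulVec_apply, Finset.mul_sum, mul_assoc]
  simp only [sM, e3, smul_mulVec, sub_mulVec, add_mulVec, e2, Matrix.mul_smul, Matrix.mul_sub,
    Matrix.mul_add, trace_smul, trace_sub, trace_add, e1, e4, e5, trace_one, Pi.smul_apply,
    Pi.sub_apply, Pi.add_apply, e6, smul_eq_mul, Fintype.card_fin]
  generalize ξ ⬝ᵥ h⁻¹ *ᵥ ξ = N at hN
  field_simp; push_cast; ring

end Vale.Agent.P354XP
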