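import Vale.Agent.P354XP.Cal

/-!
Change of the frame, gluing, the chain rule, and the norms of the iterated derivatives.
-/

open scoped ContDiff
open Set Filter Topology

noncomputable section

namespace Vale.Agent.P354XP.Fr

variable {P P' E E' : Type} [NormedAddCommGroup E] [NormedSpace ℝ E] [NormedAddCommGroup E']
  [NormedSpace ℝ E']

/-- The comparison of two sizes on the part W. -/
def Cmp (F : Fr P E) (F' : Fr P' E) (π : P' → P) (W : P' → Set E) (s : Fn P E) (s' : Fn P' E) :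
    Prop :=
  ∀ n : ℕ, ∃ m : ℕ, ∀ᶠ r in F'.l, ∀ x ∈ F'.V r, 0 ≤ s' r x ∧
    (x ∈ W r → F.G (π r) ^ n * s (π r) x ≤ F'.G r ^ m * s' r x)

/-- The function g is f near the points of W and zero near the other points. -/
def Loc (F : Fr P E) (F' : Fr P' E) (π : P' → P) (W : P' → Set E) (f : Fn P E) (g : Fn P' E) :
    Prop :=
  ∀ᶠ r in F'.l, ∀ x ∈ F'.V r, (x ∈ W r → x ∈ F.V (π r) ∧ g r =ᶠ[𝓝 x] f (π r)) ∧
    (x ∉ W r → g r =ᶠ[𝓝 x] fun _ => 0)

/-- The transfer of bounds. -/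
theorem B.tr {F : Fr P E} {F' : Fr P' E} {π : P' → P} {W : P' → Set E}
    (hπ : Tendsto π F'.l F.l) (he : F'.e = F.e)
    (hc : ∀ i, ∃ a : ℕ, ∀ᶠ r in F'.l, ∀ x ∈ F'.V r, x ∈ W r →
      F.c i (π r) x ≤ F.G (π r) ^ a * F'.G r ^ a * F'.c i r x) :
    ∀ {k : ℕ} {s f : Fn P E} {s' g : Fn P' E}, F.B k s f → Cmp F F' π W s s' →
      Loc F F' π W f g → F'.B k s' g := by
  have h0 : ∀ {s f : Fn P E} {s' g : Fn P' E}, F.B0 s f → Cmp F F' π W s s' →
      Loc F F' π W f g → F'.B0 s' g := by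
    rintro s f s' g ⟨n, h⟩ hs hl
    obtain ⟨m, hm⟩ := hs n
    refine ⟨m, ?_⟩
    filter_upwards [hπ.eventually h, hm, hl, F'.ok] with r h hm hl o x hx
    by_cases hw : x ∈ W r
    · rw [((hl x hx).1 hw).2.eq_of_nhds]
      exact (h x ((hl x hx).1 hw).1).trans ((hm x hx).2 hw)
    · rw [((hl x hx).2 hw).eq_of_nhds, abs_zero]
      exact mul_nonneg (pow_nonneg (by linarith [o.2.2.1]) _) (hm x hx).1
  intro k
  induction k with
  | zero => exact h0
  | succ k ih =>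
    intro s f s' g h hs hl
    refine ⟨h0 h.1 hs hl, fun i => ih (h.2 i) (fun n => ?_) ?_⟩
    · obtain ⟨a, ha⟩ := hc i
      obtain ⟨m, hm⟩ := hs (n + a)
      refine ⟨m + a, ?_⟩
      filter_upwards [hπ.eventually h.1.nn, hπ.eventually F.ok, hm, ha, hl, F'.ok]
        with r hn o hm ha hl o' x hx
      have c0 := o'.2.2.2 i x hx
      refine ⟨mul_nonneg (hm x hx).1 c0, fun hw => ?_⟩
      have g0 : 0 ≤ F.G (π r) := by linarith [o.2.2.1]
      have g1 : 0 ≤ F'.G r := by linarith [o'.2.2.1]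
      have s0 := hn x ((hl x hx).1 hw).1
      calc F.G (π r) ^ n * (s * F.c i) (π r) x = F.G (π r) ^ n * s (π r) x * F.c i (π r) x := by
            simp only [Pi.mul_apply]; ring
        _ ≤ F.G (π r) ^ n * s (π r) x * (F.G (π r) ^ a * F'.G r ^ a * F'.c i r x) :=
            mul_le_mul_of_nonneg_left (ha x hx hw) (by positivity)
        _ = F.G (π r) ^ (n + a) * s (π r) x * (F'.G r ^ a * F'.c i r x) := by ring
        _ ≤ F'.G r ^ m * s' r x * (F'.G r ^ a * F'.c i r x) :=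
            mul_le_mul_of_nonneg_right ((hm x hx).2 hw) (by positivity)
        _ = _ := by simp only [Pi.mul_apply]; ring
    · filter_upwards [hl] with r hl x hx
      refine ⟨fun hw => ⟨((hl x hx).1 hw).1, ?_⟩, fun hw => ?_⟩
      · filter_upwards [((hl x hx).1 hw).2.fderiv (𝕜 := ℝ)] with y hy
        simp only [D, hy, he]
      · filter_upwards [((hl x hx).2 hw).fderiv (𝕜 := ℝ)] with y hy
        simp [D, hy]

/-- The same family in a frame with smaller sets, a larger base and larger costs. -/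
theorem T.sub_fr {F : Fr P E} {F' : Fr P' E} {π : P' → P} (hπ : Tendsto π F'.l F.l)
    (he : F'.e = F.e) (a : ℕ) (h : ∀ᶠ r in F'.l, F'.U r ⊆ F.U (π r) ∧ F'.V r ⊆ F.V (π r) ∧
      F.G (π r) ≤ F'.G r ^ a ∧ ∀ i, ∀ x ∈ F'.V r, F.c i (π r) x ≤ F'.G r ^ a * F'.c i r x)
    {k : ℕ} {s f : Fn P E} (hf : F.T k s f) : F'.T k (s ∘ π) (f ∘ π) := by
  refine ⟨?_, hf.b.tr (W := fun _ => univ) hπ he (fun i => ⟨a, ?_⟩) (fun n => ⟨a * n, ?_⟩) ?_⟩
  · filter_upwards [hπ.eventually hf.sm, h] with r hf h using hf.mono h.1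
  · filter_upwards [h, hπ.eventually F.ok, F'.ok] with r h o o' x hx _
    refine (h.2.2.2 i x hx).trans (mul_le_mul_of_nonneg_right (le_mul_of_one_le_left
      (pow_nonneg (by linarith [o'.2.2.1]) _) (one_le_pow₀ (by linarith [o.2.2.1])))
      (o'.2.2.2 i x hx))
  · filter_upwards [h, hπ.eventually hf.b0.nn, hπ.eventually F.ok] with r h hn o x hx
    refine ⟨hn x (h.2.1 hx), fun _ => mul_le_mul_of_nonneg_right ?_ (hn x (h.2.1 hx))⟩
    rw [pow_mul]; exact pow_le_pow_left₀ (by linarith [o.2.2.1]) h.2.2.1 n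
  · filter_upwards [h] with r h x hx
    exact ⟨fun _ => ⟨h.2.1 hx, EventuallyEq.rfl⟩, fun hw => (hw trivial).elim⟩

/-- A map between two frames on the same parameters. -/
structure Mp (F' : Fr P E') (F : Fr P E) (τ : P → E' → E) (J : Fin 3 → Fin 3 → Fn P E') :
    Prop where
  le : F'.l ≤ F.l
  ev : ∃ a : ℕ, ∀ᶠ r in F'.l, ContDiffOn ℝ ∞ (τ r) (F'.U r) ∧ MapsTo (τ r) (F'.U r) (F.U r) ∧
    MapsTo (τ r) (F'.V r) (F.V r) ∧ F.G r ≤ F'.G r ^ a ∧
    ∀ x ∈ F'.U r, ∀ i, fderiv ℝ (τ r) x (F'.e i) = ∑ b, J i b r x • F.e b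

/-- The composition. -/
def cp (f : Fn P E) (τ : P → E' → E) : Fn P E' := fun r x => f r (τ r x)

variable {F : Fr P E} {F' : Fr P E'} {τ : P → E' → E} {J : Fin 3 → Fin 3 → Fn P E'}
  {s f : Fn P E}

theorem Mp.t0 (m : Mp F' F τ J) (h : F.T 0 s f) : F'.T 0 (cp s τ) (cp f τ) := by
  obtain ⟨a, ha⟩ := m.ev
  refine ⟨?_, ?_⟩
  · filter_upwards [m.le h.sm, ha] with r h ha using ContDiffOn.comp h ha.1 ha.2.1
  · obtain ⟨n, hn⟩ := h.b
    refine ⟨a * n, ?_⟩
    filter_upwards [m.le hn, m.le h.b0.nn, m.le F.ok, ha] with r hn h0 o ha x hx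
    have hx' := ha.2.2.1 hx
    refine (hn _ hx').trans (mul_le_mul_of_nonneg_right ?_ (h0 _ hx'))
    rw [pow_mul]; exact pow_le_pow_left₀ (by linarith [o.2.2.1]) ha.2.2.2.1 n

theorem Mp.d (m : Mp F' F τ J) (h : F.Sm f) (i : Fin 3) :
    F'.Eq (∑ b, cp (D F.e b f) τ * J i b) (D F'.e i (cp f τ)) := by
  obtain ⟨a, ha⟩ := m.ev
  filter_upwards [m.le h.da, ha, F'.ok] with r h ha o x hx
  have d := (ha.1.contDiffAt (o.1.mem_nhds hx)).differentiableAt (by simp)
  have e : cp f τ r = f r ∘ τ r := rfl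
  simp only [D, e, fderiv_comp x (h _ (ha.2.1 hx)) d, ContinuousLinearMap.comp_apply,
    ha.2.2.2.2 x hx i, map_sum, map_smul, smul_eq_mul, Finset.sum_apply, Pi.mul_apply, cp]
  exact Finset.sum_congr rfl fun b _ => mul_comm _ _

/-- The chain rule, when the Jacobian is controlled in the source. -/
theorem Mp.comp (m : Mp F' F τ J) {K : ℕ} {t : Fin 3 → Fin 3 → Fn P E'}
    (hJ : ∀ i b, F'.T K (t i b) (J i b))
    (hc : ∀ i b, F'.B0 (F'.c i) (cp (F.c b) τ * t i b)) :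
    ∀ {k : ℕ} {s f : Fn P E}, k ≤ K + 1 → F.T k s f → F'.T k (cp s τ) (cp f τ)
  | 0, _, _, _, h => m.t0 h
  | k + 1, s, f, hk, h => by
    have h0 := m.t0 (h.low k.succ.zero_le)
    refine T.succ h0 fun i => (T.sum fun b => ?_).congr (m.d h.sm i)
    refine ((m.comp hJ hc (by omega) (h.d b)).mul ((hJ i b).low (by omega))).mono ?_
    have e : cp (s * F.c b) τ * t i b = cp s τ * (cp (F.c b) τ * t i b) := by
      funext r x; simp only [cp, Pi.mul_apply]; ring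
    rw [e]; exact h0.b0.self.mul (hc i b)

/-- The chain rule, when the Jacobian is controlled in the target. -/
theorem Mp.comp' {M t : Fin 3 → Fin 3 → Fn P E} (m : Mp F' F τ fun i b => cp (M i b) τ) {K : ℕ}
    (hM : ∀ i b, F.T K (t i b) (M i b))
    (hc : ∀ i b, F'.B0 (F'.c i) (cp (F.c b * t i b) τ)) :
    ∀ {k : ℕ} {s f : Fn P E}, k ≤ K + 1 → F.T k s f → F'.T k (cp s τ) (cp f τ)
  | 0, _, _, _, h => m.t0 h
  | k + 1, s, f, hk, h => by
    have h0 := m.t0 (h.low k.succ.zero_le)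
    refine T.succ h0 fun i => (T.sum fun b => ?_).congr (m.d h.sm i)
    refine (m.comp' hM hc (by omega) ((h.d b).mul ((hM i b).low (by omega)))).mono ?_
    have e : cp (s * F.c b * t i b) τ = cp s τ * cp (F.c b * t i b) τ := by
      funext r x; simp only [cp, Pi.mul_apply]; ring
    rw [e]; exact h0.b0.self.mul (hc i b)

/-! ### The norms of the iterated derivatives -/

theorem ifd_d {f : E → ℝ} {x : E} (h : ContDiffAt ℝ ∞ f x) (v : E) (j : ℕ) :
    ‖iteratedFDeriv ℝ j (fun y => fderiv ℝ f y v) x‖ ≤ ‖v‖ * ‖iteratedFDeriv ℝ (j + 1) f x‖ := by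
  have h1 : ContDiffAt ℝ j (fderiv ℝ f) x := h.fderiv_right (by exact_mod_cast le_top)
  have e := (ContinuousLinearMap.apply ℝ ℝ v).iteratedFDeriv_comp_left h1 le_rfl
  have e' : (fun y => fderiv ℝ f y v) = ContinuousLinearMap.apply ℝ ℝ v ∘ fderiv ℝ f := rfl
  rw [e', e, ← norm_iteratedFDeriv_fderiv]
  refine (ContinuousLinearMap.norm_compContinuousMultilinearMap_le _ _).trans ?_
  refine mul_le_mul_of_nonneg_right (ContinuousLinearMap.opNorm_le_bound _ (norm_nonneg _)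
    fun L => ?_) (norm_nonneg _)
  rw [mul_comm]; exact L.le_opNorm v

/-- Bounds from the norms of the iterated derivatives. -/
theorem T.of_ifd {c : Fn P E} (he : ∀ i, ‖F.e i‖ ≤ 1) (hc : ∀ i, F.c i = c) :
    ∀ {k : ℕ} {s f : Fn P E}, F.Sm f → (∀ j ≤ k, F.B0 (s * c ^ j)
      fun r x => ‖iteratedFDeriv ℝ j (f r) x‖) → F.T k s f
  | 0, s, f, h, hb => ⟨h, by
      obtain ⟨n, hn⟩ := hb 0 le_rfl
      exact ⟨n, by simpa using hn⟩⟩
  | k + 1, s, f, h, hb => by
    refine T.succ (T.of_ifd he hc h fun j hj => hb j (by omega)) fun i =>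
      T.of_ifd he hc (h.d i) fun j hj => ?_
    obtain ⟨n, hn⟩ := hb (j + 1) (by omega)
    refine ⟨n, ?_⟩
    filter_upwards [hn, h, F.ok] with r hn h o x hx
    have := hn x hx
    rw [abs_norm] at this ⊢
    refine (ifd_d (h.contDiffAt (o.1.mem_nhds (o.2.1 hx))) _ j).trans
      ((mul_le_of_le_one_left (norm_nonneg _) (he i)).trans (this.trans_eq ?_))
    simp only [hc, Pi.mul_apply, Pi.pow_apply]; ring

theorem ifd_succ {f : E → ℝ} {x : E} (h : ContDiffAt ℝ ∞ f x) {e : Fin 3 → E}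
    {p : Fin 3 → E →L[ℝ] ℝ} (hp : ∀ v, v = ∑ i, p i v • e i) (h1 : ∀ i, ‖p i‖ ≤ 1) (j : ℕ) :
    ‖iteratedFDeriv ℝ (j + 1) f x‖ ≤
      ∑ i, ‖iteratedFDeriv ℝ j (fun y => fderiv ℝ f y (e i)) x‖ := by
  have h2 : ∀ i, ContDiffAt ℝ j (fun y => fderiv ℝ f y (e i)) x := fun i =>
    (h.fderiv_right (by exact_mod_cast le_top)).clm_apply contDiffAt_const
  let L : Fin 3 → ℝ →L[ℝ] E →L[ℝ] ℝ := fun i => (ContinuousLinearMap.id ℝ ℝ).smulRight (p i)
  have e1 : fderiv ℝ f = fun y => ∑ i, (L i ∘ fun y => fderiv ℝ f y (e i)) y := by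
    funext y; ext v
    conv_lhs => rw [hp v]
    simp [L, mul_comm]
  rw [← norm_iteratedFDeriv_fderiv]
  conv_lhs => rw [e1, iteratedFDeriv_fun_sum_apply fun i _ =>
    (L i).contDiff.contDiffAt.comp x (h2 i)]
  refine (norm_sum_le _ _).trans (Finset.sum_le_sum fun i _ => ?_)
  rw [(L i).iteratedFDeriv_comp_left (h2 i) le_rfl]
  refine (ContinuousLinearMap.norm_compContinuousMultilinearMap_le _ _).trans
    (mul_le_of_le_one_left (norm_nonneg _) ?_)
  refine ContinuousLinearMap.opNorm_le_bound _ zero_le_one fun a => ?_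
  simp only [L, ContinuousLinearMap.smulRight_apply, ContinuousLinearMap.id_apply, norm_smul]
  rw [one_mul]; exact mul_le_of_le_one_right (norm_nonneg _) (h1 i)

/-- The norms of the iterated derivatives from the bounds. -/
theorem T.ifd {c : Fn P E} {p : Fin 3 → E →L[ℝ] ℝ} (hp : ∀ v, v = ∑ i, p i v • F.e i)
    (h1 : ∀ i, ‖p i‖ ≤ 1) (hc : ∀ i, F.c i = c) :
    ∀ {j : ℕ} {s f : Fn P E}, F.T j s f →
      F.B0 (s * c ^ j) fun r x => ‖iteratedFDeriv ℝ j (f r) x‖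
  | 0, s, f, h => by
      obtain ⟨n, hn⟩ := h.b
      exact ⟨n, by simpa using hn⟩
  | j + 1, s, f, h => by
    have a := fun i => T.ifd hp h1 hc (h.d i)
    have e : ∀ i, s * F.c i * c ^ j = s * c ^ (j + 1) := fun i => by rw [hc]; ring
    simp only [e] at a
    obtain ⟨n, hn⟩ := ((a 0).add (a 1)).add (a 2)
    refine ⟨n, ?_⟩
    filter_upwards [hn, h.sm, F.ok] with r hn h o x hx
    rw [abs_norm]
    refine (ifd_succ (h.contDiffAt (o.1.mem_nhds (o.2.1 hx))) hp h1 j).trans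
      (le_trans ?_ ((le_abs_self _).trans (hn x hx)))
    simp only [Fin.sum_univ_three, Pi.add_apply, D]; exact le_rfl

end Vale.Agent.P354XP.Fr
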