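import Vale.Agent.P354XP.Lip

/-!
The wave in two charts: the window and its image in the chart of the cone.
-/

open scoped ContDiff
open Set Filter Topology Matrix

noncomputable section

namespace Vale.Agent.P354XP

open Vale.Agent.P354H (X3)
open Vale.Agent.P354I (X Dat ee pd)
open Vale.Agent.P354XC (Ham Mom)

theorem inv00 {g : N3} (hp : g.PosDef) : 0 < g⁻¹ 0 0 ∧ (g⁻¹ 0 0)⁻¹ ≤ g 0 0 := by
  have h1 : 0 < g⁻¹ 0 0 := hp.inv.diag_pos
  have h2 : 0 < g 0 0 := hp.diag_pos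
  have e := mul_nonsing_inv g hp.det_pos.ne'.isUnit
  have s : ∀ i j, g i j = g j i := fun i j => hp.isHermitian.apply j i ▸ by simp
  have q := hp.posSemidef.dotProduct_mulVec_nonneg fun i => g 0 0 * g⁻¹ i 0 - e0 i
  have e1 := congrFun (congrFun e 0) 0
  have e2 := congrFun (congrFun e 1) 0
  have e3 := congrFun (congrFun e 2) 0
  simp [mul_apply, Fin.sum_univ_three] at e1 e2 e3
  simp [dotProduct, mulVec, Fin.sum_univ_three, e0] at q
  rw [s 1 0] at e2 q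
  rw [s 2 0, s 2 1] at e3 q
  refine ⟨h1, ?_⟩
  rw [inv_le_iff_one_le_mul₀ h1]
  have : g 0 0 * (g 0 0 * g⁻¹ 0 0 - 1) = (g 0 0 * g⁻¹ 0 0 - 1) *
      (g 0 0 * (g 0 0 * g⁻¹ 0 0 - 1) + g 0 1 * (g 0 0 * g⁻¹ 1 0) + g 0 2 * (g 0 0 * g⁻¹ 2 0)) +
      g 0 0 * g⁻¹ 1 0 * (g 0 1 * (g 0 0 * g⁻¹ 0 0 - 1) + g 1 1 * (g 0 0 * g⁻¹ 1 0) +
        g 1 2 * (g 0 0 * g⁻¹ 2 0)) + g 0 0 * g⁻¹ 2 0 * (g 0 2 * (g 0 0 * g⁻¹ 0 0 - 1) +
        g 1 2 * (g 0 0 * g⁻¹ 1 0) + g 2 2 * (g 0 0 * g⁻¹ 2 0)) := by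
    linear_combination (-(g 0 0) * (g 0 0 * g⁻¹ 0 0 - 1) + g 0 0) * e1 -
      g 0 0 ^ 2 * g⁻¹ 1 0 * e2 - g 0 0 ^ 2 * g⁻¹ 2 0 * e3
  rw [← this] at q
  have := (mul_nonneg_iff_of_pos_left h2).1 q
  linarith

theorem alg2 {I J h : N3} (e : I * J = 1) (hp : h.PosDef) {ξ : Fin 3 → ℝ} (hξ : ∀ i, ξ i = J i 0) :
    (I * h * Iᵀ).PosDef ∧ (I * h * Iᵀ).det⁻¹ = J.det * J.det * h.det⁻¹ ∧
      ξ ⬝ᵥ h⁻¹ *ᵥ ξ = (I * h * Iᵀ)⁻¹ 0 0 ∧ ∀ γ : N3, I * (J * γ * Jᵀ) * Iᵀ = γ ∧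
        (((I * h * Iᵀ)⁻¹ * γ).trace = 0 → γ *ᵥ ((I * h * Iᵀ)⁻¹ *ᵥ e0) = 0 →
          sH h⁻¹ ξ (J * γ * Jᵀ) = 0 ∧ ∀ j, sM h⁻¹ ξ (J * γ * Jᵀ) j = 0) := by
  have e1 : I⁻¹ = J := inv_eq_right_inv e
  have e2 : (I * h * Iᵀ)⁻¹ = Jᵀ * h⁻¹ * J := by
    rw [Matrix.mul_inv_rev, Matrix.mul_inv_rev, ← transpose_nonsing_inv, e1, Matrix.mul_assoc]
  have e3 : I.det * J.det = 1 := by rw [← det_mul, e, det_one]
  have e4 : ξ = J *ᵥ e0 := by ext i; simp [hξ, mulVec, dotProduct, e0, Fin.sum_univ_three]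
  refine ⟨?_, ?_, ?_, fun γ => ⟨?_, fun h1 h2 => ?_⟩⟩
  · have := hp.mul_mul_conjTranspose_same (B := I) (Matrix.vecMul_injective_iff_isUnit.2
      ((Matrix.isUnit_iff_isUnit_det _).2 (left_ne_zero_of_mul_eq_one e3).isUnit))
    rwa [conjTranspose_eq_transpose_of_trivial] at this
  · rw [det_mul, det_mul, det_transpose, mul_inv, mul_inv, inv_eq_of_mul_eq_one_right e3]; ring
  · simp only [e2, mul_apply, dotProduct, mulVec, hξ, Fin.sum_univ_three, transpose_apply]; ring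
  · rw [← Matrix.mul_assoc, ← Matrix.mul_assoc, e, Matrix.one_mul, Matrix.mul_assoc,
      ← transpose_mul, e, transpose_one, Matrix.mul_one]
  · have a1 : (h⁻¹ * (J * γ * Jᵀ)).trace = 0 := by
      rw [← h1, e2, ← Matrix.mul_assoc, trace_mul_comm]
      simp only [Matrix.mul_assoc]
    have a2 : (J * γ * Jᵀ) *ᵥ (h⁻¹ *ᵥ ξ) = 0 := by
      rw [e2] at h2
      have := congrArg (J *ᵥ ·) h2
      simpa only [e4, mulVec_mulVec, Matrix.mul_assoc, mulVec_zero] using this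
    simp [sH, sM, a1, a2]

variable {P : Type}

/-- A matrix of functions. -/
def mt {E : Type} (J : Fin 3 → Fin 3 → Fn P E) (r : P) (x : E) : N3 := of fun i b => J i b r x

section
variable {E : Type} [NormedAddCommGroup E] [NormedSpace ℝ E] {k : ℕ}
  {J : Fin 3 → Fin 3 → Fn P E}

theorem cj_eq (J B : N3) (i j : Fin 3) : (J * B * Jᵀ) i j = ∑ b, ∑ a, J i a * B a b * J j b := by
  simp only [mul_apply, transpose_apply, Finset.sum_mul]

theorem Fr.T.cj {F : Fr P E} {s : Fn P E} {B : P → E → N3} (hJ : ∀ i b, F.T k 1 (J i b))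
    (hB : ∀ i j, F.T k s fun r x => B r x i j) (i j : Fin 3) :
    F.T k s fun r x => (mt J r x * B r x * (mt J r x)ᵀ) i j :=
  (Fr.T.fsum fun b => Fr.T.fsum fun a => ((hJ i a).mul1 (hB a b)).mulr (hJ j b)).cast (by
    funext r x; rw [cj_eq]; rfl)

theorem Fr.T.det {F : Fr P E} (h : ∀ i j, F.T k 1 (J i j)) : F.T k 1 fun r x => (mt J r x).det :=
  ((((((((h 0 0).mul1 (h 1 1)).mul1 (h 2 2)).sub (((h 0 0).mul1 (h 1 2)).mul1 (h 2 1))).sub
    (((h 0 1).mul1 (h 1 0)).mul1 (h 2 2))).add (((h 0 1).mul1 (h 1 2)).mul1 (h 2 0))).add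
    (((h 0 2).mul1 (h 1 0)).mul1 (h 2 1))).sub (((h 0 2).mul1 (h 1 1)).mul1 (h 2 0))).cast
    (by funext r x; rw [det_fin_three]; rfl)

theorem Os.Rel.cj {O : Os P E} {n : ℤ} {B B' : P → E → N3} {σ : MA P E}
    (hJ : ∀ i b, O.F.T k 1 (J i b)) (hB : ∀ i j, O.Rel k n (fun r x => B r x i j)
      (fun r x => B r x i j) (fun r x => B' r x i j) (σ i j)) (i j : Fin 3) :
    O.Rel k n (fun r x => (mt J r x * B r x * (mt J r x)ᵀ) i j)
      (fun r x => (mt J r x * B r x * (mt J r x)ᵀ) i j)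
      (fun r x => (mt J r x * B' r x * (mt J r x)ᵀ) i j) fun r x =>
        ((mt J r x * m1 σ r x * (mt J r x)ᵀ) i j, (mt J r x * m2 σ r x * (mt J r x)ᵀ) i j) := by
  have k0 := (hB 0 0).le
  refine (Os.Rel.sum fun b => Os.Rel.sum fun a => ((Os.rel_base k0 (hJ i a)).mul (hB a b)).mul
    (Os.rel_base k0 (hJ j b))).congr (.of_eq fun r x => ?_) (.of_eq fun r x => ?_)
      (.of_eq fun r x => ?_) (.of_forall fun r x _ => ?_)
  · simp [cj_eq, mt]
  · simp [cj_eq, mt]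
  · simp [cj_eq, mt]
  · ext <;> simp [cj_eq, mt, m1, m2, Fin.sum_univ_three] <;> ring

end

/-- Two charts. -/
structure Two (W : Os P X3) (U : Os P X) (θ : P → X → X3) (τ : P → X3 → X)
    (J : Fin 3 → Fin 3 → Fn P X) (I : Fin 3 → Fin 3 → Fn P X3) : Prop where
  eW : W.F.e = P354H.e
  eU : U.F.e = ee
  hl : U.F.l = W.F.l
  lam : W.lam = U.lam
  A : W.A = U.A
  K : U.K = W.K
  φW : W.φ = fun _ x => x.1
  φU : U.φ = fun r x => (θ r x).1
  hU : ∀ r, U.F.U r = τ r '' W.F.U r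
  hC : ∀ r, U.C r = τ r '' W.C r
  ev : ∀ᶠ r in W.F.l, U.s r ≤ W.s r ∧ W.C r ⊆ W.F.U r
  mθ : Fr.Mp U.F W.F θ J
  mτ : Fr.Mp W.F U.F τ I
  tJ : ∀ i b, U.F.T W.K 1 (J i b) ∧ W.F.T W.K 1 (I i b)
  inv : W.F.Ev fun r z => θ r (τ r z) = z ∧ mt I r z * mt J r (τ r z) = 1

/-- The differential of the first coordinate. -/
theorem xi_eq {F : Fr P X} {F' : Fr P X3} {θ : P → X → X3} {J : Fin 3 → Fin 3 → Fn P X}
    (m : Fr.Mp F F' θ J) (he : F'.e = P354H.e) : F.Sm (fun r x => (θ r x).1) ∧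
      ∀ i, F.Eq (J i 0) (D F.e i fun r x => (θ r x).1) := by
  obtain ⟨_, ha⟩ := m.ev
  refine ⟨ha.mono fun r h => h.1.fst, fun i => ?_⟩
  filter_upwards [ha, F.ok] with r ha o x hx
  have d := (ha.1.contDiffAt (o.1.mem_nhds hx)).differentiableAt (by simp)
  simp [D, fderiv.fst d, ha.2.2.2.2 x hx i, he, P354H.e, Fin.sum_univ_three]

namespace Two

variable {W : Os P X3} {U : Os P X} {θ : P → X → X3} {τ : P → X3 → X}
  {J : Fin 3 → Fin 3 → Fn P X} {I : Fin 3 → Fin 3 → Fn P X3} (t : Two W U θ τ J I)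
  {k : ℕ} {d : P → Dat}
include t

theorem cθ {f : Fn P X3} (h : W.F.T k 1 f) (hk : k ≤ W.K) : U.F.T k 1 (Fr.cp f θ) :=
  t.mθ.comp (fun i b => (t.tJ i b).1) (fun i b => by
    rw [U.hc, W.hc]; exact Fr.b0_one.congr (.of_eq fun _ _ => by simp [Fr.cp])) (by omega) h

theorem cτ {f : Fn P X} (h : U.F.T k 1 f) (hk : k ≤ W.K) : W.F.T k 1 (Fr.cp f τ) :=
  t.mτ.comp (fun i b => (t.tJ i b).2) (fun i b => by
    rw [U.hc, W.hc]; exact Fr.b0_one.congr (.of_eq fun _ _ => by simp [Fr.cp])) (by omega) h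

theorem evU {p : P → X → Prop} (h : W.F.Ev fun r z => θ r (τ r z) = z → p r (τ r z)) :
    U.F.Ev p := by
  unfold Fr.Ev; rw [t.hl]
  filter_upwards [h, t.inv] with r h i x hx
  obtain ⟨z, hz, rfl⟩ := t.hU r ▸ hx
  exact h z hz (i z hz).1

theorem evW {p : P → X → Prop} (h : U.F.Ev p) : W.F.Ev fun r z => p r (τ r z) := by
  filter_upwards [t.hl.ge h] with r h z hz
  exact h _ (t.hU r ▸ mem_image_of_mem _ hz)

/-- The pull back of a tensor to the window. -/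
def pl (τ : P → X3 → X) (I : Fin 3 → Fin 3 → Fn P X3) (B : P → X → N3) (r : P) (z : X3) : N3 :=
  mt I r z * B r (τ r z) * (mt I r z)ᵀ

/-- The push forward of a tensor. -/
def ps (θ : P → X → X3) (J : Fin 3 → Fin 3 → Fn P X) (B : P → X3 → N3) (r : P) (x : X) : N3 :=
  mt J r x * B r (θ r x) * (mt J r x)ᵀ

def pa (θ : P → X → X3) (J : Fin 3 → Fin 3 → Fn P X) (κ γ : P → X3 → N3) : MA P X :=
  fun i j r x => (ps θ J κ r x i j, ps θ J γ r x i j)

theorem t_pl {B : P → X → N3} (hk : k ≤ W.K) (h : ∀ i j, U.F.T k 1 fun r x => B r x i j)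
    (i j : Fin 3) : W.F.T k 1 fun r z => pl τ I B r z i j :=
  Fr.T.cj (B := fun r z => B r (τ r z)) (fun i b => (t.tJ i b).2.low hk)
    (fun i j => t.cτ (h i j) hk) i j

theorem t_ps {B : P → X3 → N3} (hk : k ≤ W.K) (h : ∀ i j, W.F.T k 1 fun r x => B r x i j)
    (i j : Fin 3) : U.F.T k 1 fun r z => ps θ J B r z i j :=
  Fr.T.cj (B := fun r z => B r (θ r z)) (fun i b => (t.tJ i b).1.low hk)
    (fun i j => t.cθ (h i j) hk) i j

theorem xi : U.F.Ev fun r x => ∀ i, U.xi r x i = mt J r x i 0 := by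
  filter_upwards [eventually_all.2 (xi_eq t.mθ t.eW).2] with r h x hx i
  rw [Os.xi, Os.ξ, t.φU]; exact (h i x hx).symm

theorem alg (hp : U.F.Ev fun r x => ((d r).h x).PosDef) : W.F.Ev fun r z =>
    mt I r z * mt J r (τ r z) = 1 ∧ ((d r).h (τ r z)).PosDef ∧
      ∀ i, U.xi r (τ r z) i = mt J r (τ r z) i 0 := by
  filter_upwards [t.inv, t.evW hp, t.evW t.xi] with r a b c z hz
  exact ⟨(a z hz).2, b z hz, c z hz⟩

/-- The metric in the window. -/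
theorem met (hp : U.F.Ev fun r x => ((d r).h x).PosDef)
    (nz : U.F.B0 1 (fun r x => ((d r).h x).det)⁻¹) (sm : ∀ i j, U.F.T 0 1 (hh d i j)) :
    (W.F.Ev fun r z => (pl τ I (fun r => (d r).h) r z).PosDef) ∧
      W.F.B0 1 (fun r z => (pl τ I (fun r => (d r).h) r z).det)⁻¹ := by
  refine ⟨Eventually.mono (t.alg hp) fun r h z hz =>
    (alg2 (h z hz).1 (h z hz).2.1 (h z hz).2.2).1, ?_⟩
  have a := Fr.T.det fun i b => (t.tJ i b).1.low (Nat.zero_le _)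
  have b := (Fr.T.det sm).inv (Eventually.mono hp fun r h x hx => (h x hx).det_pos.ne') nz
  refine (t.cτ ((a.mul1 a).mul1 b) (Nat.zero_le _)).b0.congr ?_
  filter_upwards [t.alg hp] with r h z hz
  exact (alg2 (h z hz).1 (h z hz).2.1 (h z hz).2.2).2.1.symm

/-- The background in the chart of the cone. -/
theorem bg (hk : k ≤ W.K) (hp : U.F.Ev fun r x => ((d r).h x).PosDef)
    (nz : U.F.B0 1 (fun r x => ((d r).h x).det)⁻¹)
    (hb : ∀ i j, U.F.T k 1 (hh d i j) ∧ U.F.T k 1 (kk d i j))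
    (con : U.F.Ev fun r x => Ham (d r) x = 0 ∧ ∀ j, Mom (d r) j x = 0) : Bg U k d := by
  have key : U.F.Ev fun r x => 0 < nx U d r x ∧
      (nx U d r x)⁻¹ ≤ pl τ I (fun r => (d r).h) r (θ r x) 0 0 := t.evU (by
    filter_upwards [t.alg hp] with r h z hz e
    have := alg2 (h z hz).1 (h z hz).2.1 (h z hz).2.2
    rw [e, nx, this.2.2.1]; exact inv00 this.1)
  refine ⟨t.eU, t.K ▸ hk, fun i j => (hb i j).1, fun i j => (hb i j).2,
    Eventually.mono hp fun r h x hx => by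
      simpa only [IsSymm, conjTranspose_eq_transpose_of_trivial] using (h x hx).isHermitian.eq,
    ⟨Eventually.mono hp fun r h x hx => (h x hx).det_pos.ne', nz⟩,
    ⟨Eventually.mono key fun r h x hx => (h x hx).1.ne', ?_⟩, con⟩
  obtain ⟨n, hn⟩ := (t.cθ (t.t_pl hk (fun i j => (hb i j).1) 0 0) hk).b0
  refine ⟨n, ?_⟩
  filter_upwards [hn, key, U.F.ok] with r hn key o x hx
  have := key x (o.2.1 hx)
  exact (abs_of_pos (inv_pos.2 this.1)).trans_le (this.2.trans ((le_abs_self _).trans (hn x hx)))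

/-- Symmetric amplitudes in the window. -/
def Sw (W : Os P X3) (k : ℕ) (B : P → X3 → N3) : Prop :=
  (∀ i j, W.F.T k 1 fun r x => B r x i j) ∧ (∀ r x i j, B r x i j = B r x j i) ∧
    W.F.Ev fun r x => x ∉ W.C r → B r x = 0

omit t in
theorem sw_zero : Sw W k 0 :=
  ⟨fun _ _ => Fr.t_zero Fr.b0_one, fun _ _ _ _ => rfl, .of_forall fun _ _ _ _ => rfl⟩

/-- The amplitudes in the chart of the cone. -/
theorem am {κ γ : P → X3 → N3} (hk : k ≤ W.K) (a : Sw W k κ) (b : Sw W k γ) :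
    U.SA k (pa θ J κ γ) := by
  have s : ∀ {B}, Sw W k B → ∀ r x i j, ps θ J B r x i j = ps θ J B r x j i :=
    fun h r x i j => by
    simp only [ps, cj_eq, Fin.sum_univ_three, h.2.1 r _ 1 0, h.2.1 r _ 2 0, h.2.1 r _ 2 1]; ring
  have z : ∀ {B}, Sw W k B → U.F.Ev fun r x => x ∉ U.C r → ps θ J B r x = 0 := fun h => t.evU (by
    filter_upwards [h.2.2] with r z x hx e hc
    rw [ps, e, z x hx fun h => hc (t.hC r ▸ mem_image_of_mem _ h)]; simp)
  refine ⟨fun i j => ⟨t.t_ps hk a.1 i j, t.t_ps hk b.1 i j, ?_⟩, fun i j => ?_⟩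
  · filter_upwards [z a, z b] with r a b x hx hc
    simp [pa, a x hx hc, b x hx hc]
  · funext r x; simp only [pa, s a r x i j, s b r x i j]

/-- The kernel of the symbols. -/
theorem ker {γ : P → X3 → N3} (hp : U.F.Ev fun r x => ((d r).h x).PosDef)
    (h : W.F.Ev fun r z => ((pl τ I (fun r => (d r).h) r z)⁻¹ * γ r z).trace = 0 ∧
      γ r z *ᵥ ((pl τ I (fun r => (d r).h) r z)⁻¹ *ᵥ e0) = 0) : U.F.Ev fun r x =>
    sH ((d r).h x)⁻¹ (U.xi r x) (ps θ J γ r x) = 0 ∧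
      ∀ j, sM ((d r).h x)⁻¹ (U.xi r x) (ps θ J γ r x) j = 0 := t.evU (by
  filter_upwards [t.alg hp, h] with r a h z hz e
  rw [ps, e]
  exact ((alg2 (a z hz).1 (a z hz).2.1 (a z hz).2.2).2.2.2 _).2 (h z hz).1 (h z hz).2)

/-- The relation in the window. -/
theorem back {n : ℤ} {B B' : P → X → N3} {γ κ : P → X3 → N3} {C : MA P X} (hk : k ≤ W.K)
    (hB : ∀ i j, U.F.T k 1 fun r x => B r x i j)
    (a : U.SA k (pa θ J κ γ)) (a' : U.SA k C) (h : ∀ i j, U.F.T k (pr W.s)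
      ((fun r x => B' r x i j - B r x i j) - U.pu n (pa θ J κ γ) C i j)) (i j : Fin 3) :
    W.Rel k n (fun r z => pl τ I B r z i j) (fun r z => pl τ I B r z i j)
      (fun r z => pl τ I B' r z i j) fun r z => (κ r z i j, γ r z i j) := by
  have e : W.F.Ev fun r x => W.φ r x = U.φ r (τ r x) ∧ (x ∉ W.C r → τ r x ∉ U.C r) := by
    filter_upwards [t.inv, t.ev] with r i v z hz
    refine ⟨by rw [t.φW, t.φU]; simp only [(i z hz).1], fun hc h => hc ?_⟩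
    obtain ⟨y, hy, e⟩ := t.hC r ▸ h
    rw [← (i z hz).1, ← e, (i y (v.2 hy)).1]; exact hy
  have r1 : ∀ i j, U.Rel k n (fun r x => B r x i j) (fun r x => B r x i j)
      ((fun r x => B r x i j) + U.pu n (pa θ J κ γ) C i j) (pa θ J κ γ i j) := fun i j =>
    ⟨t.K ▸ hk, hB i j, (Fr.t_zero Os.bAA).cast (by ring), a.1 i j, C i j, a'.1 i j,
      (Fr.t_zero Os.bss).cast (by unfold Os.pu; ring)⟩
  have r2 := fun i j => ((r1 i j).cp t.mτ (fun i b => (t.tJ i b).2) (by omega) hk t.lam t.A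
    (t.ev.mono fun _ h => h.1) e).pert (t.mτ.comp (fun i b => (t.tJ i b).2) (fun i b => by
      rw [U.hc, W.hc]; exact Fr.b0_one.congr (.of_eq fun _ _ => by simp [Fr.cp])) (by omega)
      (h i j))
  refine (Os.Rel.cj (B := fun r z => B r (τ r z)) (B' := fun r z => B' r (τ r z))
    (σ := fun i j r z => pa θ J κ γ i j r (τ r z))
    (fun i b => (t.tJ i b).2.low hk) (fun i j => (r2 i j).congr (.of_eq fun _ _ => rfl)
      (.of_eq fun _ _ => rfl) (.of_eq fun r z => by simp [Fr.cp]) (.of_forall fun _ _ _ => rfl))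
      i j).sy ?_
  filter_upwards [t.inv] with r v z hz
  have := fun γ => ((alg2 (v z hz).2 PosDef.one (ξ := fun i => mt J r (τ r z) i 0)
    fun _ => rfl).2.2.2 γ).1
  have e : ∀ γ : P → X3 → N3, pl τ I (ps θ J γ) r z = γ r z := fun γ => by
    rw [pl, ps, (v z hz).1, this]
  exact Prod.ext (congrFun (congrFun (e κ) i) j) (congrFun (congrFun (e γ) i) j)

end Two

end Vale.Agent.P354XP
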