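import Vale.Agent.P354XP.Two
import Vale.Agent.P354XP.App

/-!
The background in the chart of the cone, the frame of the window, and the wave.
-/

open scoped ContDiff
open Set Filter Topology Matrix

noncomputable section

namespace Vale.Agent.P354XP

open Vale.Agent.P354H (X3 pdl)
open Vale.Agent.P354C (Ix)
open Vale.Agent.P354I (X Dat ee pd Con)
open Vale.Agent.P354J (PDy U0)
open Vale.Agent.P354XB (Sa Prf Win Pol)
open Vale.Agent.P354XC (Gam Cone Ham Mom)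
open Vale.Agent.P354XS (DA qm)

variable {P : Type}

theorem sb_of (bg : BG) {M a : ℝ} (ha : |a| < M) (d : DA M a) {B : ℕ → ℝ} {l : Filter P}
    {σ : P → Bool} {ρ : P → ℝ} {Ψ Θ : P → X → X} (hρ : Tendsto ρ l atTop)
    (h : ∀ᶠ r in l, Cn B (σ r) (ρ r) (Ψ r) (Θ r)) : Sb l ρ fun r => d.1.pull (Ψ r) := by
  obtain ⟨ρ0, c, hc, C, H⟩ := bg M a ha d B
  rintro F rfl he hc1 hU
  have n1 : ∀ i, ‖F.e i‖ ≤ 1 := fun i => by rw [he]; simp [ee]
  have key : ∀ (f : Fn P X) (C : ℕ → ℝ), F.Sm f → (∀ᶠ r in F.l, ∀ x ∈ F.V r, ∀ k,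
      ‖iteratedFDeriv ℝ k (f r) x‖ ≤ C k) → ∀ m, F.T m 1 f := fun f C s b m =>
    Fr.T.of_ifd n1 hc1 s fun k _ => by
      rw [one_pow, mul_one]
      exact (Fr.b0_cst (C k)).trans (Fr.B0.of_le (b.mono fun r b x hx => by
        simpa [cst] using b x hx k))
  have sm := h.mono fun r h => (P354PU.pdy_pull h.1 d.2.1).1
  have e := (h.and (hρ.eventually_ge_atTop ρ0)).mono fun r h => H _ _ _ _ h.2 h.1
  refine ⟨fun m i j => ⟨key _ C ?_ ?_ m, key _ (fun k => 4 * |C k|) ?_ ?_ m⟩,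
    (Fr.b0_cst c⁻¹).trans (Fr.B0.of_le ?_)⟩
  · filter_upwards [sm, hU] with r s u using (s i j).1.mono u.1
  · filter_upwards [e, hU, hρ.eventually_ge_atTop 4] with r e u g x hx k
    have := u.2 x hx
    exact (le_mul_of_one_le_left (norm_nonneg _) (one_le_pow₀ (by linarith))).trans
      ((e x this).2.2 k i j).1
  · filter_upwards [sm, hU] with r s u using (s i j).2.mono u.1
  · filter_upwards [e, hU, hρ.eventually_ge_atTop 4] with r e u g x hx k
    have p := u.2 x hx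
    have q := ((e x p).2.2 k i j).2.2
    have x1 : 1 ≤ ‖x‖ := by linarith
    have : ‖x‖ * ‖iteratedFDeriv ℝ k (kk (fun r => d.1.pull (Ψ r)) i j r) x‖ ≤
        ‖x‖ * (4 * |C k|) :=
      (mul_le_mul_of_nonneg_right (le_self_pow₀ x1 (by omega)) (norm_nonneg _)).trans
        (q.trans (by nlinarith [le_abs_self (C k), abs_nonneg (C k)]))
    exact le_of_mul_le_mul_left this (by linarith)
  · filter_upwards [e, hU] with r e u x hx
    have := (e x (u.2 x hx)).2.1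
    simp only [cst, Pi.inv_apply]
    rw [abs_of_pos (inv_pos.2 (hc.trans_le this))]; exact inv_anti₀ hc this

/-- The frame of the window. -/
def FW (l : Filter P) (R w G : P → ℝ) (h : ∀ᶠ r in l, 2 ≤ G r) : Fr P X3 where
  l := l
  e := P354H.e
  U r := Win (R r) (w r) 6
  V r := Win (R r) (w r) 6
  G := G
  c _ := 1
  ok := h.mono fun _ h => ⟨(isOpen_Ioo.preimage continuous_fst).inter
    (isOpen_lt continuous_snd.norm continuous_const), subset_rfl, h, fun _ _ _ => zero_le_one⟩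

theorem prf_supp {n : ℕ} {R w G : ℝ} {α : X3 → Ix → ℝ} (h : Prf n R w G α) (hw : 0 < w) :
    IsCompact (tsupport α) ∧ tsupport α ⊆ Win R w 6 := by
  have k : IsCompact (Icc (R - w) (R + 2 * w) ×ˢ Metric.closedBall (0 : ℝ × ℝ) 2) :=
    isCompact_Icc.prod (isCompact_closedBall _ _)
  have s : tsupport α ⊆ Icc (R - w) (R + 2 * w) ×ˢ Metric.closedBall (0 : ℝ × ℝ) 2 := by
    refine closure_minimal (fun z hz => ?_) k.isClosed
    have := _root_.mt (h.supp z) hz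
    push Not at this
    exact ⟨⟨this.1.le, this.2.1.le⟩, mem_closedBall_zero_iff.2 this.2.2.le⟩
  refine ⟨k.of_isClosed_subset (isClosed_tsupport _) s, fun z hz => ?_⟩
  obtain ⟨⟨a, b⟩, c⟩ := s hz
  exact ⟨⟨by linarith, by linarith⟩, by linarith [mem_closedBall_zero_iff.1 c]⟩

theorem dw_pdl : ∀ (β : List (Fin 3)) (f : Fn P X3) (r : P), Fr.Dw P354H.e β f r = pdl β (f r)
  | [], _, _ => rfl
  | i :: β, f, r => dw_pdl β (D P354H.e i f) r

theorem prf_T {l : Filter P} {R w G : P → ℝ} {h : ∀ᶠ r in l, 2 ≤ G r} {n : ℕ}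
    {α : P → X3 → Ix → ℝ} (hα : ∀ᶠ r in l, Prf n (R r) (w r) (G r) (α r)) (i : Ix) :
    (FW l R w G h).T n 1 fun r x => α r x i := by
  refine ⟨hα.mono fun r h => (h.sm i).contDiffOn, Fr.B.of_words 1 (hα.mono fun r h β hβ x _ => ?_)⟩
  have := h.bd i x β hβ
  rw [one_pow, mul_one] at this
  simpa [FW, dw_pdl] using show |pdl β (fun x => α r x i) x| ≤ G r from this

theorem sa_ev {l c : ℝ} {n : ℕ} {f g : X3 → ℝ} {z : X3} (h : Sa l n f z c) (e : f =ᶠ[𝓝 z] g) :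
    Sa l n g z c := by
  have : ∀ (β : List (Fin 3)) {f g : X3 → ℝ}, f =ᶠ[𝓝 z] g → pdl β f z = pdl β g z := fun β => by
    induction β with
    | nil => exact fun h => h.eq_of_nhds
    | cons j α ih => exact fun h => ih ((h.fderiv (𝕜 := ℝ)).mono fun y hy =>
        congrArg (fun L : X3 →L[ℝ] ℝ => L (P354H.e j)) hy)
  exact fun β hβ => this β e ▸ h β hβ

/-- The wave in the two charts. -/
theorem mid (prep : PREP) (mol : MOL) {W : Os P X3} {U : Os P X} {θ : P → X → X3}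
    {τ : P → X3 → X} {J : Fin 3 → Fin 3 → Fn P X} {I : Fin 3 → Fin 3 → Fn P X3}
    (t : Two W U θ τ J I) {n : ℕ} (hK : W.K = 3 * n + 9) {ρ δ : P → ℝ}
    {d : P → Dat} {S : P → Set X} {α : P → X3 → Ix → ℝ} (sb : Sb U.F.l ρ d)
    (h : ∀ᶠ r in U.F.l, 1 ≤ ρ r ∧ ρ r ≤ U.F.G r ∧ 0 < δ r ∧ PDy (d r) ∧ Con (d r) ∧
      Cone (ρ r / 2) (S r) ∧ IsCompact (U.C r) ∧ U.C r ⊆ U.F.U r ∧ U.C r ⊆ S r ∧
      ∀ x ∈ U.C r, ‖x‖ ≤ 4 * ρ r) (hU : ∀ᶠ r in U.F.l, U.F.U r ⊆ Gam (ρ r / 2))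
    (hδ : ∀ n : ℕ, ∀ᶠ r in U.F.l, (U.lam r * U.F.G r) ^ n * δ r ≤ 1 ∧
      (U.lam r * U.F.G r / δ r) ^ n * U.A r ≤ δ r ∧
      (U.lam r * U.F.G r) ^ n * (δ r * U.A r) ≤ U.s r)
    (hal : U.al (-(n + 2 : ℕ) - 1) = pr U.s)
    (hα : ∀ i, W.F.T (3 * n + 9) 1 fun r x => α r x i)
    (hp : ∀ᶠ r in W.F.l, Pol (α r) ∧ W.s r = W.A r / W.lam r)
    (hz : W.F.Ev fun r x => x ∉ W.C r → α r x = 0) :
    ∃ u v : Fin 3 → Fin 3 → Fn P X, (∀ i j, u i j = u j i ∧ v i j = v j i) ∧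
      (∀ᶠ r in U.F.l, ∀ i j x, x ∉ S r ∨ 9 * ρ r ≤ ‖x‖ → u i j r x = 0 ∧ v i j r x = 0) ∧
      (∀ m, ∃ F, Fit F U.F.l ρ 1 U.A U.A ∧ (F.G = fun r => U.lam r * U.F.G r / δ r) ∧
        App F m U.A U.A d u v) ∧ ∃ F, Fit F U.F.l ρ U.lam δ U.s ∧ App F (n + 2) δ U.s d u v ∧
      ∀ d1 : P → Dat, (∀ i j, F.T (n + 2) (pr U.s) (hh d1 i j - hh (ad d u v) i j) ∧
        F.T (n + 2) (pr U.s) (kk d1 i j - kk (ad d u v) i j)) →
        ∃ N : ℕ, ∀ᶠ r in W.F.l, ∀ z ∈ W.F.U r, ∀ i, Sa (W.lam r) n (fun x =>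
          U0 (Two.pl τ I (fun r => (d1 r).h) r) (Two.pl τ I (fun r => (d1 r).K) r) x i -
          U0 (Two.pl τ I (fun r => (d r).h) r) (Two.pl τ I (fun r => (d r).K) r) x i -
          W.A r * Real.sin (W.lam r * x.1) * α r x i) z (W.A r * W.F.G r ^ N / W.lam r) := by
  obtain ⟨gam, kap, p1, p2, p3, p4⟩ := prep
  have n0 : ∀ᶠ r in U.F.l, U.F.U r ⊆ {0}ᶜ ∧ ∀ x ∈ U.F.V r, ρ r / 4 ≤ ‖x‖ := by
    filter_upwards [h, hU, U.F.ok] with r h u o
    refine ⟨fun x hx e => ?_, fun x hx => by linarith [gam_norm (u (o.2.1 hx)), h.1]⟩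
    have := gam_norm (u hx)
    rw [e, norm_zero] at this; linarith [h.1]
  obtain ⟨b1, b2⟩ := sb U.F rfl t.eU U.hc n0
  have pd : U.F.Ev fun r x => ((d r).h x).PosDef ∧ ((d r).K x).IsSymm := by
    filter_upwards [h, n0] with r h n0 x hx using h.2.2.2.1.2 x (n0.1 hx)
  have pd1 : U.F.Ev fun r x => ((d r).h x).PosDef := Eventually.mono pd fun _ h x hx => (h x hx).1
  obtain ⟨m1, m2⟩ := t.met pd1 b2 fun i j => (b1 0 i j).1
  obtain ⟨q1, q2⟩ := p4 P W _ α t.eW m1 m2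
  have q := q1 _ hK.ge (t.t_pl hK.ge fun i j => (b1 _ i j).1) hα
  set h0 := Two.pl τ I fun r => (d r).h
  have sγ : Two.Sw W (3 * n + 9) fun r x => gam (h0 r x) (α r x) :=
    ⟨fun i j => (q i j).1, fun r x i j => (p1 _ _ i j).1,
      Eventually.mono hz fun r z x hx hc => by simp only [z x hx hc, (p2 _).1]⟩
  have sκ : Two.Sw W (3 * n + 9) fun r x => kap (h0 r x) (α r x) :=
    ⟨fun i j => (q i j).2, fun r x i j => (p1 _ _ i j).2,
      Eventually.mono hz fun r z x hx hc => by simp only [z x hx hc, (p2 _).2]⟩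
  have aγ := t.am hK.ge Two.sw_zero sγ
  have aκ := t.am hK.ge sκ Two.sw_zero
  have k0 := t.ker (γ := 0) pd1 (.of_forall fun _ _ _ => by simp)
  have kγ := t.ker (γ := fun r x => gam (h0 r x) (α r x)) pd1
    (Eventually.mono m1 fun r h x hx => ⟨(p3 _ _ (h x hx)).1, (p3 _ _ (h x hx)).2.1⟩)
  have kκ := t.ker (γ := fun r x => kap (h0 r x) (α r x)) pd1
    (Eventually.mono m1 fun r h x hx => (p3 _ _ (h x hx)).2.2)
  have bg := t.bg hK.ge pd1 b2 (b1 _) (by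
    filter_upwards [h, n0] with r h n0 x hx using h.2.2.2.2.1 x (n0.1 hx))
  have st := wkb (O := U) (d := d) (γ := Two.pa θ J 0 fun r x => gam (h0 r x) (α r x))
    (κ := Two.pa θ J (fun r x => kap (h0 r x) (α r x)) 0) (by
      filter_upwards [k0, kγ, kκ] with r a b c x hx
      exact ⟨(a x hx).1, (b x hx).1, fun j => ⟨(c x hx).2 j, (a x hx).2 j⟩⟩) (n + 2) (n + 2 + 1)
    (bg.low (by omega)) (aγ.low (by omega)) (aκ.low (by omega))
  obtain ⟨B, π, u, v, sB, sπ, sy, su, cl, ⟨F, f1, f2, f3⟩, f4⟩ := app mol t.eU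
    (by rw [t.K, hK]; omega) sb h hδ hal (aγ.low (by omega)) (aκ.low (by omega)) st
  refine ⟨u, v, sy, su, f4, F, f1, f3, fun d1 hd => ?_⟩
  have key : ∀ {f g : Fn P X}, F.T (n + 2) (pr U.s) f → U.F.T (n + 2) (pr U.s) g →
      U.F.T (n + 2) (pr W.s) (f + g) := fun {f g} a b => by
    refine ((a.cost (F' := U.F) f1.hl.symm (t.eU.trans f1.he.symm) f1.hc U.hc ?_).mono
      (Fr.B0.of_le ?_)).add (b.mono (Fr.B0.of_le ?_))
    · rw [f1.hl, f1.hU, f1.hV, f2]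
      filter_upwards [n0, hU, U.ok, U.F.ok] with r a b c o
      exact ⟨a.1, o.2.1.trans b, le_rfl, c.2.1⟩
    · filter_upwards [t.hl.le hp, U.ok] with r p o x _
      have e := congrFun (congrFun hal r) x
      have l0 : 0 < U.lam r := by linarith [o.2.1]
      simp only [Os.al, pr, Pi.mul_apply] at e ⊢
      rw [p.2, t.A, t.lam, ← e, mul_assoc, ← zpow_natCast, ← zpow_add₀ l0.ne', abs_of_pos
        (mul_pos o.2.2.1 (zpow_pos l0 _)), div_eq_mul_inv, ← _root_.zpow_neg_one]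
      exact le_of_eq (by congr 2; omega)
    · filter_upwards [t.hl.le t.ev, Os.s_nn (O := U)] with r p o x _
      simpa only [pr, abs_of_nonneg o] using p.1
  refine q2 n _ _ _ t.φW hp ?_ (t.back (κ := 0) (by omega) (fun i j => (b1 _ i j).1)
    (aγ.low (by omega)) sB fun i j => (key (hd i j).1 (cl i j).1).cast ?_) fun i j =>
      (t.back (γ := 0) (by omega)
      (fun i j => (b1 _ i j).2) (aκ.low (by omega)) sπ (fun i j =>
        (key (hd i j).2 (cl i j).2).cast ?_) i j).low (by omega)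
  · filter_upwards [t.evW pd] with r p z hz
    unfold IsSymm Two.pl
    rw [transpose_mul, transpose_mul, transpose_transpose, (p z hz).2.eq, Matrix.mul_assoc]
  · funext r x
    simp only [hh, ad, Pi.add_apply, Pi.sub_apply, Matrix.add_apply, of_apply]
    ring
  · funext r x
    simp only [kk, ad, Pi.add_apply, Pi.sub_apply, Matrix.add_apply, of_apply]
    ring

end Vale.Agent.P354XP
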