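import Vale.Agent.P354XP.Sym

/-!
Approximate solutions of the constraints of high order with a prescribed leading term.
-/

open scoped ContDiff
open Set Filter Topology Matrix

noncomputable section

namespace Vale.Agent.P354XP

open Vale.Agent.P354I (X Dat ee pd)
open Vale.Agent.P354XC (Ham Mom)

variable {P : Type}

abbrev MA (P E : Type) : Type := Fin 3 → Fin 3 → Pr P E

/-- The components of a family of data. -/
def hh (d : P → Dat) (i j : Fin 3) : Fn P X := fun r x => (d r).h x i j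
def kk (d : P → Dat) (i j : Fin 3) : Fn P X := fun r x => (d r).K x i j

/-- The sum of data and of a perturbation. -/
def ad (d : P → Dat) (u v : Fin 3 → Fin 3 → Fn P X) (r : P) : Dat where
  h x := (d r).h x + of fun i j => u i j r x
  K x := (d r).K x + of fun i j => v i j r x

/-- The leading term and the corrector. -/
def Os.pu {E : Type} [NormedAddCommGroup E] [NormedSpace ℝ E] (O : Os P E) (n : ℤ)
    (B B' : MA P E) (i j : Fin 3) : Fn P E := O.al n * O.W (B i j) + O.al (n - 1) * O.W (B' i j)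

/-- Symmetric matrices of amplitudes. -/
def Os.SA {E : Type} [NormedAddCommGroup E] [NormedSpace ℝ E] (O : Os P E) (k : ℕ)
    (B : MA P E) : Prop := (∀ i j, O.Am k (B i j)) ∧ ∀ i j, B i j = B j i

/-- The square of the length of the differential of the phase. -/
def nx (O : Os P X) (d : P → Dat) : Fn P X :=
  fun r x => O.xi r x ⬝ᵥ ((d r).h x)⁻¹ *ᵥ O.xi r x

/-- The background. -/
structure Bg (O : Os P X) (k : ℕ) (d : P → Dat) : Prop where
  he : O.F.e = ee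
  le : k ≤ O.K
  h : ∀ i j, O.F.T k 1 (hh d i j)
  K : ∀ i j, O.F.T k 1 (kk d i j)
  sy : O.F.Ev fun r x => ((d r).h x).IsSymm
  nz : (O.F.Ev fun r x => ((d r).h x).det ≠ 0) ∧ O.F.B0 1 (fun r x => ((d r).h x).det)⁻¹
  nx : (O.F.Ev fun r x => nx O d r x ≠ 0) ∧ O.F.B0 1 (nx O d)⁻¹
  con : O.F.Ev fun r x => Ham (d r) x = 0 ∧ ∀ j, Mom (d r) j x = 0

variable {O : Os P X} {k : ℕ} {d : P → Dat} {γ κ B π : MA P X}

theorem Bg.low {k' : ℕ} (b : Bg O k d) (hk : k' ≤ k) : Bg O k' d :=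
  ⟨b.he, hk.trans b.le, fun i j => (b.h i j).low hk, fun i j => (b.K i j).low hk, b.sy, b.nz,
    b.nx, b.con⟩

theorem Os.SA.low {E : Type} [NormedAddCommGroup E] [NormedSpace ℝ E] {O : Os P E} {k k' : ℕ}
    {B : MA P E} (b : O.SA k B) (hk : k' ≤ k) : O.SA k' B := ⟨fun i j => (b.1 i j).low hk, b.2⟩

theorem Bg.g (b : Bg O k d) (i j : Fin 3) : O.F.T k 1 fun r x => ((d r).h x)⁻¹ i j :=
  (Tri.l_inv (t := ⟨O, d, d, d⟩) (n := 0) (M := fun d x => d.h x)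
    (fun i j => ⟨0, Os.rel_base b.le (b.h i j)⟩) b.nz i j).bg

theorem Bg.v (b : Bg O k d) (i : Fin 3) :
    O.F.T k 1 fun r x => (((d r).h x)⁻¹ *ᵥ O.xi r x) i :=
  Fr.T.fsum fun j => (b.g i j).mul1 ((O.ph j).low b.le)

theorem Bg.ni (b : Bg O k d) : O.F.T k 1 (P354XP.nx O d)⁻¹ :=
  Fr.T.inv b.nx.1 b.nx.2 (Fr.T.fsum fun i => ((O.ph i).low b.le).mul1 (b.v i))

theorem pu_T {E : Type} [NormedAddCommGroup E] [NormedSpace ℝ E] {O : Os P E} {k : ℕ}
    {B B' : MA P E} (hk : k ≤ O.K) (h : O.SA k B) (h' : O.SA k B') (n : ℤ) (i j : Fin 3) :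
    O.H.T k (pr O.A) (O.pu n B B' i j) := ((h.1 i j).alw hk n).add ((h'.1 i j).alw hk _)

/-- The state of the iteration. -/
def St (O : Os P X) (k J : ℕ) (d : P → Dat) (γ κ : MA P X) : Prop :=
  ∃ (B π : MA P X) (eH : Pr P X) (eM : Fin 3 → Pr P X), O.SA (k + 2) B ∧ O.SA (k + 2) π ∧
    O.Am k eH ∧ (∀ b, O.Am k (eM b)) ∧
    O.F.T k (pr O.s) (lf Ham (ad d (O.pu (-2) γ B) (O.pu (-1) κ π)) -
      O.al (-J - 1) * O.W eH) ∧
    ∀ b, O.F.T k (pr O.s) (lf (fun d => Mom d b) (ad d (O.pu (-2) γ B) (O.pu (-1) κ π)) -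
      O.al (-J - 1) * O.W (eM b))

theorem sa_zero : O.SA k 0 := ⟨fun _ _ => Os.am_zero, fun _ _ => rfl⟩

theorem rel_first {f : Fn P X} {σ : Pr P X} {n : ℤ} (hk : k ≤ O.K) (h : O.F.T k 1 f)
    (a : O.Am k σ) : O.Rel k n f f (f + (O.al n * O.W σ + O.al (n - 1) * O.W 0)) σ :=
  ⟨hk, h, (Fr.t_zero Os.bAA).cast (by ring), a, 0, Os.am_zero,
    (Fr.t_zero Os.bss).cast (by ring)⟩

theorem st_zero (b : Bg O (k + 2) d) (hγ : O.SA (k + 2) γ) (hκ : O.SA (k + 2) κ)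
    (ker : O.F.Ev fun r x => sH ((d r).h x)⁻¹ (O.xi r x) (m1 γ r x) = 0 ∧
      sH ((d r).h x)⁻¹ (O.xi r x) (m2 γ r x) = 0 ∧ ∀ j,
      sM ((d r).h x)⁻¹ (O.xi r x) (m1 κ r x) j = 0 ∧
      sM ((d r).h x)⁻¹ (O.xi r x) (m2 κ r x) j = 0) : St O k 0 d γ κ := by
  have D : RD ⟨O, d, d, ad d (O.pu (-2) γ 0) (O.pu (-1) κ 0)⟩ k (-2) γ κ :=
    ⟨b.he, fun i j => rel_first b.le (b.h i j) (hγ.1 i j), fun i j =>
      (rel_first b.le (b.K i j) (hκ.1 i j)).low (by omega), b.nz, b.sy, hγ.2, hκ.2⟩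
  obtain ⟨τ, a, h⟩ := D.ham.ex
  choose ρ a' h' using fun j => (D.mom j).ex
  refine ⟨0, 0, τ, ρ, sa_zero, sa_zero, a, a', h.congr ?_, fun j => (h' j).congr ?_⟩
  · filter_upwards [ker, b.con] with r ker c x hx
    simp [lf, Os.W, p1, p2, (ker x hx).1, (ker x hx).2.1, (c x hx).1]
  · filter_upwards [ker, b.con] with r ker c x hx
    simp [lf, Os.W, p1, p2, (ker x hx).2.2 j, (c x hx).2 j]

theorem t_lpow (J : ℕ) : O.F.T k 1 (pr fun r => O.lam r ^ (-(J : ℤ))) :=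
  Fr.t_par (Fr.B0.of_le (by
    filter_upwards [O.ok] with r o x _
    rw [abs_of_pos (zpow_pos (by linarith [o.2.1]) _)]
    exact zpow_le_one_of_nonpos₀ o.2.1 (by omega))) k

theorem rel_next {f : Fn P X} {σ τ c : Pr P X} {n m : ℤ} (J : ℕ) (hk : k ≤ O.K)
    (h : O.F.T k 1 f) (a : O.Am k σ) (a' : O.Am k τ) (ac : O.Am k c) (e : m = n - 1 - J) :
    O.Rel k m f (f + (O.al n * O.W σ + O.al (n - 1) * O.W τ)) (f + (O.al n * O.W σ +
      O.al (n - 1) * O.W (τ + (pr fun r => O.lam r ^ (-(J : ℤ)) : Fn P X) • c))) c := by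
  refine ⟨hk, h, ((a.alw hk n).add (a'.alw hk (n - 1))).cast (by ring), ac, 0, Os.am_zero,
    (Fr.t_zero Os.bss).congr ?_⟩
  filter_upwards [O.ok] with r o x _
  have : O.lam r ^ m = O.lam r ^ (n - 1) * O.lam r ^ (-(J : ℤ)) := by
    rw [e, ← zpow_add₀ (by linarith [o.2.1]), sub_eq_add_neg]
  simp only [Os.W_add, Os.W_smul, Os.W_zero, Os.al, pr, Pi.add_apply, Pi.sub_apply, Pi.mul_apply,
    Pi.zero_apply, this]
  ring

theorem st_succ {J : ℕ} (b : Bg O (k + 2) d) (hγ : O.SA (k + 2) γ) (hκ : O.SA (k + 2) κ)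
    (h : St O (k + 2) J d γ κ) : St O k (J + 1) d γ κ := by
  obtain ⟨B, π, eH, eM, hB, hπ, aH, aM, tH, tM⟩ := h
  have hB := hB.low (show k + 2 ≤ k + 2 + 2 by omega)
  have hπ := hπ.low (show k + 2 ≤ k + 2 + 2 by omega)
  let cH : MA P X := fun i j => 
    (cst (-(1 / 4)) * (nx O d)⁻¹ * (hh d i j + hh d j i) : Fn P X) • eH
  let cK : MA P X := fun i j => (nx O d)⁻¹ • (O.ξ i • Jr (eM j) + O.ξ j • Jr (eM i) -
    (cst (1 / 4) * (hh d i j + hh d j i) : Fn P X) • ∑ a,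
      (fun r x => (((d r).h x)⁻¹ *ᵥ O.xi r x) a : Fn P X) • Jr (eM a))
  have x := fun i => (O.ph i).low b.le
  have hcH : O.SA (k + 2) cH := ⟨fun i j =>
    aH.smul (((Fr.t_cst _).mul1 b.ni).mul1 ((b.h i j).add (b.h j i))), fun i j => by
      simp only [cH, add_comm]⟩
  have hcK : O.SA (k + 2) cK := by
    refine ⟨fun i j => Os.Am.smul b.ni ?_, fun i j => by simp only [cK, add_comm]⟩
    rw [sub_eq_add_neg, ← neg_smul]
    exact (((aM j).jr.smul (x i)).add ((aM i).jr.smul (x j))).add ((Os.Am.sum fun a =>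
      (aM a).jr.smul (b.v a)).smul ((Fr.t_cst _).mul1 ((b.h i j).add (b.h j i))).neg)
  let B2 : MA P X := fun i j => B i j + (pr fun r => O.lam r ^ (-(J : ℤ)) : Fn P X) • cH i j
  let π2 : MA P X := fun i j => π i j + (pr fun r => O.lam r ^ (-(J : ℤ)) : Fn P X) • cK i j
  have D : RD ⟨O, d, ad d (O.pu (-2) γ B) (O.pu (-1) κ π),
      ad d (O.pu (-2) γ B2) (O.pu (-1) κ π2)⟩ k (-J - 3) cH cK :=
    ⟨b.he, fun i j => rel_next J b.le (b.h i j) (hγ.1 i j) (hB.1 i j) (hcH.1 i j) (by omega),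
      fun i j => (rel_next J b.le (b.K i j) (hκ.1 i j) (hπ.1 i j) (hcK.1 i j) (by omega)).low
        (by omega), b.nz, b.sy, hcH.2, hcK.2⟩
  obtain ⟨τ, a, h⟩ := D.ham.ex
  choose ρ a' h' using fun j => (D.mom j).ex
  have e1 : (-J - 3 + 1 + 1 : ℤ) = -J - 1 := by omega
  have e2 : (-J - 1 - 1 : ℤ) = -((J + 1 : ℕ) : ℤ) - 1 := by push_cast; omega
  simp only [e1, e2] at h h'
  refine ⟨B2, π2, τ, ρ, ⟨fun i j => (hB.1 i j).add ((hcH.1 i j).smul (t_lpow J)), fun i j => by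
      simp only [B2, hB.2 i j, hcH.2 i j]⟩, ⟨fun i j => (hπ.1 i j).add
      ((hcK.1 i j).smul (t_lpow J)), fun i j => by simp only [π2, hπ.2 i j, hcK.2 i j]⟩, a, a',
    (h.add (tH.low (by omega))).congr ?_, fun j => ((h' j).add ((tM j).low (by omega))).congr ?_⟩
  · filter_upwards [b.nz.1, b.nx.1, b.sy] with r z z' sy x hx
    have s1 : m1 cH r x = (1 / 2 * (nx O d r x)⁻¹ * -(eH r x).1) • (d r).h x := by
      ext i j; simp [m1, cH, cst, hh, (sy x hx).apply i j]; ring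
    have s2 : m2 cH r x = (1 / 2 * (nx O d r x)⁻¹ * -(eH r x).2) • (d r).h x := by
      ext i j; simp [m2, cH, cst, hh, (sy x hx).apply i j]; ring
    simp only [Os.W, p1, p2, Pi.add_apply, Pi.sub_apply, Pi.mul_apply, s1, s2, nx,
      sH_inv (z x hx) (z' x hx)]
    ring
  · filter_upwards [b.nz.1, b.nx.1, b.sy] with r z z' sy x hx
    have s1 : m1 cK r x = iM ((d r).h x) (O.xi r x) fun a => (eM a r x).2 := by
      ext i j
      simp [m1, cK, cst, hh, iM, nx, Jr, Os.xi, Fin.sum_univ_three, dotProduct,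
        (sy x hx).apply i j]
      left; ring
    have s2 : m2 cK r x = iM ((d r).h x) (O.xi r x) fun a => -(eM a r x).1 := by
      ext i j
      simp [m2, cK, cst, hh, iM, nx, Jr, Os.xi, Fin.sum_univ_three, dotProduct,
        (sy x hx).apply i j]
      left; ring
    simp only [Os.W, p1, p2, Pi.add_apply, Pi.sub_apply, Pi.mul_apply, s1, s2,
      sM_inv (sy x hx) (z x hx) (z' x hx)]
    ring

/-- WKB. -/
theorem wkb (ker : O.F.Ev fun r x => sH ((d r).h x)⁻¹ (O.xi r x) (m1 γ r x) = 0 ∧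
      sH ((d r).h x)⁻¹ (O.xi r x) (m2 γ r x) = 0 ∧ ∀ j,
      sM ((d r).h x)⁻¹ (O.xi r x) (m1 κ r x) j = 0 ∧
      sM ((d r).h x)⁻¹ (O.xi r x) (m2 κ r x) j = 0) :
    ∀ (J k : ℕ), Bg O (k + 2 * J + 2) d → O.SA (k + 2 * J + 2) γ → O.SA (k + 2 * J + 2) κ →
      St O k J d γ κ
  | 0, _, b, hγ, hκ => st_zero b hγ hκ ker
  | J + 1, k, b, hγ, hκ => st_succ (b.low (by omega)) (hγ.low (by omega)) (hκ.low (by omega))
      (wkb ker J (k + 2) (b.low (by omega)) (hγ.low (by omega)) (hκ.low (by omega)))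

end Vale.Agent.P354XP
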